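import Vale.Agent.P284.H5.V16D
import Vale.Agent.P284.H894.V.Spec
import Mathlib.Topology.Homotopy.Lifting
import Mathlib.Analysis.Convex.Contractible
import Mathlib.Topology.Algebra.Module.LocallyConvex
import Mathlib.Analysis.Calculus.InverseFunctionTheorem.FDeriv
import Mathlib.Geometry.Manifold.MFDeriv.FDeriv

/-!
# P284 V16: the pluriharmonic functions with bounded gradient on a covering of a compact manifold which
is dominated by a holomorphic map `ℂⁿ → X` of finite order form a finite-dimensional space.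
-/

open scoped Manifold ContDiff Topology Pointwise ComplexConjugate ComplexOrder
open Filter Set Metric MeasureTheory

noncomputable section

namespace Vale.Agent.P284.H5.V

open Vale.Agent.P272.K Vale.Agent.P284.H248 Vale.Agent.P284.H894 Vale.Agent.P284.H894.G
  Vale.Agent.P284.H894.V

variable {n : ℕ}

section
variable {X : Type} [TopologicalSpace X] [ChartedSpace (Cm n) X]
  {E : Type} [TopologicalSpace E]
  {p : E → X} {w : Chart n X → Cm n → Matrix (Fin n) (Fin n) ℂ} {u : E → ℝ} {B : ℝ}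
  {Φ : Cm n → X}

lemma cHess_zero (z : Cm n) : cHess (fun _ : Cm n => (0 : ℝ)) z = 0 := by
  ext j k
  rw [cHess_apply]
  have : dzb k (fun _ : Cm n => ((0 : ℝ) : ℂ)) = fun _ => 0 := funext fun y => dzb_const _
  rw [this, dz_const]
  rfl

/-- The space of pluriharmonic functions with bounded gradient. -/
def phb (p : E → X) (w : Chart n X → Cm n → Matrix (Fin n) (Fin n) ℂ) : Submodule ℝ (E → ℝ) where
  carrier := {u | ∃ B, IsPHB p w u B}
  zero_mem' := by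
    refine ⟨0, fun y e he => ⟨fun _ => 0, Eventually.of_forall fun _ => rfl,
      Eventually.of_forall fun z => ⟨contDiffAt_const, cHess_zero z⟩, fun v => ?_⟩⟩
    have h : fderiv ℝ (fun _ : Cm n => (0 : ℝ)) (e (p y)) = 0 := fderiv_const_apply _
    rw [h]
    simp
  add_mem' := by
    rintro a b ⟨A, ha⟩ ⟨B, hb⟩
    refine ⟨2 * A + 2 * B, fun y e he => ?_⟩
    obtain ⟨g, hg1, hg2, hg3⟩ := ha y e he
    obtain ⟨k, hk1, hk2, hk3⟩ := hb y e he
    refine ⟨fun z => g z + k z, ?_, ?_, fun v => ?_⟩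
    · filter_upwards [hg1, hk1] with y' h1 h2
      rw [Pi.add_apply, h1, h2]
    · filter_upwards [hg2, hk2] with z h1 h2
      refine ⟨h1.1.add h2.1, ?_⟩
      rw [cHess_add (h1.1.of_le two_le) (h2.1.of_le two_le), h1.2, h2.2, add_zero]
    · rw [fderiv_fun_add (hg2.self_of_nhds.1.differentiableAt (by simp))
        (hk2.self_of_nhds.1.differentiableAt (by simp))]
      have h1 := hg3 v
      have h2 := hk3 v
      rw [add_apply]
      nlinarith [sq_nonneg (fderiv ℝ g (e (p y)) v - fderiv ℝ k (e (p y)) v)]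
  smul_mem' := by
    rintro c a ⟨A, ha⟩
    refine ⟨c ^ 2 * A, fun y e he => ?_⟩
    obtain ⟨g, hg1, hg2, hg3⟩ := ha y e he
    refine ⟨fun z => c * g z, ?_, ?_, fun v => ?_⟩
    · filter_upwards [hg1] with y' h1
      rw [Pi.smul_apply, h1, smul_eq_mul]
    · filter_upwards [hg2] with z h1
      refine ⟨contDiffAt_const.mul h1.1, ?_⟩
      rw [cHess_const_mul c (h1.1.of_le two_le), h1.2, smul_zero]
    · rw [fderiv_const_mul (hg2.self_of_nhds.1.differentiableAt (by simp))]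
      have h1 := mul_le_mul_of_nonneg_left (hg3 v) (sq_nonneg c)
      rw [smul_apply, smul_eq_mul, mul_pow]
      linarith

lemma map_nhds_tau [IsManifold 𝓘(ℂ, Cm n) ω X]
    (hΦ : ContMDiff 𝓘(ℂ, Cm n) 𝓘(ℂ, Cm n) ω Φ) {ζ : Cm n}
    (hinj : Function.Injective (mfderiv 𝓘(ℂ, Cm n) 𝓘(ℂ, Cm n) Φ ζ)) :
    map (fun ξ => chartAt (Cm n) (Φ ζ) (Φ ξ)) (𝓝 ζ) = 𝓝 (chartAt (Cm n) (Φ ζ) (Φ ζ)) := by
  set e := chartAt (Cm n) (Φ ζ) with he
  have hAt : At e (Φ ζ) := at_chartAt _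
  set τ : Cm n → Cm n := fun ξ => e (Φ ξ) with hτdef
  have hτ : ContDiffAt ℂ ω τ ζ := tau_smooth hΦ hAt
  have hmd : MDifferentiableAt 𝓘(ℂ, Cm n) 𝓘(ℂ, Cm n) Φ ζ := hΦ.contMDiffAt.mdifferentiableAt (by simp)
  have h1 : mfderiv 𝓘(ℂ, Cm n) 𝓘(ℂ, Cm n) Φ ζ = fderiv ℂ τ ζ := by
    rw [hmd.mfderiv]
    simp only [writtenInExtChartAt, mfld_simps, fderivWithin_univ]
    rfl
  rw [h1] at hinj
  have h2 : HasStrictFDerivAt τ (fderiv ℂ τ ζ) ζ := hτ.hasStrictFDerivAt (by simp)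
  have h3 : Function.Surjective (fderiv ℂ τ ζ) := by
    have : Function.Injective ((fderiv ℂ τ ζ : Cm n →L[ℂ] Cm n) : Cm n →ₗ[ℂ] Cm n) := hinj
    exact LinearMap.injective_iff_surjective.1 this
  exact h2.map_nhds_eq_of_surj (LinearMap.range_eq_top.2 h3)

end

section
variable {X : Type} [TopologicalSpace X] [ChartedSpace (Cm n) X] [IsManifold 𝓘(ℂ, Cm n) ω X]
  {E : Type} [TopologicalSpace E]
  {p : E → X} {w : Chart n X → Cm n → Matrix (Fin n) (Fin n) ℂ} {u : E → ℝ} {B : ℝ}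
  {Φ : Cm n → X} {F : Cm n → E}

lemma lift_contDiff (hw : IsHermitian w) (hΦ : ContMDiff 𝓘(ℂ, Cm n) 𝓘(ℂ, Cm n) ω Φ)
    (hu : IsPHB p w u B) (hF : Continuous F) (hpF : ∀ ζ, p (F ζ) = Φ ζ) :
    ContDiff ℝ ∞ fun ξ => (u (F ξ) : ℂ) :=
  contDiff_iff_contDiffAt.2 fun ζ => ofReal_contDiffAt (lift_local hw hΦ hu hF hpF ζ).1

lemma lift_dz_mem (hw : IsHermitian w) (hΦ : ContMDiff 𝓘(ℂ, Cm n) 𝓘(ℂ, Cm n) ω Φ)
    (hu : IsPHB p w u B) (hF : Continuous F) (hpF : ∀ ζ, p (F ζ) = Φ ζ) {C ρ : ℝ}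
    (hC : ∀ r : ℝ, 1 ≤ r → ∫ ζ in ball (0 : Cm n) r, enDens w Φ ζ ≤ C * r ^ ρ) {m : ℕ}
    (hm : ρ ≤ 2 * m) (j : Fin n) : dz j (fun ξ => (u (F ξ) : ℂ)) ∈ PG n m := by
  have hG := lift_contDiff hw hΦ hu hF hpF
  have hol : Hol (dz j fun ξ => (u (F ξ) : ℂ)) := by
    refine ⟨contDiff_iff_contDiffAt.2 fun z =>
      contDiffAt_dz (m := ∞) (r := ∞) hG.contDiffAt le_rfl, fun z k => ?_⟩
    rw [← dz_dzb_comm (hG.contDiffAt.of_le two_le), ← cHess_apply (f := fun ξ => u (F ξ)),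
      (lift_local hw hΦ hu hF hpF z).2.1]
    rfl
  have hen := enDens_continuous hw hΦ
  have hint : ∀ {f : Cm n → ℝ}, Continuous f → ∀ r : ℝ, IntegrableOn f (ball (0 : Cm n) r) :=
    fun hf r => (hf.continuousOn.integrableOn_compact
      (isCompact_closedBall 0 r)).mono_set ball_subset_closedBall
  refine mem_PG_of_L2 hol (C := |B| / 2 * C) (ρ := ρ) (fun r hr => ?_) hm
  calc ∫ z in ball (0 : Cm n) r, ‖dz j (fun ξ => (u (F ξ) : ℂ)) z‖ ^ 2
      ≤ ∫ z in ball (0 : Cm n) r, |B| / 2 * enDens w Φ z := by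
        refine setIntegral_mono_on (hint (hol.1.continuous.norm.pow 2) r)
          (hint (continuous_const.mul hen) r) measurableSet_ball fun z _ => ?_
        have h1 := (lift_local hw hΦ hu hF hpF z).2.2
        have h2 : ‖dz j (fun ξ => (u (F ξ) : ℂ)) z‖ ^ 2 ≤
            ∑ i, ‖dz i (fun ξ => (u (F ξ) : ℂ)) z‖ ^ 2 :=
          Finset.single_le_sum (f := fun i => ‖dz i (fun ξ => (u (F ξ) : ℂ)) z‖ ^ 2)
            (fun i _ => by positivity) (Finset.mem_univ j)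
        refine h2.trans (h1.trans ?_)
        have := mul_le_mul_of_nonneg_right (le_abs_self B) (enDens_nonneg hw hΦ z)
        linarith
    _ = |B| / 2 * ∫ z in ball (0 : Cm n) r, enDens w Φ z := integral_const_mul _ _
    _ ≤ |B| / 2 * (C * r ^ ρ) := mul_le_mul_of_nonneg_left (hC r hr) (by positivity)
    _ = _ := by ring

/-- If all `∂_j (u ∘ Φ~)` are `0`, then `u` is constant. -/
lemma const_of_lift [ConnectedSpace E] (hp : IsCoveringMap p) (hw : IsHermitian w)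
    (hΦ : ContMDiff 𝓘(ℂ, Cm n) 𝓘(ℂ, Cm n) ω Φ) (hu : IsPHB p w u B) (hF : Continuous F)
    (hpF : ∀ ζ, p (F ζ) = Φ ζ) {ζ₀ : Cm n}
    (hinj : Function.Injective (mfderiv 𝓘(ℂ, Cm n) 𝓘(ℂ, Cm n) Φ ζ₀))
    (h0 : ∀ j z, dz j (fun ξ => (u (F ξ) : ℂ)) z = 0) (y : E) : u y = u (F ζ₀) := by
  have hG := lift_contDiff hw hΦ hu hF hpF
  have hconst : ∀ ζ, u (F ζ) = u (F ζ₀) := by
    intro ζ
    have h1 : (u (F ζ) : ℂ) = (u (F ζ₀) : ℂ) :=
      is_const_of_fderiv_eq_zero (𝕜 := ℝ) (hG.differentiable (by simp))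
        (fun z => fderiv_zero_of_dz (g := fun ξ => u (F ξ)) (hG.differentiable (by simp) z)
          fun j => h0 j z) ζ ζ₀
    exact Complex.ofReal_injective h1
  set e := chartAt (Cm n) (Φ ζ₀) with he
  have hAt : At e (Φ ζ₀) := at_chartAt _
  have hAt' : At e (p (F ζ₀)) := by rw [hpF]; exact hAt
  obtain ⟨g, hug, -, -⟩ := hu (F ζ₀) e hAt'
  have hg : ∀ᶠ z in 𝓝 (e (Φ ζ₀)), g z = u (F ζ₀) := by
    rw [← map_nhds_tau hΦ hinj, eventually_map]
    filter_upwards [hF.continuousAt.eventually hug] with ξ hξ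
    rw [← hconst ξ, hξ, hpF]
  refine eq_const_of_eventually hp hu (y₀ := F ζ₀) ?_ y
  have hq : Tendsto (fun y' => e (p y')) (𝓝 (F ζ₀)) (𝓝 (e (Φ ζ₀))) := by
    rw [← hpF]
    exact (map_nhds_chart hp hAt'.2).le
  filter_upwards [hug, hq.eventually hg] with y' h1 h2
  rw [h1, h2]

end

theorem v16Stmt : V16Stmt := by
  intro n X _ _ _ _ _ _ w hw E _ _ p hp hsurj Φ hΦ
  obtain ⟨ζ₀, hinj⟩ := hΦ.nondeg
  obtain ⟨y₀, hy₀⟩ := hsurj (Φ ζ₀)
  obtain ⟨F, ⟨hF0, hpF'⟩, -⟩ :=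
    hp.existsUnique_continuousMap_lifts ⟨Φ, hΦ.holo.continuous⟩ ζ₀ y₀ hy₀
  have hpF : ∀ ζ, p (F ζ) = Φ ζ := fun ζ => congrFun hpF' ζ
  obtain ⟨C, ρ, hC⟩ := hΦ.order
  obtain ⟨m, hm⟩ : ∃ m : ℕ, ρ ≤ 2 * m := by
    obtain ⟨m, hm⟩ := exists_nat_ge ρ
    exact ⟨m, by have : (0 : ℝ) ≤ m := Nat.cast_nonneg m
                 linarith⟩
  refine ⟨phb p w, ?_, fun u => Iff.rfl⟩
  have := PG.finite n m
  have hmem : ∀ u : phb p w, ∀ j, dz j (fun ξ => ((u : E → ℝ) (F ξ) : ℂ)) ∈ PG n m := by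
    rintro ⟨u, B, hu⟩ j
    exact lift_dz_mem hw hΦ.holo hu F.continuous hpF hC hm j
  have hdiff : ∀ u : phb p w, Differentiable ℝ fun ξ => ((u : E → ℝ) (F ξ) : ℂ) := by
    rintro ⟨u, B, hu⟩
    exact (lift_contDiff hw hΦ.holo hu F.continuous hpF).differentiable (by simp)
  let L : phb p w →ₗ[ℝ] (Fin n → PG n m) × ℝ :=
    { toFun := fun u => (fun j => ⟨_, hmem u j⟩, (u : E → ℝ) (F ζ₀))
      map_add' := by
        intro a b
        refine Prod.ext ?_ rfl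
        funext j
        refine Subtype.ext ?_
        funext z
        have h : (fun ξ => (((a + b : phb p w) : E → ℝ) (F ξ) : ℂ)) =
            fun ξ => ((a : E → ℝ) (F ξ) : ℂ) + ((b : E → ℝ) (F ξ) : ℂ) := by
          funext ξ
          simp
        show dz j (fun ξ => (((a + b : phb p w) : E → ℝ) (F ξ) : ℂ)) z =
          dz j (fun ξ => ((a : E → ℝ) (F ξ) : ℂ)) z + dz j (fun ξ => ((b : E → ℝ) (F ξ) : ℂ)) z
        rw [h]
        exact dz_add (i := j) (hdiff a z) (hdiff b z)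
      map_smul' := by
        intro c a
        refine Prod.ext ?_ rfl
        funext j
        refine Subtype.ext ?_
        funext z
        have h : (fun ξ => (((c • a : phb p w) : E → ℝ) (F ξ) : ℂ)) =
            c • fun ξ => ((a : E → ℝ) (F ξ) : ℂ) := by
          funext ξ
          simp
        show dz j (fun ξ => (((c • a : phb p w) : E → ℝ) (F ξ) : ℂ)) z =
          c • dz j (fun ξ => ((a : E → ℝ) (F ξ) : ℂ)) z
        rw [h]
        exact dz_smul_real c (hdiff a z) }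
  have hL : Function.Injective L := by
    rw [injective_iff_map_eq_zero]
    intro a ha
    have h1 : (a : E → ℝ) (F ζ₀) = 0 := congrArg Prod.snd ha
    have h2 : ∀ j z, dz j (fun ξ => ((a : E → ℝ) (F ξ) : ℂ)) z = 0 := by
      intro j z
      have := congrFun (congrArg Prod.fst ha) j
      exact congrFun (congrArg Subtype.val this) z
    obtain ⟨B, hB⟩ := a.2
    refine Subtype.ext ?_
    funext y
    rw [const_of_lift hp hw hΦ.holo hB F.continuous hpF hinj h2 y, h1]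
    rfl
  exact FiniteDimensional.of_injective L hL

end Vale.Agent.P284.H5.V
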