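import Vale.Agent.P284.H639.TwIbp
import Vale.Agent.P284.H958.V9
import Vale.Agent.P284.H894.V.V12
import Vale.Agent.P284.H513.V11
import Vale.Agent.P284.H730.VP

/-! # P284, theorem A, row A6 (helper5): the Poincaré property on the base, twisted. -/

open scoped Manifold ContDiff Topology Pointwise ComplexConjugate ComplexOrder
open Filter Set Metric MeasureTheory

noncomputable section

namespace Vale.Agent.P284.H5.A

open Vale.Agent.P272.K Vale.Agent.P284.H248 Vale.Agent.P284.H894 Vale.Agent.P284.H894.V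
  Vale.Agent.P284.H913.V Vale.Agent.P284.H958 Vale.Agent.P284.H639.Tw
open Vale.Agent.P284.H409.A (lapC Tw Psi Pot PoinStmt)

section
variable {n : ℕ}

lemma sq_split {S : Set (Cm n)} (hS : MeasurableSet S) (hv : volume S ≠ ⊤) {f : Cm n → ℝ} {m : ℝ}
    (h1 : IntegrableOn (fun z => f z ^ 2) S) (h2 : IntegrableOn (fun z => (f z - m) ^ 2) S) :
    ∫ z in S, f z ^ 2 ≤ 2 * (∫ z in S, (f z - m) ^ 2) + 2 * ((volume S).toReal * m ^ 2) := by
  have h5 : ∫ z in S, f z ^ 2 ≤ ∫ z in S, (2 * (f z - m) ^ 2 + 2 * m ^ 2) := by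
    refine setIntegral_mono_on h1 ((h2.const_mul 2).add (integrableOn_const hv)) hS fun z _ => ?_
    nlinarith [sq_nonneg (f z - m - m)]
  rw [integral_add (h2.const_mul 2) (integrableOn_const hv), integral_const_mul, setIntegral_const,
    measureReal_def, smul_eq_mul] at h5
  refine h5.trans (le_of_eq ?_)
  ring

lemma const_split {S : Set (Cm n)} (hS : MeasurableSet S) (hv : volume S ≠ ⊤) {f : Cm n → ℝ} {m : ℝ}
    (h1 : IntegrableOn (fun z => f z ^ 2) S) (h2 : IntegrableOn (fun z => (f z - m) ^ 2) S) :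
    (volume S).toReal * m ^ 2 ≤ 2 * (∫ z in S, f z ^ 2) + 2 * ∫ z in S, (f z - m) ^ 2 := by
  have h5 : ∫ z in S, m ^ 2 ≤ ∫ z in S, (2 * f z ^ 2 + 2 * (f z - m) ^ 2) := by
    refine setIntegral_mono_on (integrableOn_const hv) ((h1.const_mul 2).add (h2.const_mul 2)) hS
      fun z _ => ?_
    nlinarith [sq_nonneg (f z + (f z - m))]
  rw [integral_add (h1.const_mul 2) (h2.const_mul 2), integral_const_mul, integral_const_mul,
    setIntegral_const, measureReal_def, smul_eq_mul] at h5
  exact h5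

lemma comb_le {S : Set (Cm n)} {f g : Cm n → ℝ} {a b : ℝ}
    (ha : a ^ 2 ≤ 1) (hb : b ^ 2 ≤ 1)
    (h1 : IntegrableOn (fun z => f z ^ 2) S) (h2 : IntegrableOn (fun z => g z ^ 2) S) :
    ∫ z in S, (a * f z + b * g z) ^ 2 ≤ 2 * (∫ z in S, f z ^ 2) + 2 * ∫ z in S, g z ^ 2 := by
  rw [← integral_const_mul, ← integral_const_mul, ← integral_add (h1.const_mul 2) (h2.const_mul 2)]
  refine integral_mono_of_nonneg (Eventually.of_forall fun z => sq_nonneg _)
    ((h1.const_mul 2).add (h2.const_mul 2)) (Eventually.of_forall fun z => ?_)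
  have e1 : (a * f z) ^ 2 ≤ f z ^ 2 := by
    rw [mul_pow]; nlinarith [sq_nonneg (f z)]
  have e2 : (b * g z) ^ 2 ≤ g z ^ 2 := by
    rw [mul_pow]; nlinarith [sq_nonneg (g z)]
  show (a * f z + b * g z) ^ 2 ≤ 2 * f z ^ 2 + 2 * g z ^ 2
  nlinarith [sq_nonneg (a * f z - b * g z)]

end

/-- **A6** -/
theorem poinStmt : PoinStmt := by
  intro n Γ _ C P K σ hσ hmul q hq hne h hT _ hE
  classical
  have hU : ∀ j, UT C σ (h j) := fun j => ⟨(hT j).smooth, (hT j).compat, fun g γ a z hz => by
    rw [(hT j).equi g γ a z hz]; simp⟩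
  have hpos : ∀ a, ∀ z ∈ C.Ω a, (K.w a z).PosDef := fun a => (K.ku a).pos
  have hVΩ : ∀ a, C.V a ⊆ C.Ω a := fun a => Vale.Agent.P284.H913.V.V_sub C a
  -- the data on the base
  set R : ℕ → C.I → Cm n → ℝ := fun j a z => (h j 1 a z).re with hR
  set I : ℕ → C.I → Cm n → ℝ := fun j a z => (h j 1 a z).im with hI
  have hsR : ∀ j a, ∀ z ∈ C.Ω a, ContDiffAt ℝ ∞ (R j a) z := fun j a z hz =>
    re_sm ((hU j).smooth 1 a z hz)
  have hsI : ∀ j a, ∀ z ∈ C.Ω a, ContDiffAt ℝ ∞ (I j a) z := fun j a z hz =>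
    im_sm ((hU j).smooth 1 a z hz)
  have hcR : ∀ j a, ContinuousOn (R j a) (C.Ω a) := fun j a z hz =>
    (hsR j a z hz).continuousAt.continuousWithinAt
  have hcI : ∀ j a, ContinuousOn (I j a) (C.Ω a) := fun j a z hz =>
    (hsI j a z hz).continuousAt.continuousWithinAt
  set G : ℕ → C.I → Cm n → ℝ := fun j a z => gr (K.w a) (R j a) (R j a) z +
    gr (K.w a) (I j a) (I j a) z with hG
  have hGB : ∀ j, BD C (G j) := fun j => BD_gr K hσ (hU j) (hU j)
  have hG0 : ∀ j a, ∀ z ∈ C.Ω a, 0 ≤ G j a z := fun j a z hz =>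
    add_nonneg (H730.V.vpStmt.nonneg (K.w a) (R j a) z (hpos a z hz)).1
      (H730.V.vpStmt.nonneg (K.w a) (I j a) z (hpos a z hz)).1
  set N : ℕ → C.I → Cm n → ℝ := fun j a z => ‖h j 1 a z‖ ^ 2 with hN
  have hNeq : ∀ j a z, N j a z = R j a z ^ 2 + I j a z ^ 2 := fun j a z => by
    simp only [hN, hR, hI]
    rw [← Complex.normSq_eq_norm_sq, Complex.normSq_apply]; ring
  have hNB : ∀ j, BD C (N j) := fun j => by
    refine BD_congr (BD_ip hσ (hU j) (hU j)) fun a z _ => ?_
    simp only [hN]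
    rw [Complex.mul_conj, Complex.ofReal_re, Complex.normSq_eq_norm_sq]
  set Qf : ℕ → C.I → Cm n → ℝ := fun j a z => q a z * ‖h j 1 a z‖ ^ 2 with hQf
  have hQB : ∀ j, BD C (Qf j) := fun j =>
    { cont := fun a => ContinuousOn.mul
        (fun z hz => (hq.smooth a z hz).continuousAt.continuousWithinAt) ((hNB j).cont a)
      compat := fun a b z hz hza hzb => by
        simp only [hQf]
        have h1 := (hNB j).compat a b z hz hza hzb
        simp only [hN] at h1
        rw [hq.compat a b z hz, h1] }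
  have hQ0 : ∀ j a, ∀ z ∈ C.Ω a, 0 ≤ Qf j a z := fun j a z hz =>
    mul_nonneg (hq.nonneg a z hz) (sq_nonneg _)
  have hE' : Tendsto (fun j => BInt P K (fun a z => G j a z + Qf j a z)) atTop (𝓝 0) := hE
  have hEG : Tendsto (fun j => BInt P K (G j)) atTop (𝓝 0) := by
    refine squeeze_zero (fun j => BInt_nonneg P K fun a z hz => hG0 j a z (hVΩ a hz)) (fun j => ?_) hE'
    rw [BInt_add P K (hGB j) (hQB j)]
    have := BInt_nonneg P K (F := Qf j) fun a z hz => hQ0 j a z (hVΩ a hz)
    linarith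
  have hEQ : Tendsto (fun j => BInt P K (Qf j)) atTop (𝓝 0) := by
    refine squeeze_zero (fun j => BInt_nonneg P K fun a z hz => hQ0 j a z (hVΩ a hz)) (fun j => ?_) hE'
    rw [BInt_add P K (hGB j) (hQB j)]
    have := BInt_nonneg P K (F := G j) fun a z hz => hG0 j a z (hVΩ a hz)
    linarith
  have hLam : ∀ a : C.I, 0 < K.Lam := fun a => K.lam_pos.trans_le (Lam_ge K a)
  -- energies of the pieces
  have hloc : ∀ {F : C.I → Cm n → ℝ}, BD C F → (∀ a, ∀ z ∈ C.Ω a, 0 ≤ F a z) → ∀ a,
      ∫ z in C.V a, F a z ≤ BInt P K F / K.lam := by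
    intro F hF h0 a
    rw [le_div_iff₀ K.lam_pos, mul_comm]
    exact (int_vol_ge K a (hF.cont a) (h0 a)).trans (hF.le P K h0 a)
  have hD1 : ∀ (f : C.I → Cm n → ℝ) j a, (∀ z ∈ C.Ω a, gr (K.w a) (f a) (f a) z ≤ G j a z) →
      ∫ z in C.V a, D1 (f a) z ≤ K.Lam * (BInt P K (G j) / K.lam) := by
    intro f j a hf
    have h1 : ∫ z in C.V a, D1 (f a) z ≤ ∫ z in C.V a, K.Lam * G j a z := by
      refine integral_mono_of_nonneg (Eventually.of_forall fun z => D1_nonneg _ _) ?_ ?_
      · exact (integrableOn_cball (((hGB j).cont a).mono (C.cV_sub a))).const_mul _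
      · refine (ae_restrict_iff' measurableSet_ball).2 (Eventually.of_forall fun z hz => ?_)
        have hz' := C.V_sub a hz
        exact ((H730.V.vpStmt.ell (K.w a) (f a) z K.lam K.Lam (hpos a z hz') K.lam_pos (K.low a z hz')
          (K.up a z hz')).1).trans (mul_le_mul_of_nonneg_left (hf z hz') (hLam a).le)
    rw [integral_const_mul] at h1
    exact h1.trans (mul_le_mul_of_nonneg_left (hloc (hGB j) (hG0 j) a) (hLam a).le)
  have hgR : ∀ j a, ∀ z ∈ C.Ω a, gr (K.w a) (R j a) (R j a) z ≤ G j a z := fun j a z hz => by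
    have := (H730.V.vpStmt.nonneg (K.w a) (I j a) z (hpos a z hz)).1
    simp only [hG]; linarith
  have hgI : ∀ j a, ∀ z ∈ C.Ω a, gr (K.w a) (I j a) (I j a) z ≤ G j a z := fun j a z hz => by
    have := (H730.V.vpStmt.nonneg (K.w a) (R j a) z (hpos a z hz)).1
    simp only [hG]; linarith
  choose A hA0 hA using fun a : C.I => poinc Vale.Agent.P284.H513.V.v11Stmt n (C.r a) (C.r_pos a)
  choose mR hmR using fun (j : ℕ) (a : C.I) => hA a (C.c a) (R j a)
    fun z hz => hsR j a z (C.cV_sub a hz)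
  choose mI hmI using fun (j : ℕ) (a : C.I) => hA a (C.c a) (I j a)
    fun z hz => hsI j a z (C.cV_sub a hz)
  set DR : ℕ → C.I → ℝ := fun j a => ∫ z in ball (C.c a) (2 * C.r a), (R j a z - mR j a) ^ 2 with hDR
  set DI : ℕ → C.I → ℝ := fun j a => ∫ z in ball (C.c a) (2 * C.r a), (I j a z - mI j a) ^ 2 with hDI
  have hDlim : ∀ a, Tendsto (fun j => A a * (K.Lam * (BInt P K (G j) / K.lam))) atTop (𝓝 0) := by
    intro a
    have := ((hEG.div_const K.lam).const_mul K.Lam).const_mul (A a)
    simpa using this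
  have hDRt : ∀ a, Tendsto (fun j => DR j a) atTop (𝓝 0) := fun a =>
    squeeze_zero (fun j => integral_nonneg fun z => sq_nonneg _)
      (fun j => (hmR j a).trans (mul_le_mul_of_nonneg_left (hD1 (R j) j a (hgR j a)) (hA0 a)))
      (hDlim a)
  have hDIt : ∀ a, Tendsto (fun j => DI j a) atTop (𝓝 0) := fun a =>
    squeeze_zero (fun j => integral_nonneg fun z => sq_nonneg _)
      (fun j => (hmI j a).trans (mul_le_mul_of_nonneg_left (hD1 (I j) j a (hgI j a)) (hA0 a)))
      (hDlim a)
  have hc2 : ∀ a, closedBall (C.c a) (2 * C.r a) ⊆ C.Ω a := fun a =>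
    (cball2_sub_V C a).trans (C.V_sub a)
  have hiR : ∀ j a m, IntegrableOn (fun z => (R j a z - m) ^ 2) (ball (C.c a) (2 * C.r a)) :=
    fun j a m => integrableOn_cball ((((hcR j a).mono (hc2 a)).sub continuousOn_const).pow 2)
  have hiI : ∀ j a m, IntegrableOn (fun z => (I j a z - m) ^ 2) (ball (C.c a) (2 * C.r a)) :=
    fun j a m => integrableOn_cball ((((hcI j a).mono (hc2 a)).sub continuousOn_const).pow 2)
  have hiR' : ∀ j a, IntegrableOn (fun z => R j a z ^ 2) (ball (C.c a) (2 * C.r a)) :=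
    fun j a => integrableOn_cball (((hcR j a).mono (hc2 a)).pow 2)
  have hiI' : ∀ j a, IntegrableOn (fun z => I j a z ^ 2) (ball (C.c a) (2 * C.r a)) :=
    fun j a => integrableOn_cball (((hcI j a).mono (hc2 a)).pow 2)
  -- neighbours
  have hstep : ∀ (γ : Γ) a b z, z ∈ C.O a b → z ∈ ball (C.c a) (2 * C.r a) →
      C.T a b z ∈ ball (C.c b) (2 * C.r b) →
      (Tendsto (fun j => mR j a) atTop (𝓝 0) ∧ Tendsto (fun j => mI j a) atTop (𝓝 0)) →
      (Tendsto (fun j => mR j b) atTop (𝓝 0) ∧ Tendsto (fun j => mI j b) atTop (𝓝 0)) := by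
    rintro - a b z hz h1 h2 ⟨hQ1, hQ2⟩
    obtain ⟨A', hA'0, hA'⟩ := overlap C a b z hz h1 h2
    set s := σ (C.κ a b z) with hs
    have hs1 : s.re ^ 2 + s.im ^ 2 = 1 := by
      have h3 : ‖s‖ ^ 2 = 1 := by rw [hs, hσ]; norm_num
      rw [← Complex.normSq_eq_norm_sq, Complex.normSq_apply] at h3
      nlinarith
    have hre1 : s.re ^ 2 ≤ 1 := by nlinarith [sq_nonneg s.im]
    have him1 : s.im ^ 2 ≤ 1 := by nlinarith [sq_nonneg s.re]
    have hglue : ∀ j, ∀ y ∈ C.O a b, C.κ a b y = C.κ a b z → h j 1 a y = s * h j 1 b (C.T a b y) := by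
      intro j y hy hκ
      have h3 := (hU j).compat 1 a b y hy
      have h4 := (hU j).equiv (C.κ a b z) 1 b (C.T a b y) (Vale.Agent.P284.H639.V.T_mem_Ω C hy)
      rw [mul_one] at h4
      rw [h3, one_mul, hκ, h4]
    have hlim : Tendsto (fun j => A' * (DR j a + (2 * DR j b + 2 * DI j b))) atTop (𝓝 0) := by
      have := ((hDRt a).add (((hDRt b).const_mul 2).add ((hDIt b).const_mul 2))).const_mul A'
      simpa using this
    have hlim' : Tendsto (fun j => A' * (DI j a + (2 * DR j b + 2 * DI j b))) atTop (𝓝 0) := by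
      have := ((hDIt a).add (((hDRt b).const_mul 2).add ((hDIt b).const_mul 2))).const_mul A'
      simpa using this
    have e1 : Tendsto (fun j => mR j a - (s.re * mR j b + (-s.im) * mI j b)) atTop (𝓝 0) := by
      refine tendsto_of_sq (squeeze_zero (fun j => sq_nonneg _) (fun j => ?_) hlim)
      refine (hA' (R j a) (fun y => s.re * R j b y + (-s.im) * I j b y) _ _ ((hcR j a).mono (hc2 a))
        ((continuousOn_const.mul ((hcR j b).mono (hc2 b))).add
          (continuousOn_const.mul ((hcI j b).mono (hc2 b)))) fun y hy hκ => ?_).trans ?_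
      · simp only [hR, hI]
        rw [hglue j y hy hκ, Complex.mul_re]; ring
      · refine mul_le_mul_of_nonneg_left (add_le_add le_rfl ?_) hA'0
        refine le_trans (le_of_eq ?_) (comb_le hre1
          (by rw [neg_sq]; exact him1) (hiR j b (mR j b)) (hiI j b (mI j b)))
        congr 1
        funext y
        ring
    have e2 : Tendsto (fun j => mI j a - (s.im * mR j b + s.re * mI j b)) atTop (𝓝 0) := by
      refine tendsto_of_sq (squeeze_zero (fun j => sq_nonneg _) (fun j => ?_) hlim')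
      refine (hA' (I j a) (fun y => s.im * R j b y + s.re * I j b y) _ _ ((hcI j a).mono (hc2 a))
        ((continuousOn_const.mul ((hcR j b).mono (hc2 b))).add
          (continuousOn_const.mul ((hcI j b).mono (hc2 b)))) fun y hy hκ => ?_).trans ?_
      · simp only [hR, hI]
        rw [hglue j y hy hκ, Complex.mul_im]; ring
      · refine mul_le_mul_of_nonneg_left (add_le_add le_rfl ?_) hA'0
        refine le_trans (le_of_eq ?_) (comb_le him1
          hre1 (hiR j b (mR j b)) (hiI j b (mI j b)))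
        congr 1
        funext y
        ring
    have e3 : Tendsto (fun j => s.re * mR j b + (-s.im) * mI j b) atTop (𝓝 0) := by
      have := hQ1.sub e1
      simpa using this
    have e4 : Tendsto (fun j => s.im * mR j b + s.re * mI j b) atTop (𝓝 0) := by
      have := hQ2.sub e2
      simpa using this
    constructor
    · have := (e3.const_mul s.re).add (e4.const_mul s.im)
      rw [mul_zero, mul_zero, add_zero] at this
      refine this.congr fun j => ?_
      have : s.re * (s.re * mR j b + -s.im * mI j b) + s.im * (s.im * mR j b + s.re * mI j b) =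
        (s.re ^ 2 + s.im ^ 2) * mR j b := by ring
      rw [this, hs1, one_mul]
    · have := (e3.const_mul (-s.im)).add (e4.const_mul s.re)
      rw [mul_zero, mul_zero, add_zero] at this
      refine this.congr fun j => ?_
      have : -s.im * (s.re * mR j b + -s.im * mI j b) + s.re * (s.im * mR j b + s.re * mI j b) =
        (s.re ^ 2 + s.im ^ 2) * mI j b := by ring
      rw [this, hs1, one_mul]
  -- the start
  obtain ⟨a₀, z₀, hz₀, hq₀⟩ := hne
  obtain ⟨b, hb1, hb2⟩ := C.cover a₀ z₀ hz₀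
  set y₀ := C.T a₀ b z₀ with hy₀
  have hy₀Ω : y₀ ∈ C.Ω b := ball_subset_ball (by linarith [C.r_pos b]) hb2
  have hy₀2 : y₀ ∈ ball (C.c b) (2 * C.r b) := ball_subset_ball (by linarith [C.r_pos b]) hb2
  have hqy : 0 < q b y₀ := by
    refine lt_of_le_of_ne (hq.nonneg b y₀ hy₀Ω) ?_
    rw [hy₀, ← hq.compat a₀ b z₀ hb1]
    exact hq₀.symm
  have hqc : ContinuousAt (q b) y₀ := (hq.smooth b y₀ hy₀Ω).continuousAt
  have hev : ∀ᶠ y in 𝓝 y₀, y ∈ ball (C.c b) (2 * C.r b) ∧ q b y₀ / 2 < q b y :=
    Filter.Eventually.and (isOpen_ball.mem_nhds hy₀2) (hqc.eventually (lt_mem_nhds (by linarith)))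
  obtain ⟨δ, hδ, hball⟩ := Metric.eventually_nhds_iff_ball.1 hev
  have hUsub : ball y₀ δ ⊆ ball (C.c b) (2 * C.r b) := fun y hy => (hball y hy).1
  have hUv : (volume (ball y₀ δ)) ≠ ⊤ := measure_ball_lt_top.ne
  have hUp : 0 < (volume (ball y₀ δ)).toReal :=
    ENNReal.toReal_pos (measure_ball_pos volume _ hδ).ne' hUv
  have hUint : ∀ (f : C.I → Cm n → ℝ) j, ContinuousOn (f b) (C.Ω b) →
      (∀ y, f b y ^ 2 ≤ N j b y) → ∫ z in ball y₀ δ, f b z ^ 2 ≤
        2 / q b y₀ * (BInt P K (Qf j) / K.lam) := by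
    intro f j hfc hfN
    have i0 : IntegrableOn (fun z => f b z ^ 2) (ball (C.c b) (2 * C.r b)) :=
      integrableOn_cball ((hfc.mono (hc2 b)).pow 2)
    have i1 : IntegrableOn (Qf j b) (C.V b) := intV ((hQB j).cont b)
    have h1 : ∫ z in ball y₀ δ, f b z ^ 2 ≤ ∫ z in ball y₀ δ, 2 / q b y₀ * Qf j b z := by
      refine setIntegral_mono_on (i0.mono_set hUsub)
        ((i1.mono_set (hUsub.trans (ball2_sub_V C b))).const_mul _) measurableSet_ball fun z hz => ?_
      have h2 := (hball z hz).2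
      have h3 : 0 ≤ N j b z := sq_nonneg _
      have h4 : N j b z ≤ 2 / q b y₀ * Qf j b z := by
        have e : 2 / q b y₀ * Qf j b z = (q b z / (q b y₀ / 2)) * N j b z := by
          simp only [hQf, hN]
          field_simp
        rw [e]
        exact le_mul_of_one_le_left h3 ((one_le_div (by linarith)).2 h2.le)
      exact (hfN z).trans h4
    refine h1.trans ?_
    rw [integral_const_mul]
    refine mul_le_mul_of_nonneg_left ?_ (by positivity)
    refine le_trans ?_ (hloc (hQB j) (hQ0 j) b)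
    refine setIntegral_mono_set i1 ?_ (LE.le.eventuallyLE (hUsub.trans (ball2_sub_V C b)))
    filter_upwards [ae_restrict_mem (isOpen_V C b).measurableSet] with z hz
    exact hQ0 j b z (hVΩ b hz)
  have hUlim : Tendsto (fun j => 2 / q b y₀ * (BInt P K (Qf j) / K.lam)) atTop (𝓝 0) := by
    have := (hEQ.div_const K.lam).const_mul (2 / q b y₀)
    simpa using this
  have hstart : Tendsto (fun j => mR j b) atTop (𝓝 0) ∧ Tendsto (fun j => mI j b) atTop (𝓝 0) := by
    constructor
    · have h1 : Tendsto (fun j => (2 * (2 / q b y₀ * (BInt P K (Qf j) / K.lam)) + 2 * DR j b) /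
          (volume (ball y₀ δ)).toReal) atTop (𝓝 0) := by
        have := ((hUlim.const_mul 2).add ((hDRt b).const_mul 2)).div_const
          (volume (ball y₀ δ)).toReal
        simpa using this
      refine tendsto_of_sq (squeeze_zero (fun j => sq_nonneg _) (fun j => ?_) h1)
      rw [le_div_iff₀ hUp, mul_comm]
      refine (const_split measurableSet_ball hUv ((hiR' j b).mono_set hUsub)
        ((hiR j b (mR j b)).mono_set hUsub)).trans ?_
      refine add_le_add (mul_le_mul_of_nonneg_left ?_ (by norm_num))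
        (mul_le_mul_of_nonneg_left ?_ (by norm_num))
      · exact hUint (R j) j (hcR j b) fun y => by
          rw [hNeq]; nlinarith [sq_nonneg (I j b y)]
      · exact setIntegral_mono_set (hiR j b (mR j b)) (Eventually.of_forall fun z => sq_nonneg _)
          (LE.le.eventuallyLE hUsub)
    · have h1 : Tendsto (fun j => (2 * (2 / q b y₀ * (BInt P K (Qf j) / K.lam)) + 2 * DI j b) /
          (volume (ball y₀ δ)).toReal) atTop (𝓝 0) := by
        have := ((hUlim.const_mul 2).add ((hDIt b).const_mul 2)).div_const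
          (volume (ball y₀ δ)).toReal
        simpa using this
      refine tendsto_of_sq (squeeze_zero (fun j => sq_nonneg _) (fun j => ?_) h1)
      rw [le_div_iff₀ hUp, mul_comm]
      refine (const_split measurableSet_ball hUv ((hiI' j b).mono_set hUsub)
        ((hiI j b (mI j b)).mono_set hUsub)).trans ?_
      refine add_le_add (mul_le_mul_of_nonneg_left ?_ (by norm_num))
        (mul_le_mul_of_nonneg_left ?_ (by norm_num))
      · exact hUint (I j) j (hcI j b) fun y => by
          rw [hNeq]; nlinarith [sq_nonneg (R j b y)]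
      · exact setIntegral_mono_set (hiI j b (mI j b)) (Eventually.of_forall fun z => sq_nonneg _)
          (LE.le.eventuallyLE hUsub)
  have hall : ∀ a, Tendsto (fun j => mR j a) atTop (𝓝 0) ∧ Tendsto (fun j => mI j a) atTop (𝓝 0) := by
    intro a
    exact v12Stmt n Γ C (fun _ a => Tendsto (fun j => mR j a) atTop (𝓝 0) ∧
      Tendsto (fun j => mI j a) atTop (𝓝 0)) (fun γ a b z hz h1 h2 hQ => hstep γ a b z hz h1 h2 hQ)
      1 b 1 a hstart
  -- the conclusion
  have hv : ∀ a : C.I, volume (ball (C.c a) (2 * C.r a)) ≠ ⊤ := fun a => measure_ball_lt_top.ne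
  have hfin : Tendsto (fun j => ∑ a, K.Lam * ((2 * DR j a + 2 *
      ((volume (ball (C.c a) (2 * C.r a))).toReal * mR j a ^ 2)) + (2 * DI j a + 2 *
      ((volume (ball (C.c a) (2 * C.r a))).toReal * mI j a ^ 2)))) atTop (𝓝 0) := by
    have := tendsto_finsetSum (Finset.univ : Finset C.I) fun a _ =>
      ((((hDRt a).const_mul 2).add ((((hall a).1.pow 2).const_mul
        (volume (ball (C.c a) (2 * C.r a))).toReal).const_mul 2)).add
      (((hDIt a).const_mul 2).add ((((hall a).2.pow 2).const_mul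
        (volume (ball (C.c a) (2 * C.r a))).toReal).const_mul 2))).const_mul K.Lam
    simpa using this
  refine squeeze_zero (fun j => BInt_nonneg P K fun a z _ => sq_nonneg _) (fun j => ?_) hfin
  refine ((hNB j).ge P K fun a z _ => sq_nonneg _).trans (Finset.sum_le_sum fun a _ => ?_)
  have hW2 : C.W a ⊆ ball (C.c a) (2 * C.r a) := ball_subset_ball (by linarith [C.r_pos a])
  have i2 : IntegrableOn (N j a) (ball (C.c a) (2 * C.r a)) :=
    integrableOn_cball (((hNB j).cont a).mono (hc2 a))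
  calc ∫ z in C.W a, N j a z * vol (K.w a) z ≤ ∫ z in C.W a, K.Lam * N j a z := by
        refine setIntegral_mono_on (((hNB j).int_vol K a).mono_set (W_sub C a))
          ((i2.mono_set hW2).const_mul _) measurableSet_ball fun z hz => ?_
        rw [mul_comm]
        exact mul_le_mul_of_nonneg_right (K.vol_up a z (hVΩ a (W_sub C a hz))) (sq_nonneg _)
    _ = K.Lam * ∫ z in C.W a, N j a z := integral_const_mul _ _
    _ ≤ K.Lam * ∫ z in ball (C.c a) (2 * C.r a), N j a z := by
        refine mul_le_mul_of_nonneg_left ?_ (hLam a).le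
        exact setIntegral_mono_set i2 (Eventually.of_forall fun z => sq_nonneg _)
          (LE.le.eventuallyLE hW2)
    _ = K.Lam * ((∫ z in ball (C.c a) (2 * C.r a), R j a z ^ 2) +
          ∫ z in ball (C.c a) (2 * C.r a), I j a z ^ 2) := by
        rw [← integral_add (hiR' j a) (hiI' j a)]
        congr 1
        refine integral_congr_ae (Eventually.of_forall fun z => ?_)
        exact hNeq j a z
    _ ≤ _ := by
        refine mul_le_mul_of_nonneg_left ?_ (hLam a).le
        exact add_le_add (sq_split measurableSet_ball (hv a) (hiR' j a) (hiR j a (mR j a)))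
          (sq_split measurableSet_ball (hv a) (hiI' j a) (hiI j a (mI j a)))

end Vale.Agent.P284.H5.A
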