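import Vale.Agent.P284.H5.C2
import Mathlib.GroupTheory.CosetCover
import Mathlib.Analysis.Analytic.Uniqueness
import Mathlib.Analysis.Complex.CauchyIntegral

/-!
# P284, block S5N: the norm lemma

A finite-sheeted covering of `{a ≠ 0} ⊆ ℂᵐ`, a holomorphic vector function of bounded polynomial growth on it:
if it vanishes to high order at one point then it vanishes identically on some sheet.
-/

open scoped Manifold ContDiff Topology Pointwise ComplexConjugate ComplexOrder
open Filter Set Metric MeasureTheory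

noncomputable section

namespace Vale.Agent.P284.H5.C2

open Vale.Agent.P272.K Vale.Agent.P284.H5.V

variable {n m : ℕ}

/-- Identity theorem on a ball for a holomorphic function of several variables. -/
lemma ident_ball {f : Cm m → ℂ} {c₀ : Cm m} {r : ℝ}
    (hf : ∀ z ∈ ball c₀ r, DifferentiableAt ℂ f z) {z₁ : Cm m} (hz₁ : z₁ ∈ ball c₀ r)
    (h0 : ∀ᶠ z in 𝓝 z₁, f z = 0) : ∀ z ∈ ball c₀ r, f z = 0 := by
  intro z hz
  set q : ℂ → Cm m := fun t => z₁ + t • (z - z₁) with hq
  have hqc : Continuous q := by fun_prop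
  set S : Set ℂ := q ⁻¹' ball c₀ r with hS
  have hSo : IsOpen S := isOpen_ball.preimage hqc
  have hSc : IsPreconnected S := by
    refine Convex.isPreconnected ?_
    intro a ha b hb s t hs ht hst
    have h1 : q (s • a + t • b) = s • q a + t • q b := by
      simp only [hq]
      have : z₁ = s • z₁ + t • z₁ := by rw [← add_smul, hst, one_smul]
      nth_rewrite 1 [this]
      simp only [smul_add, add_smul, smul_assoc]
      abel
    show q (s • a + t • b) ∈ ball c₀ r
    rw [h1]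
    exact (convex_ball c₀ r) ha hb hs ht hst
  have hd : DifferentiableOn ℂ (fun t => f (q t)) S := by
    intro t ht
    have h2 : DifferentiableAt ℂ q t := by
      simp only [hq]
      exact (differentiableAt_id.smul_const _).const_add _
    exact ((hf (q t) ht).comp t h2).differentiableWithinAt
  have han := hd.analyticOnNhd hSo
  have h0' : (0 : ℂ) ∈ S := by
    show q 0 ∈ ball c₀ r
    simpa [hq] using hz₁
  have hev : (fun t => f (q t)) =ᶠ[𝓝 0] 0 := by
    have h3 : Tendsto q (𝓝 0) (𝓝 z₁) := by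
      have := hqc.tendsto 0
      simpa [hq] using this
    exact h3.eventually h0
  have h1 : (1 : ℂ) ∈ S := by
    show q 1 ∈ ball c₀ r
    simpa [hq] using hz
  have := han.eqOn_zero_of_preconnected_of_eventuallyEq_zero hSc h0' hev h1
  simpa [hq] using this

lemma differentiableAt_prod {ι : Type*} {s : Finset ι} {f : ι → Cm m → ℂ} {z : Cm m}
    (hf : ∀ i ∈ s, DifferentiableAt ℂ (f i) z) : DifferentiableAt ℂ (fun z => ∏ i ∈ s, f i z) z := by
  classical
  induction s using Finset.induction_on with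
  | empty => simp
  | insert a s ha ih =>
    simp only [Finset.prod_insert ha]
    exact (hf a (Finset.mem_insert_self a s)).mul
      (ih fun b hb => hf b (Finset.mem_insert_of_mem hb))

/-- The ring of holomorphic functions on a ball is a domain. -/
lemma prod_ball {k : ℕ} : ∀ {f : Fin k → Cm m → ℂ} {c₀ : Cm m} {r : ℝ} (_ : 0 < r)
    (_ : ∀ i, ∀ z ∈ ball c₀ r, DifferentiableAt ℂ (f i) z)
    (_ : ∀ z ∈ ball c₀ r, ∏ i, f i z = 0), ∃ i, ∀ z ∈ ball c₀ r, f i z = 0 := by
  induction k with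
  | zero =>
    intro f c₀ r hr hf h
    have := h c₀ (mem_ball_self hr)
    simp at this
  | succ k ih =>
    intro f c₀ r hr hf h
    by_cases h0 : ∀ z ∈ ball c₀ r, f 0 z = 0
    · exact ⟨0, h0⟩
    · push Not at h0
      obtain ⟨z₁, hz₁, hne⟩ := h0
      have hP : ∀ z ∈ ball c₀ r, ∏ i : Fin k, f i.succ z = 0 := by
        refine ident_ball (f := fun z => ∏ i : Fin k, f i.succ z) (fun z hz => ?_) hz₁ ?_
        · exact differentiableAt_prod (s := Finset.univ) (f := fun (i : Fin k) z => f i.succ z)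
            fun i _ => hf i.succ z hz
        · have h1 : ∀ᶠ z in 𝓝 z₁, f 0 z ≠ 0 :=
            (hf 0 z₁ hz₁).continuousAt.eventually_ne hne
          filter_upwards [h1, isOpen_ball.mem_nhds hz₁] with z hz hzb
          have h2 := h z hzb
          rw [Fin.prod_univ_succ] at h2
          exact (mul_eq_zero.1 h2).resolve_left hz
      obtain ⟨i, hi⟩ := ih hr (fun i => hf i.succ) hP
      exact ⟨i.succ, hi⟩

/-- A polynomial of degree `≤ D` which is `O(|w - w₁|^(D+1))` vanishes. -/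
lemma poly_zero_of_isBigO {q : MvPolynomial (Fin m) ℂ} {D : ℕ} (hq : q.totalDegree ≤ D)
    {w₁ : Cm m} (h : (fun w => MvPolynomial.eval w q) =O[𝓝 w₁] fun w => ‖w - w₁‖ ^ (D + 1)) :
    q = 0 := by
  refine MvPolynomial.funext fun x => ?_
  rw [map_zero]
  set ℓ : ℂ → Cm m := fun t => w₁ + t • (x - w₁) with hℓ
  set p : Polynomial ℂ := MvPolynomial.aeval (fun i => Polynomial.C (w₁ i) +
    Polynomial.X * Polynomial.C (x i - w₁ i)) q with hp
  have hpe : ∀ t, p.eval t = MvPolynomial.eval (ℓ t) q := by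
    intro t
    have h1 : p.eval t = (Polynomial.evalRingHom t) (MvPolynomial.aeval (fun i =>
      Polynomial.C (w₁ i) + Polynomial.X * Polynomial.C (x i - w₁ i)) q) := rfl
    rw [h1, MvPolynomial.aeval_def, MvPolynomial.hom_eval₂, MvPolynomial.eval,
      MvPolynomial.coe_eval₂Hom]
    congr 1
    · ext c
      simp
    · funext i
      simp [hℓ]
  have hdeg : p.natDegree ≤ D := by
    have hfi : ∀ i, (Polynomial.C (w₁ i) + Polynomial.X * Polynomial.C (x i - w₁ i)).natDegree ≤ 1 := by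
      intro i
      refine (Polynomial.natDegree_add_le _ _).trans (max_le ?_ ?_)
      · rw [Polynomial.natDegree_C]; exact Nat.zero_le _
      · refine Polynomial.natDegree_mul_le.trans ?_
        rw [Polynomial.natDegree_C, Polynomial.natDegree_X]
    have h1 := MvPolynomial.aeval_natDegree_le (m := D) (n := 1) q hq _ hfi
    rw [mul_one] at h1
    exact h1
  suffices hp0 : p = 0 by
    have h1 := hpe 1
    rw [hp0] at h1
    simpa [hℓ] using h1.symm
  by_contra hp0
  obtain ⟨r, hr, hndvd⟩ := p.exists_eq_pow_rootMultiplicity_mul_and_not_dvd hp0 0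
  set k := p.rootMultiplicity 0 with hk
  rw [map_zero, sub_zero] at hr hndvd
  have hkD : k ≤ D := by
    have h1 : p.natDegree = k + r.natDegree := by
      have hr0 : r ≠ 0 := by
        rintro rfl
        exact hndvd (dvd_zero _)
      rw [hr, Polynomial.natDegree_mul (pow_ne_zero _ Polynomial.X_ne_zero) hr0,
        Polynomial.natDegree_X_pow]
    omega
  have hℓt : Tendsto ℓ (𝓝 0) (𝓝 w₁) := by
    have hc : Continuous ℓ := by fun_prop
    have := hc.tendsto 0
    simpa [hℓ] using this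
  have h1 : (fun t : ℂ => p.eval t) =O[𝓝 0] fun t : ℂ => ‖t‖ ^ (D + 1) := by
    have h2 := h.comp_tendsto hℓt
    have h3 : (fun t : ℂ => p.eval t) =O[𝓝 0] fun t : ℂ => ‖ℓ t - w₁‖ ^ (D + 1) := by
      refine Asymptotics.IsBigO.congr_left h2 fun t => ?_
      exact (hpe t).symm
    refine h3.trans ?_
    refine Asymptotics.IsBigO.of_bound (‖x - w₁‖ ^ (D + 1)) (Eventually.of_forall fun t => ?_)
    have : ℓ t - w₁ = t • (x - w₁) := by simp [hℓ]
    rw [this, norm_smul, mul_pow, norm_mul, norm_pow, norm_pow, norm_norm, norm_norm]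
    exact (mul_comm _ _).le
  obtain ⟨C, hC⟩ := h1.bound
  -- `r(t) → 0`
  have h4 : ∀ᶠ t in 𝓝[≠] (0 : ℂ), ‖r.eval t‖ ≤ C * ‖t‖ := by
    have hsmall : ∀ᶠ t in 𝓝 (0 : ℂ), ‖t‖ < 1 := by
      filter_upwards [ball_mem_nhds (0 : ℂ) one_pos] with t ht
      simpa using ht
    filter_upwards [hC.filter_mono nhdsWithin_le_nhds, hsmall.filter_mono nhdsWithin_le_nhds,
      self_mem_nhdsWithin] with t ht ht1 htne
    have ht0 : t ≠ 0 := htne
    have htpos : 0 < ‖t‖ := norm_pos_iff.2 ht0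
    rw [hr, Polynomial.eval_mul, Polynomial.eval_pow, Polynomial.eval_X, norm_mul, norm_pow,
      norm_pow, norm_norm] at ht
    have h5 : ‖t‖ ^ (D + 1) = ‖t‖ ^ k * (‖t‖ ^ (D - k) * ‖t‖) := by
      rw [← mul_assoc, ← pow_add, ← pow_succ]
      congr 1
      omega
    rw [h5] at ht
    have h6 : ‖r.eval t‖ ≤ C * (‖t‖ ^ (D - k) * ‖t‖) := by
      have h7 : ‖t‖ ^ k * ‖r.eval t‖ ≤ ‖t‖ ^ k * (C * (‖t‖ ^ (D - k) * ‖t‖)) := by
        calc _ ≤ _ := ht
          _ = _ := by ring
      exact le_of_mul_le_mul_left h7 (by positivity)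
    have hCnn : 0 ≤ C := by
      by_contra hneg
      push Not at hneg
      have : C * (‖t‖ ^ (D - k) * ‖t‖) < 0 := mul_neg_of_neg_of_pos hneg (by positivity)
      linarith [norm_nonneg (r.eval t)]
    refine h6.trans ?_
    refine mul_le_mul_of_nonneg_left ?_ hCnn
    have : ‖t‖ ^ (D - k) ≤ 1 := pow_le_one₀ (norm_nonneg _) ht1.le
    nlinarith
  have h5 : Tendsto (fun t : ℂ => r.eval t) (𝓝[≠] 0) (𝓝 0) := by
    rw [tendsto_zero_iff_norm_tendsto_zero]
    have h6 : Tendsto (fun t : ℂ => C * ‖t‖) (𝓝[≠] 0) (𝓝 0) := by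
      have : Tendsto (fun t : ℂ => C * ‖t‖) (𝓝 0) (𝓝 (C * ‖(0 : ℂ)‖)) :=
        (continuous_const.mul continuous_norm).tendsto 0
      simp only [norm_zero, mul_zero] at this
      exact this.mono_left nhdsWithin_le_nhds
    exact squeeze_zero' (Eventually.of_forall fun t => norm_nonneg _) h4 h6
  have h6 : Tendsto (fun t : ℂ => r.eval t) (𝓝[≠] 0) (𝓝 (r.eval 0)) :=
    (r.continuous.tendsto 0).mono_left nhdsWithin_le_nhds
  have h7 : r.eval 0 = 0 := tendsto_nhds_unique h6 h5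
  exact hndvd (Polynomial.X_dvd_iff.2 (by rwa [Polynomial.coeff_zero_eq_eval_zero]))

/-- local sections of the finite-sheeted covering `T`, along which `g` is holomorphic -/
structure LocSec (T : Cm m → Finset (Cm n)) (g : Cm n → Cm m) (w₁ : Cm m) (k : ℕ)
    (σ : Fin k → Cm m → Cm n) : Prop where
  eq : ∀ᶠ w in 𝓝 w₁, T w = Finset.univ.image fun i => σ i w
  inj : ∀ᶠ w in 𝓝 w₁, Function.Injective fun i => σ i w
  diff : ∀ i, ∀ᶠ w in 𝓝 w₁, DifferentiableAt ℂ (fun w => g (σ i w)) w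

/-- the norm of the linear form `c` of `g` -/
def nrm (T : Cm m → Finset (Cm n)) (g : Cm n → Cm m) (c : Cm m) (w : Cm m) : ℂ :=
  ∏ z ∈ T w, ∑ j, c j * g z j

lemma LocSec.nrm_eq {T : Cm m → Finset (Cm n)} {g : Cm n → Cm m} {w₁ : Cm m} {k : ℕ}
    {σ : Fin k → Cm m → Cm n} (h : LocSec T g w₁ k σ) (c : Cm m) :
    nrm T g c =ᶠ[𝓝 w₁] fun w => ∏ i, ∑ j, c j * g (σ i w) j := by
  filter_upwards [h.eq, h.inj] with w h1 h2
  unfold nrm
  rw [h1, Finset.prod_image fun i _ i' _ hii => h2 hii]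

lemma form_diff {g : Cm n → Cm m} {w : Cm m} {s : Cm m → Cm n}
    (h : DifferentiableAt ℂ (fun w => g (s w)) w) (c : Cm m) :
    DifferentiableAt ℂ (fun w => ∑ j, c j * g (s w) j) w := by
  refine DifferentiableAt.fun_sum fun j _ => ?_
  exact ((differentiableAt_pi.1 h) j).const_mul _

lemma norm_form_le (c : Cm m) (v : Cm m) : ‖∑ j, c j * v j‖ ≤ (∑ j, ‖c j‖) * ‖v‖ := by
  rw [Finset.sum_mul]
  refine (norm_sum_le _ _).trans (Finset.sum_le_sum fun j _ => ?_)
  rw [norm_mul]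
  exact mul_le_mul_of_nonneg_left (norm_le_pi_norm v j) (norm_nonneg _)

/-- **The norm is a polynomial** after multiplication by a power of `a`. -/
theorem nrm_poly {a : MvPolynomial (Fin m) ℂ} (ha : a ≠ 0) {T : Cm m → Finset (Cm n)}
    {g : Cm n → Cm m}
    (hloc : ∀ w₁, MvPolynomial.eval w₁ a ≠ 0 → ∃ k σ, LocSec T g w₁ k σ) {d : ℕ}
    (hcard : ∀ w, MvPolynomial.eval w a ≠ 0 → (T w).card ≤ d) {C : ℝ} {s M : ℕ}
    (hb : ∀ w, MvPolynomial.eval w a ≠ 0 → ∀ z ∈ T w,
      ‖g z‖ * ‖MvPolynomial.eval w a‖ ^ M ≤ C * (1 + ‖w‖) ^ s) (c : Cm m) :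
    ∃ q : MvPolynomial (Fin m) ℂ, q.totalDegree ≤ a.totalDegree * (M * d) + s * d ∧
      ∀ w, MvPolynomial.eval w a ≠ 0 →
        MvPolynomial.eval w a ^ (M * d) * nrm T g c w = MvPolynomial.eval w q := by
  obtain ⟨A, hA0, hA⟩ := eval_growth a
  set A' : ℝ := max 1 A with hA'
  have hA'1 : 1 ≤ A' := le_max_left _ _
  set C' : ℝ := max 1 ((∑ j, ‖c j‖) * C) with hC'
  have hC'1 : 1 ≤ C' := le_max_left _ _
  refine ext_poly ha (C := A' ^ (M * d) * C' ^ d) (fun w₁ hw₁ => ?_) (fun w hw => ?_)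
  · obtain ⟨k, σ, hσ⟩ := hloc w₁ hw₁
    have h1 := hσ.nrm_eq c
    have h2 : DifferentiableAt ℂ (fun w => ∏ i, ∑ j, c j * g (σ i w) j) w₁ :=
      differentiableAt_prod fun i _ => form_diff (hσ.diff i).self_of_nhds c
    exact (((differentiable_eval a) w₁).pow _).mul (h2.congr_of_eventuallyEq h1)
  · have h1 : (1 : ℝ) ≤ 1 + ‖w‖ := by linarith [norm_nonneg w]
    set k := (T w).card with hk
    have hkd : k ≤ d := hcard w hw
    have hpos : 0 < ‖MvPolynomial.eval w a‖ := norm_pos_iff.2 hw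
    have e1 : ‖MvPolynomial.eval w a ^ (M * d) * nrm T g c w‖ =
        ‖MvPolynomial.eval w a‖ ^ (M * (d - k)) *
          ∏ z ∈ T w, (‖∑ j, c j * g z j‖ * ‖MvPolynomial.eval w a‖ ^ M) := by
      rw [norm_mul, norm_pow, nrm, norm_prod, Finset.prod_mul_distrib, Finset.prod_const, ← hk,
        ← pow_mul]
      have : M * d = M * (d - k) + M * k := by rw [← mul_add]; congr 1; omega
      rw [this, pow_add]
      ring
    rw [e1]
    have e2 : ‖MvPolynomial.eval w a‖ ^ (M * (d - k)) ≤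
        (A' * (1 + ‖w‖) ^ a.totalDegree) ^ (M * d) := by
      have h2 : ‖MvPolynomial.eval w a‖ ≤ A' * (1 + ‖w‖) ^ a.totalDegree :=
        (hA w).trans (mul_le_mul_of_nonneg_right (le_max_right _ _) (by positivity))
      have h3 : 1 ≤ A' * (1 + ‖w‖) ^ a.totalDegree := by
        have := one_le_pow₀ h1 (n := a.totalDegree)
        nlinarith
      calc _ ≤ (A' * (1 + ‖w‖) ^ a.totalDegree) ^ (M * (d - k)) :=
            pow_le_pow_left₀ hpos.le h2 _
        _ ≤ _ := pow_le_pow_right₀ h3 (Nat.mul_le_mul_left M (Nat.sub_le d k))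
    have e3 : ∏ z ∈ T w, (‖∑ j, c j * g z j‖ * ‖MvPolynomial.eval w a‖ ^ M) ≤
        (C' * (1 + ‖w‖) ^ s) ^ d := by
      have h3 : 1 ≤ C' * (1 + ‖w‖) ^ s := by
        have := one_le_pow₀ h1 (n := s)
        nlinarith
      calc ∏ z ∈ T w, (‖∑ j, c j * g z j‖ * ‖MvPolynomial.eval w a‖ ^ M)
          ≤ ∏ _z ∈ T w, (C' * (1 + ‖w‖) ^ s) := by
            refine Finset.prod_le_prod (fun z _ => by positivity) fun z hz => ?_
            have h4 := hb w hw z hz
            have h5 := norm_form_le c (g z)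
            have h6 : 0 ≤ ∑ j, ‖c j‖ := Finset.sum_nonneg fun _ _ => norm_nonneg _
            calc ‖∑ j, c j * g z j‖ * ‖MvPolynomial.eval w a‖ ^ M
                ≤ (∑ j, ‖c j‖) * ‖g z‖ * ‖MvPolynomial.eval w a‖ ^ M := by gcongr
              _ = (∑ j, ‖c j‖) * (‖g z‖ * ‖MvPolynomial.eval w a‖ ^ M) := by ring
              _ ≤ (∑ j, ‖c j‖) * (C * (1 + ‖w‖) ^ s) := mul_le_mul_of_nonneg_left h4 h6
              _ = ((∑ j, ‖c j‖) * C) * (1 + ‖w‖) ^ s := by ring
              _ ≤ C' * (1 + ‖w‖) ^ s :=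
                mul_le_mul_of_nonneg_right (le_max_right _ _) (by positivity)
        _ = (C' * (1 + ‖w‖) ^ s) ^ k := by rw [Finset.prod_const]
        _ ≤ _ := pow_le_pow_right₀ h3 hkd
    calc _ ≤ (A' * (1 + ‖w‖) ^ a.totalDegree) ^ (M * d) * (C' * (1 + ‖w‖) ^ s) ^ d :=
          mul_le_mul e2 e3 (Finset.prod_nonneg fun z _ => by positivity) (by positivity)
      _ = A' ^ (M * d) * C' ^ d * (1 + ‖w‖) ^ (a.totalDegree * (M * d) + s * d) := by
          rw [mul_pow, mul_pow, ← pow_mul, ← pow_mul, pow_add]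
          ring

/-- **The norm lemma**: if `g` vanishes to high order at a point of one sheet, it vanishes
identically on some sheet over a neighbourhood. -/
theorem vanish_of_order {a : MvPolynomial (Fin m) ℂ} (ha : a ≠ 0) {T : Cm m → Finset (Cm n)}
    {g : Cm n → Cm m}
    (hloc : ∀ w₁, MvPolynomial.eval w₁ a ≠ 0 → ∃ k σ, LocSec T g w₁ k σ) {d : ℕ}
    (hcard : ∀ w, MvPolynomial.eval w a ≠ 0 → (T w).card ≤ d) {C : ℝ} {s M : ℕ}
    (hb : ∀ w, MvPolynomial.eval w a ≠ 0 → ∀ z ∈ T w,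
      ‖g z‖ * ‖MvPolynomial.eval w a‖ ^ M ≤ C * (1 + ‖w‖) ^ s)
    {w₁ : Cm m} (hw₁ : MvPolynomial.eval w₁ a ≠ 0) {k : ℕ} {σ : Fin k → Cm m → Cm n}
    (hσ : LocSec T g w₁ k σ) (i₁ : Fin k)
    (hO : (fun w => g (σ i₁ w)) =O[𝓝 w₁]
      fun w => ‖w - w₁‖ ^ (a.totalDegree * (M * d) + s * d + 1)) :
    ∃ i, ∀ᶠ w in 𝓝 w₁, g (σ i w) = 0 := by
  classical
  -- all norms vanish near `w₁`
  have hN : ∀ c : Cm m, ∀ᶠ w in 𝓝 w₁, ∏ i, ∑ j, c j * g (σ i w) j = 0 := by
    intro c
    obtain ⟨q, hq, hqe⟩ := nrm_poly ha hloc hcard hb c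
    have hq0 : q = 0 := by
      refine poly_zero_of_isBigO hq (w₁ := w₁) ?_
      have h1 : (fun w => MvPolynomial.eval w q) =ᶠ[𝓝 w₁] fun w =>
          (∑ j, c j * g (σ i₁ w) j) * (MvPolynomial.eval w a ^ (M * d) *
            ∏ i ∈ Finset.univ.erase i₁, ∑ j, c j * g (σ i w) j) := by
        filter_upwards [hσ.nrm_eq c, (isOpen_ne_zero a).mem_nhds hw₁] with w h2 h3
        rw [← hqe w h3, h2, ← Finset.mul_prod_erase Finset.univ _ (Finset.mem_univ i₁)]
        ring
      refine Asymptotics.IsBigO.congr' ?_ h1.symm (EventuallyEq.refl _ _)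
      have h4 : (fun w => ∑ j, c j * g (σ i₁ w) j) =O[𝓝 w₁]
          fun w => ‖w - w₁‖ ^ (a.totalDegree * (M * d) + s * d + 1) := by
        refine Asymptotics.IsBigO.trans ?_ hO
        refine Asymptotics.IsBigO.of_bound (∑ j, ‖c j‖) (Eventually.of_forall fun w => ?_)
        exact norm_form_le c _
      have h5 : (fun w => MvPolynomial.eval w a ^ (M * d) *
          ∏ i ∈ Finset.univ.erase i₁, ∑ j, c j * g (σ i w) j) =O[𝓝 w₁] fun _ => (1 : ℝ) := by
        have hc : ContinuousAt (fun w => MvPolynomial.eval w a ^ (M * d) *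
            ∏ i ∈ Finset.univ.erase i₁, ∑ j, c j * g (σ i w) j) w₁ :=
          ((((differentiable_eval a) w₁).pow _).mul
            (differentiableAt_prod fun i _ => form_diff (hσ.diff i).self_of_nhds c)).continuousAt
        exact (show Tendsto _ _ _ from hc).isBigO_one ℝ
      have h6 := h4.mul h5
      simpa using h6
    filter_upwards [hσ.nrm_eq c, (isOpen_ne_zero a).mem_nhds hw₁] with w h2 h3
    have h7 := hqe w h3
    rw [hq0, map_zero, h2] at h7
    exact (mul_eq_zero.1 h7).resolve_left (pow_ne_zero _ h3)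
  -- a ball on which all `g ∘ σ i` are holomorphic
  have hdiff : ∀ᶠ w in 𝓝 w₁, ∀ i, DifferentiableAt ℂ (fun w => g (σ i w)) w :=
    eventually_all.2 hσ.diff
  obtain ⟨r, hr, hball⟩ := Metric.eventually_nhds_iff_ball.1 hdiff
  have hN' : ∀ c : Cm m, ∀ w ∈ ball w₁ r, ∏ i, ∑ j, c j * g (σ i w) j = 0 := by
    intro c
    exact ident_ball (f := fun w => ∏ i, ∑ j, c j * g (σ i w) j)
      (fun z hz => differentiableAt_prod fun i _ => form_diff (hball z hz i) c)
      (mem_ball_self hr) (hN c)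
  let V : Fin k → Submodule ℂ (Cm m) := fun i =>
    { carrier := {c | ∀ w ∈ ball w₁ r, ∑ j, c j * g (σ i w) j = 0}
      zero_mem' := fun w _ => by simp
      add_mem' := fun {c c'} hc hc' w hw => by
        have h1 := hc w hw
        have h2 := hc' w hw
        simp only [Pi.add_apply, add_mul, Finset.sum_add_distrib]
        rw [h1, h2, add_zero]
      smul_mem' := fun t c hc w hw => by
        have h1 := hc w hw
        simp only [Pi.smul_apply, smul_eq_mul, mul_assoc]
        rw [← Finset.mul_sum, h1, mul_zero] }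
  have hcov : ⋃ i, (V i : Set (Cm m)) = Set.univ := by
    rw [Set.eq_univ_iff_forall]
    intro c
    obtain ⟨i, hi⟩ := prod_ball (f := fun i w => ∑ j, c j * g (σ i w) j) hr
      (fun i z hz => form_diff (hball z hz i) c) (hN' c)
    exact Set.mem_iUnion.2 ⟨i, hi⟩
  obtain ⟨i, hi⟩ := Subspace.exists_eq_top_of_iUnion_eq_univ hcov
  refine ⟨i, ?_⟩
  filter_upwards [ball_mem_nhds w₁ hr] with w hw
  funext j
  have h1 : (Pi.single j 1 : Cm m) ∈ V i := by rw [hi]; trivial
  have h2 := h1 w hw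
  rw [Finset.sum_eq_single j] at h2
  · simpa using h2
  · intro b _ hb
    simp [hb]
  · simp

end Vale.Agent.P284.H5.C2
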