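import Vale.Agent.P284.H5.V16B
import Mathlib.Analysis.Analytic.Polynomial
import Mathlib.Analysis.Complex.RemovableSingularity
import Mathlib.LinearAlgebra.Lagrange
import Mathlib.RingTheory.Nullstellensatz
import Mathlib.RingTheory.Polynomial.UniqueFactorization
import Mathlib.RingTheory.MvPolynomial.Homogeneous
import Mathlib.Algebra.MvPolynomial.Funext
import Mathlib.Analysis.Normed.Module.Connected
import Mathlib.Analysis.Complex.Polynomial.Basic

/-!
# P284, block C2: entire functions of polynomial growth are polynomials; extension of holomorphic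
functions of polynomial growth across a polynomial hypersurface
-/

open scoped Manifold ContDiff Topology Pointwise ComplexConjugate ComplexOrder
open Filter Set Metric MeasureTheory

noncomputable section

namespace Vale.Agent.P284.H5.C2

open Vale.Agent.P272.K Vale.Agent.P284.H5.V

/-! ### One variable -/

lemma one_var (m : ℕ) : ∀ f : ℂ → ℂ, Differentiable ℂ f →
    (∃ C : ℝ, ∀ z, ‖f z‖ ≤ C * (1 + ‖z‖) ^ m) →
    ∃ p : Polynomial ℂ, p.natDegree ≤ m ∧ ∀ z, f z = p.eval z := by
  induction m with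
  | zero =>
    rintro f hf ⟨C, hC⟩
    refine ⟨Polynomial.C (f 0), by simp, fun z => ?_⟩
    rw [Polynomial.eval_C]
    refine hf.apply_eq_apply_of_bounded ?_ z 0
    rw [isBounded_iff_forall_norm_le]
    refine ⟨C, ?_⟩
    rintro _ ⟨y, rfl⟩
    simpa using hC y
  | succ m ih =>
    rintro f hf ⟨C, hC⟩
    have hC0 : 0 ≤ C := by
      have := hC 0
      simp only [norm_zero, add_zero, one_pow, mul_one] at this
      exact (norm_nonneg _).trans this
    set g := dslope f 0 with hg
    have hgd : Differentiable ℂ g := by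
      rw [← differentiableOn_univ, hg, Complex.differentiableOn_dslope univ_mem]
      exact hf.differentiableOn
    obtain ⟨M, hM⟩ := (isCompact_closedBall (0 : ℂ) 1).exists_bound_of_continuousOn
      hgd.continuous.continuousOn
    have hM0 : 0 ≤ M := (norm_nonneg _).trans (hM 0 (by simp))
    obtain ⟨q, hq, hgq⟩ := ih g hgd ⟨M + 4 * C, fun z => by
      have h1 : (1 : ℝ) ≤ 1 + ‖z‖ := by linarith [norm_nonneg z]
      have h2 : (1 : ℝ) ≤ (1 + ‖z‖) ^ m := one_le_pow₀ h1
      by_cases hz : ‖z‖ ≤ 1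
      · have := hM z (by simpa using hz)
        nlinarith
      · push Not at hz
        have hz0 : z ≠ 0 := by
          rintro rfl
          simp at hz
          linarith
        have h3 : g z = (f z - f 0) / z := by
          rw [hg, dslope_of_ne _ hz0, slope_def_field, sub_zero]
        rw [h3, norm_div, div_le_iff₀ (by linarith)]
        have h4 : ‖f z - f 0‖ ≤ C * (1 + ‖z‖) ^ (m + 1) + C := by
          refine (norm_sub_le _ _).trans (add_le_add (hC z) ?_)
          simpa using hC 0
        have h5 : C ≤ C * (1 + ‖z‖) ^ (m + 1) :=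
          le_mul_of_one_le_right hC0 (one_le_pow₀ h1)
        have h6 : (1 + ‖z‖) ^ (m + 1) ≤ (1 + ‖z‖) ^ m * (2 * ‖z‖) := by
          rw [pow_succ]
          exact mul_le_mul_of_nonneg_left (by linarith) (by positivity)
        have h7 : C * (1 + ‖z‖) ^ (m + 1) ≤ C * ((1 + ‖z‖) ^ m * (2 * ‖z‖)) :=
          mul_le_mul_of_nonneg_left h6 hC0
        have h8 : 0 ≤ M * (1 + ‖z‖) ^ m * ‖z‖ := by positivity
        nlinarith⟩
    refine ⟨Polynomial.C (f 0) + Polynomial.X * q, ?_, fun z => ?_⟩
    · refine (Polynomial.natDegree_add_le _ _).trans (max_le (by simp) ?_)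
      refine (Polynomial.natDegree_mul_le).trans ?_
      have := Polynomial.natDegree_X_le (R := ℂ)
      omega
    · have h1 := sub_smul_dslope f 0 z
      simp only [Polynomial.eval_add, Polynomial.eval_C, Polynomial.eval_mul, Polynomial.eval_X]
      rw [← hgq, hg]
      rw [sub_zero, smul_eq_mul] at h1
      rw [h1]
      ring

/-! ### Several variables -/

lemma norm_cons_le {n : ℕ} (x : ℂ) (y : Cm n) :
    ‖(Fin.cons x y : Cm (n + 1))‖ ≤ ‖x‖ + ‖y‖ := by
  rw [pi_norm_le_iff_of_nonneg (by positivity)]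
  intro i
  refine Fin.cases ?_ (fun j => ?_) i
  · simp
  · simp only [Fin.cons_succ]
    have := norm_le_pi_norm y j
    linarith [norm_nonneg x]

lemma eval_aeval_X {n : ℕ} (L : Polynomial ℂ) (i : Fin n) (z : Cm n) :
    MvPolynomial.eval z (Polynomial.aeval (MvPolynomial.X i) L) = L.eval (z i) := by
  induction L using Polynomial.induction_on' with
  | add p q hp hq => simp only [map_add, hp, hq, Polynomial.eval_add]
  | monomial k c => simp [Polynomial.aeval_monomial, Polynomial.eval_monomial]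

/-- An entire function of polynomial growth is a polynomial (no degree bound yet). -/
theorem poly_aux (m : ℕ) : ∀ (n : ℕ) (h : Cm n → ℂ), Differentiable ℂ h →
    (∃ C : ℝ, ∀ z, ‖h z‖ ≤ C * (1 + ‖z‖) ^ m) →
    ∃ q : MvPolynomial (Fin n) ℂ, ∀ z, h z = MvPolynomial.eval z q := by
  intro n
  induction n with
  | zero =>
    rintro h - -
    refine ⟨MvPolynomial.C (h 0), fun z => ?_⟩
    rw [MvPolynomial.eval_C]
    congr 1
    exact Subsingleton.elim _ _
  | succ n ih =>
    rintro h hd ⟨C, hC⟩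
    have hC0 : 0 ≤ C := by
      have := hC 0
      simp only [norm_zero, add_zero, one_pow, mul_one] at this
      exact (norm_nonneg _).trans this
    have hgr : ∀ x : ℂ, ∀ y : Cm n, ‖h (Fin.cons x y)‖ ≤
        C * ((1 + ‖x‖) ^ m * (1 + ‖y‖) ^ m) := by
      intro x y
      refine (hC _).trans (mul_le_mul_of_nonneg_left ?_ hC0)
      rw [← mul_pow]
      refine pow_le_pow_left₀ (by positivity) ?_ _
      have := norm_cons_le x y
      nlinarith [norm_nonneg x, norm_nonneg y, mul_nonneg (norm_nonneg x) (norm_nonneg y)]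
    have hcx : ∀ y : Cm n, Differentiable ℂ fun x : ℂ => h (Fin.cons x y) := by
      intro y
      refine hd.comp ?_
      rw [differentiable_pi]
      intro i
      refine Fin.cases ?_ (fun j => ?_) i
      · simp
      · simp
    have hcy : ∀ x : ℂ, Differentiable ℂ fun y : Cm n => h (Fin.cons x y) := by
      intro x
      refine hd.comp ?_
      rw [differentiable_pi]
      intro i
      refine Fin.cases ?_ (fun j => ?_) i
      · simp
      · simpa using differentiable_apply j
    have hq : ∀ k : ℕ, ∃ q : MvPolynomial (Fin n) ℂ, ∀ y,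
        h (Fin.cons (k : ℂ) y) = MvPolynomial.eval y q := by
      intro k
      refine ih _ (hcy k) ⟨C * (1 + ‖(k : ℂ)‖) ^ m, fun y => ?_⟩
      rw [mul_assoc]
      exact hgr _ _
    choose q hq using hq
    set s := Finset.range (m + 1) with hs
    set v : ℕ → ℂ := fun k => (k : ℂ) with hv
    have hinj : Set.InjOn v s := fun a _ b _ hab => by
      have h : (a : ℂ) = (b : ℂ) := hab
      exact_mod_cast h
    refine ⟨∑ k ∈ s, MvPolynomial.rename Fin.succ (q k) *
      Polynomial.aeval (MvPolynomial.X 0) (Lagrange.basis s v k), fun z => ?_⟩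
    obtain ⟨p, hp, hpz⟩ := one_var m _ (hcx (Fin.tail z)) ⟨C * (1 + ‖Fin.tail z‖) ^ m, fun x => by
      rw [mul_assoc, mul_comm ((1 + ‖Fin.tail z‖) ^ m)]
      exact hgr _ _⟩
    have hdeg : p.degree < s.card := by
      rw [hs, Finset.card_range]
      refine (Polynomial.degree_le_of_natDegree_le hp).trans_lt ?_
      exact_mod_cast Nat.lt_succ_self m
    have hint := Lagrange.eq_interpolate hinj hdeg
    have h1 : h z = p.eval (z 0) := by
      rw [← hpz, Fin.cons_self_tail]
    rw [h1, hint, Lagrange.interpolate_apply, Polynomial.eval_finsetSum, map_sum]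
    refine Finset.sum_congr rfl fun k _ => ?_
    rw [Polynomial.eval_mul, Polynomial.eval_C, map_mul, eval_aeval_X, MvPolynomial.eval_rename,
      ← hpz, hv, hq]
    rfl

/-! ### Polynomials: scaling, growth, density of the complement of the zero set -/

variable {n : ℕ}

lemma eval_smul_hom {φ : MvPolynomial (Fin n) ℂ} {k : ℕ} (hφ : φ.IsHomogeneous k) (t : ℂ)
    (v : Cm n) : MvPolynomial.eval (t • v) φ = t ^ k * MvPolynomial.eval v φ := by
  rw [MvPolynomial.eval_eq', MvPolynomial.eval_eq', Finset.mul_sum]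
  refine Finset.sum_congr rfl fun d hd => ?_
  have h1 : ∑ i, d i = k := by
    have := hφ (MvPolynomial.mem_support_iff.1 hd)
    rw [← this, Finsupp.weight_apply, Finsupp.sum_fintype _ _ (by simp)]
    simp
  simp only [Pi.smul_apply, smul_eq_mul, mul_pow]
  rw [Finset.prod_mul_distrib, Finset.prod_pow_eq_pow_sum, h1]
  ring

lemma eval_growth (a : MvPolynomial (Fin n) ℂ) :
    ∃ C : ℝ, 0 ≤ C ∧ ∀ z : Cm n, ‖MvPolynomial.eval z a‖ ≤ C * (1 + ‖z‖) ^ a.totalDegree := by
  refine ⟨∑ d ∈ a.support, ‖a.coeff d‖, Finset.sum_nonneg fun d _ => norm_nonneg _, fun z => ?_⟩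
  rw [MvPolynomial.eval_eq', Finset.sum_mul]
  refine (norm_sum_le _ _).trans (Finset.sum_le_sum fun d hd => ?_)
  rw [norm_mul]
  refine mul_le_mul_of_nonneg_left ?_ (norm_nonneg _)
  rw [norm_prod]
  have h1 : (1 : ℝ) ≤ 1 + ‖z‖ := by linarith [norm_nonneg z]
  calc ∏ i, ‖z i ^ d i‖ ≤ ∏ i, (1 + ‖z‖) ^ d i := by
        refine Finset.prod_le_prod (fun i _ => norm_nonneg _) fun i _ => ?_
        rw [norm_pow]
        refine pow_le_pow_left₀ (norm_nonneg _) ?_ _
        linarith [norm_le_pi_norm z i]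
    _ = (1 + ‖z‖) ^ ∑ i, d i := Finset.prod_pow_eq_pow_sum _ _ _
    _ ≤ (1 + ‖z‖) ^ a.totalDegree := by
        refine pow_le_pow_right₀ h1 ?_
        have := MvPolynomial.le_totalDegree hd
        rwa [Finsupp.sum_fintype _ _ (by simp)] at this

lemma differentiable_eval (a : MvPolynomial (Fin n) ℂ) :
    Differentiable ℂ fun z : Cm n => MvPolynomial.eval z a := by
  intro z
  exact (AnalyticOnNhd.eval_mvPolynomial (𝕜 := ℂ) a z (mem_univ z)).differentiableAt

/-- `{a ≠ 0}` is dense. -/
lemma dense_ne_zero {a : MvPolynomial (Fin n) ℂ} (ha : a ≠ 0) :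
    Dense {z : Cm n | MvPolynomial.eval z a ≠ 0} := by
  rw [Metric.dense_iff]
  intro z₀ r hr
  by_contra hcon
  refine ha (MvPolynomial.funext_set (fun i => ball (z₀ i) (r / 2)) (fun i => ?_) fun x hx => ?_)
  · exact infinite_of_mem_nhds (z₀ i) (ball_mem_nhds _ (by positivity))
  · rw [map_zero]
    by_contra h0
    refine hcon ⟨x, ?_, h0⟩
    rw [mem_ball, dist_pi_lt_iff hr]
    intro i
    have := hx i (mem_univ i)
    rw [mem_ball] at this
    linarith

lemma isOpen_ne_zero (a : MvPolynomial (Fin n) ℂ) :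
    IsOpen {z : Cm n | MvPolynomial.eval z a ≠ 0} :=
  isOpen_ne_fun (differentiable_eval a).continuous continuous_const

/-- `{a ≠ 0}` is path connected. -/
lemma isPathConnected_ne_zero {a : MvPolynomial (Fin n) ℂ} (ha : a ≠ 0) :
    IsPathConnected {z : Cm n | MvPolynomial.eval z a ≠ 0} := by
  obtain ⟨z₀, hz₀⟩ := (dense_ne_zero ha).nonempty
  refine isPathConnected_iff.2 ⟨⟨z₀, hz₀⟩, fun z₁ h₁ z₂ h₂ => ?_⟩
  set ℓ : ℂ → Cm n := fun t => z₁ + t • (z₂ - z₁) with hℓ
  set p : Polynomial ℂ := MvPolynomial.aeval (fun i => Polynomial.C (z₁ i) +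
    Polynomial.X * Polynomial.C (z₂ i - z₁ i)) a with hp
  have hpe : ∀ t, p.eval t = MvPolynomial.eval (ℓ t) a := by
    intro t
    have h1 : p.eval t = (Polynomial.evalRingHom t) (MvPolynomial.aeval (fun i =>
      Polynomial.C (z₁ i) + Polynomial.X * Polynomial.C (z₂ i - z₁ i)) a) := rfl
    rw [h1, MvPolynomial.aeval_def, MvPolynomial.hom_eval₂, MvPolynomial.eval,
      MvPolynomial.coe_eval₂Hom]
    congr 1
    · ext c
      simp
    · funext i
      simp [hℓ]
  have hp0 : p ≠ 0 := by
    intro h0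
    have := hpe 0
    rw [h0] at this
    apply h₁
    simpa [hℓ] using this.symm
  have hfin : {t | p.eval t = 0}.Finite := by
    refine (p.roots.toFinset.finite_toSet).subset fun t ht => ?_
    simp only [Multiset.mem_toFinset, Finset.mem_coe]
    exact (Polynomial.mem_roots hp0).2 ht
  have hpc : IsPathConnected {t | p.eval t = 0}ᶜ :=
    hfin.countable.isPathConnected_compl_of_one_lt_rank (by
      rw [Complex.rank_real_complex]; norm_num)
  have hℓc : Continuous ℓ := by fun_prop
  have h0 : (0 : ℂ) ∈ {t | p.eval t = 0}ᶜ := by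
    show ¬ p.eval 0 = 0
    rw [hpe]
    simpa [hℓ] using h₁
  have h1 : (1 : ℂ) ∈ {t | p.eval t = 0}ᶜ := by
    show ¬ p.eval 1 = 0
    rw [hpe]
    simpa [hℓ] using h₂
  have h3 := (hpc.image hℓc).joinedIn (ℓ 0) ⟨0, h0, rfl⟩ (ℓ 1) ⟨1, h1, rfl⟩
  have e0 : ℓ 0 = z₁ := by simp [hℓ]
  have e1 : ℓ 1 = z₂ := by simp [hℓ]
  rw [e0, e1] at h3
  refine h3.mono ?_
  rintro _ ⟨t, ht, rfl⟩
  show MvPolynomial.eval (ℓ t) a ≠ 0
  rw [← hpe]
  exact ht

/-- The degree of a polynomial is controlled by its growth. -/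
lemma totalDegree_le_of_growth {q : MvPolynomial (Fin n) ℂ} {C : ℝ} {m : ℕ}
    (hC : ∀ z : Cm n, ‖MvPolynomial.eval z q‖ ≤ C * (1 + ‖z‖) ^ m) : q.totalDegree ≤ m := by
  by_contra hlt
  push Not at hlt
  set d := q.totalDegree with hd
  have hq0 : q ≠ 0 := by
    rintro rfl
    simp at hd
    omega
  have hC0 : 0 ≤ C := by
    have := hC 0
    simp only [norm_zero, add_zero, one_pow, mul_one] at this
    exact (norm_nonneg _).trans this
  have htop : MvPolynomial.homogeneousComponent d q ≠ 0 := by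
    obtain ⟨s, hs, hsd⟩ := Finset.exists_mem_eq_sup q.support (MvPolynomial.support_nonempty.2 hq0)
      (fun s => s.sum fun _ e => e)
    intro h0
    have h1 := congrArg (MvPolynomial.coeff s) h0
    rw [MvPolynomial.coeff_homogeneousComponent, if_pos, MvPolynomial.coeff_zero] at h1
    · exact (MvPolynomial.mem_support_iff.1 hs) h1
    · rw [hd, MvPolynomial.totalDegree, hsd, Finsupp.degree_eq_sum, Finsupp.sum_fintype _ _ (by simp)]
  obtain ⟨v, hv⟩ : ∃ v : Cm n, MvPolynomial.eval v (MvPolynomial.homogeneousComponent d q) ≠ 0 := by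
    by_contra hcon
    push Not at hcon
    exact htop (MvPolynomial.funext fun x => by rw [hcon x, map_zero])
  have hev : ∀ t : ℂ, MvPolynomial.eval (t • v) q =
      (∑ k ∈ Finset.range (d + 1), Polynomial.monomial k
        (MvPolynomial.eval v (MvPolynomial.homogeneousComponent k q))).eval t := by
    intro t
    conv_lhs => rw [← MvPolynomial.sum_homogeneousComponent q]
    rw [map_sum, Polynomial.eval_finsetSum]
    refine Finset.sum_congr rfl fun k _ => ?_
    rw [eval_smul_hom (MvPolynomial.homogeneousComponent_isHomogeneous k q),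
      Polynomial.eval_monomial, mul_comm]
  obtain ⟨P, hP, hPe⟩ := one_var m (fun t => MvPolynomial.eval (t • v) q) (by
      exact (differentiable_eval q).comp (differentiable_id.smul_const v))
    ⟨C * (1 + ‖v‖) ^ m, fun t => by
      refine (hC _).trans ?_
      rw [mul_assoc, ← mul_pow]
      refine mul_le_mul_of_nonneg_left (pow_le_pow_left₀ (by positivity) ?_ _) hC0
      rw [norm_smul]
      nlinarith [norm_nonneg t, norm_nonneg v, mul_nonneg (norm_nonneg t) (norm_nonneg v)]⟩
  have heq : P = ∑ k ∈ Finset.range (d + 1), Polynomial.monomial k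
      (MvPolynomial.eval v (MvPolynomial.homogeneousComponent k q)) :=
    Polynomial.funext fun t => by rw [← hPe, hev]
  have h1 := congrArg (fun Q => Polynomial.coeff Q d) heq
  simp only [Polynomial.finsetSum_coeff, Polynomial.coeff_monomial] at h1
  rw [Finset.sum_ite_eq' (Finset.range (d + 1)) d, if_pos (Finset.self_mem_range_succ d),
    Polynomial.coeff_eq_zero_of_natDegree_lt (hP.trans_lt hlt)] at h1
  exact hv h1.symm

/-- **Entire functions of polynomial growth are polynomials.** -/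
theorem poly_of_growth {m : ℕ} {h : Cm n → ℂ} (hd : Differentiable ℂ h) {C : ℝ}
    (hC : ∀ z, ‖h z‖ ≤ C * (1 + ‖z‖) ^ m) :
    ∃ q : MvPolynomial (Fin n) ℂ, q.totalDegree ≤ m ∧ ∀ z, h z = MvPolynomial.eval z q := by
  obtain ⟨q, hq⟩ := poly_aux m n h hd ⟨C, hC⟩
  exact ⟨q, totalDegree_le_of_growth (C := C) fun z => by rw [← hq]; exact hC z, hq⟩

theorem poly_of_PG {m : ℕ} {h : Cm n → ℂ} (hh : h ∈ PG n m) :
    ∃ q : MvPolynomial (Fin n) ℂ, q.totalDegree ≤ m ∧ ∀ z, h z = MvPolynomial.eval z q := by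
  obtain ⟨hol, C, hC⟩ := hh
  exact poly_of_growth hol.diff hC

/-! ### Extension across a hypersurface -/

lemma aeval_eval (x : Cm n) (p : MvPolynomial (Fin n) ℂ) :
    MvPolynomial.aeval x p = MvPolynomial.eval x p := by
  rw [← MvPolynomial.coe_aeval_eq_eval]
  rfl

/-- A holomorphic function on `{a ≠ 0}` of polynomial growth is a polynomial. -/
theorem ext_poly {a : MvPolynomial (Fin n) ℂ} (ha : a ≠ 0) {H : Cm n → ℂ}
    (hH : ∀ z, MvPolynomial.eval z a ≠ 0 → DifferentiableAt ℂ H z) {C : ℝ} {D : ℕ}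
    (hb : ∀ z, MvPolynomial.eval z a ≠ 0 → ‖H z‖ ≤ C * (1 + ‖z‖) ^ D) :
    ∃ q : MvPolynomial (Fin n) ℂ, q.totalDegree ≤ D ∧
      ∀ z, MvPolynomial.eval z a ≠ 0 → H z = MvPolynomial.eval z q := by
  classical
  have hC0 : 0 ≤ C := by
    obtain ⟨z, hz⟩ := (dense_ne_zero ha).nonempty
    have h1 := (norm_nonneg _).trans (hb z hz)
    have h2 : 0 < (1 + ‖z‖) ^ D := by positivity
    by_contra hneg
    push Not at hneg
    nlinarith
  obtain ⟨A, hA0, hA⟩ := eval_growth a
  set G : Cm n → ℂ := fun z => if MvPolynomial.eval z a = 0 then 0 else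
    MvPolynomial.eval z a ^ 2 * H z with hG
  have hGb : ∀ z, ‖G z‖ ≤ ‖MvPolynomial.eval z a‖ ^ 2 * (C * (1 + ‖z‖) ^ D) := by
    intro z
    by_cases hz : MvPolynomial.eval z a = 0
    · simp [hG, hz]
    · simp only [hG, if_neg hz]
      rw [norm_mul, norm_pow]
      exact mul_le_mul_of_nonneg_left (hb z hz) (by positivity)
  have hGd : Differentiable ℂ G := by
    intro z₀
    by_cases hz₀ : MvPolynomial.eval z₀ a = 0
    · -- `G = O(|z - z₀|²)`
      have h1 : (fun z => MvPolynomial.eval z a) =O[𝓝 z₀] fun z => z - z₀ := by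
        have := ((differentiable_eval a) z₀).isBigO_sub
        simpa [hz₀] using this
      have h2 : (fun z => C * (1 + ‖z‖) ^ D) =O[𝓝 z₀] fun _ => (1 : ℝ) :=
        (Continuous.continuousAt (by fun_prop)).isBigO_one ℝ
      have h3 : G =O[𝓝 z₀] fun z => ‖z - z₀‖ ^ 2 := by
        have h4 : (fun z => ‖MvPolynomial.eval z a‖ ^ 2 * (C * (1 + ‖z‖) ^ D)) =O[𝓝 z₀]
            fun z => ‖z - z₀‖ ^ 2 * (1 : ℝ) := (h1.norm_norm.pow 2).mul h2
        simp only [mul_one] at h4
        refine Asymptotics.IsBigO.trans ?_ h4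
        refine Asymptotics.IsBigO.of_bound 1 (Eventually.of_forall fun z => ?_)
        rw [one_mul]
        exact (hGb z).trans (le_abs_self _)
      have h5 : (fun z => ‖z - z₀‖ ^ 2) =o[𝓝 z₀] fun z => z - z₀ := by
        have h6 : Tendsto (fun z => z - z₀) (𝓝 z₀) (𝓝 0) := by
          have : Continuous fun z : Cm n => z - z₀ := by fun_prop
          simpa using this.tendsto z₀
        exact (Asymptotics.isLittleO_norm_pow_id one_lt_two).comp_tendsto h6
      have h7 : HasFDerivAt G (0 : Cm n →L[ℂ] ℂ) z₀ := by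
        rw [hasFDerivAt_iff_isLittleO]
        have : G z₀ = 0 := by simp [hG, hz₀]
        simp only [this, sub_zero, zero_apply]
        exact h3.trans_isLittleO h5
      exact h7.differentiableAt
    · have h1 : G =ᶠ[𝓝 z₀] fun z => MvPolynomial.eval z a ^ 2 * H z := by
        filter_upwards [(isOpen_ne_zero a).mem_nhds hz₀] with z hz
        exact if_neg hz
      refine DifferentiableAt.congr_of_eventuallyEq ?_ h1
      exact (((differentiable_eval a) z₀).pow 2).mul (hH z₀ hz₀)
  obtain ⟨Q, hQ⟩ := poly_aux (a.totalDegree * 2 + D) n G hGd ⟨A ^ 2 * C, fun z => by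
    refine (hGb z).trans ?_
    calc ‖MvPolynomial.eval z a‖ ^ 2 * (C * (1 + ‖z‖) ^ D)
        ≤ (A * (1 + ‖z‖) ^ a.totalDegree) ^ 2 * (C * (1 + ‖z‖) ^ D) := by
          gcongr
          exact hA z
      _ = A ^ 2 * C * (1 + ‖z‖) ^ (a.totalDegree * 2 + D) := by
          rw [mul_pow, ← pow_mul, pow_add]; ring⟩
  obtain ⟨Q', b, c, hrel, hcQ, hcb⟩ :=
    UniqueFactorizationMonoid.exists_reduced_factors' Q (a ^ 2) (pow_ne_zero 2 ha)
  have hev : ∀ z, MvPolynomial.eval z a ≠ 0 → MvPolynomial.eval z b ≠ 0 ∧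
      MvPolynomial.eval z Q' = MvPolynomial.eval z b * H z := by
    intro z hz
    have h1 : MvPolynomial.eval z c * MvPolynomial.eval z b = MvPolynomial.eval z a ^ 2 := by
      rw [← map_mul, hcb, map_pow]
    have h2 : MvPolynomial.eval z c ≠ 0 := by
      intro h0
      rw [h0, zero_mul] at h1
      exact hz (pow_eq_zero_iff two_ne_zero |>.1 h1.symm)
    have h3 : MvPolynomial.eval z b ≠ 0 := by
      intro h0
      rw [h0, mul_zero] at h1
      exact hz (pow_eq_zero_iff two_ne_zero |>.1 h1.symm)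
    refine ⟨h3, mul_left_cancel₀ h2 ?_⟩
    rw [← map_mul, hcQ, ← hQ, ← mul_assoc, h1]
    simp only [hG, if_neg hz]
  -- the bound holds everywhere
  have hbd : ∀ z, ‖MvPolynomial.eval z Q'‖ ≤ ‖MvPolynomial.eval z b‖ * (C * (1 + ‖z‖) ^ D) := by
    have hcl : IsClosed {z : Cm n | ‖MvPolynomial.eval z Q'‖ ≤
        ‖MvPolynomial.eval z b‖ * (C * (1 + ‖z‖) ^ D)} := by
      refine isClosed_le (differentiable_eval Q').continuous.norm ?_
      exact (differentiable_eval b).continuous.norm.mul (by fun_prop)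
    intro z
    have h1 : closure {z : Cm n | MvPolynomial.eval z a ≠ 0} ⊆ _ :=
      hcl.closure_subset_iff.2 fun z hz => by
        obtain ⟨-, h2⟩ := hev z hz
        show ‖MvPolynomial.eval z Q'‖ ≤ _
        rw [h2, norm_mul]
        exact mul_le_mul_of_nonneg_left (hb z hz) (norm_nonneg _)
    rw [(dense_ne_zero ha).closure_eq] at h1
    exact h1 (mem_univ z)
  have hb0 : b ≠ 0 := by
    rintro rfl
    rw [mul_zero] at hcb
    exact pow_ne_zero 2 ha hcb.symm
  have hunit : IsUnit b := by
    by_contra hnu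
    obtain ⟨π, hπ, hπb⟩ := WfDvdMonoid.exists_irreducible_factor hnu hb0
    have hprime : Prime π := hπ.prime
    have hmem : Q' ∈ (Ideal.span {π}).radical := by
      rw [← MvPolynomial.vanishingIdeal_zeroLocus_eq_radical (K := ℂ)]
      rw [MvPolynomial.mem_vanishingIdeal_iff]
      intro x hx
      have h1 : MvPolynomial.eval x π = 0 := by
        have := (MvPolynomial.mem_zeroLocus_iff.1 hx) π (Ideal.mem_span_singleton_self π)
        rwa [aeval_eval] at this
      have h2 : MvPolynomial.eval x b = 0 := by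
        obtain ⟨b', rfl⟩ := hπb
        rw [map_mul, h1, zero_mul]
      have h3 := hbd x
      rw [h2, norm_zero, zero_mul] at h3
      rw [aeval_eval]
      exact norm_le_zero_iff.1 h3
    have hpi : (Ideal.span {π}).IsPrime := (Ideal.span_singleton_prime hprime.ne_zero).2 hprime
    rw [hpi.radical, Ideal.mem_span_singleton] at hmem
    exact hπ.not_isUnit (hrel hmem hπb)
  obtain ⟨β, hβ⟩ := hunit.exists_right_inv
  refine ⟨β * Q', ?_, fun z hz => ?_⟩
  · refine totalDegree_le_of_growth (C := C) fun z => ?_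
    rw [map_mul, norm_mul]
    have h1 : ‖MvPolynomial.eval z β‖ * ‖MvPolynomial.eval z b‖ = 1 := by
      rw [← norm_mul, ← map_mul, mul_comm β b, hβ, map_one, norm_one]
    calc ‖MvPolynomial.eval z β‖ * ‖MvPolynomial.eval z Q'‖
        ≤ ‖MvPolynomial.eval z β‖ * (‖MvPolynomial.eval z b‖ * (C * (1 + ‖z‖) ^ D)) :=
          mul_le_mul_of_nonneg_left (hbd z) (norm_nonneg _)
      _ = C * (1 + ‖z‖) ^ D := by rw [← mul_assoc, h1, one_mul]
  · obtain ⟨-, h2⟩ := hev z hz
    have h1 : MvPolynomial.eval z β * MvPolynomial.eval z b = 1 := by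
      rw [← map_mul, mul_comm β b, hβ, map_one]
    rw [map_mul, h2, ← mul_assoc, h1, one_mul]

end Vale.Agent.P284.H5.C2
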