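import Vale.Agent.P284.H894.SpecSub
import Vale.Agent.P281.MF.Hol

/-! # P284, block D0 (helper5): calculus of the leading term along the diagonal. -/

open scoped Topology ContDiff
open Filter Set Metric Asymptotics

noncomputable section

namespace Vale.Agent.P284.H5

open Vale.Agent.P272.K Vale.Agent.P284.H894 Vale.Agent.P281.MF

/-! ### One variable -/

/-- analytic and `O(t^q)`: divisible by `t^q`. -/
theorem exists_factor {g : ℂ → ℂ} (hg : AnalyticAt ℂ g 0) {q : ℕ}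
    (hO : g =O[𝓝 0] fun t : ℂ => t ^ q) :
    ∃ h : ℂ → ℂ, AnalyticAt ℂ h 0 ∧ ∀ᶠ t in 𝓝 (0 : ℂ), g t = t ^ q * h t := by
  have h1 : (q : ℕ∞) ≤ analyticOrderAt g 0 := by
    by_contra hlt
    rw [not_le] at hlt
    obtain ⟨m, hm⟩ := ENat.ne_top_iff_exists.1 (ne_top_of_lt hlt)
    rw [← hm] at hlt
    have hmq : m < q := by exact_mod_cast hlt
    obtain ⟨h, hh, h0, he⟩ := (hg.analyticOrderAt_eq_natCast (n := m)).1 hm.symm
    apply h0
    obtain ⟨C, hC⟩ := hO.bound
    have hb : ∀ᶠ t in 𝓝[≠] (0 : ℂ), ‖h t‖ ≤ C * ‖t‖ ^ (q - m) := by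
      filter_upwards [hC.filter_mono nhdsWithin_le_nhds, he.filter_mono nhdsWithin_le_nhds,
        self_mem_nhdsWithin] with t h1 h2 h3
      have h3' : 0 < ‖t‖ := norm_pos_iff.2 h3
      rw [h2, sub_zero, smul_eq_mul, norm_mul, norm_pow, norm_pow] at h1
      have h4 : ‖t‖ ^ q = ‖t‖ ^ m * ‖t‖ ^ (q - m) := by
        rw [← pow_add, Nat.add_sub_of_le hmq.le]
      rw [h4] at h1
      have h5 : ‖t‖ ^ m * ‖h t‖ ≤ ‖t‖ ^ m * (C * ‖t‖ ^ (q - m)) := by linarith
      exact le_of_mul_le_mul_left h5 (pow_pos h3' m)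
    have hl : Tendsto (fun t : ℂ => ‖h t‖) (𝓝[≠] 0) (𝓝 ‖h 0‖) :=
      (hh.continuousAt.norm.tendsto).mono_left nhdsWithin_le_nhds
    have hr : Tendsto (fun t : ℂ => C * ‖t‖ ^ (q - m)) (𝓝[≠] 0) (𝓝 0) := by
      have : ContinuousAt (fun t : ℂ => C * ‖t‖ ^ (q - m)) 0 := by fun_prop
      have h2 := this.tendsto
      simp only [norm_zero, zero_pow (Nat.sub_ne_zero_of_lt hmq), mul_zero] at h2
      exact h2.mono_left nhdsWithin_le_nhds
    have := le_of_tendsto_of_tendsto hl hr hb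
    exact norm_le_zero_iff.1 this
  obtain ⟨h, hh, he⟩ := (natCast_le_analyticOrderAt hg).1 h1
  exact ⟨h, hh, by filter_upwards [he] with t ht; simpa using ht⟩

theorem iteratedDeriv_factor {q : ℕ} : ∀ {g h : ℂ → ℂ}, AnalyticAt ℂ h 0 →
    (∀ᶠ t in 𝓝 (0 : ℂ), g t = t ^ q * h t) → iteratedDeriv q g 0 = (q.factorial : ℂ) * h 0 := by
  induction q with
  | zero => intro g h hh he; simpa using he.self_of_nhds
  | succ q ih =>
    intro g h hh he
    rw [iteratedDeriv_succ']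
    have h1 : ∀ᶠ t in 𝓝 (0 : ℂ),
        deriv g t = t ^ q * (((q : ℂ) + 1) * h t + t * deriv h t) := by
      filter_upwards [he.eventually_nhds, hh.eventually_analyticAt] with t ht hta
      have h2 : g =ᶠ[𝓝 t] fun t => t ^ (q + 1) * h t := ht
      rw [h2.deriv_eq, deriv_fun_mul (by fun_prop) hta.differentiableAt]
      simp only [deriv_pow_field, Nat.cast_add, Nat.cast_one, Nat.add_sub_cancel]
      ring
    have h3 : AnalyticAt ℂ (fun t => ((q : ℂ) + 1) * h t + t * deriv h t) 0 := by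
      have := hh.deriv
      fun_prop
    rw [ih h3 h1]
    simp only [zero_mul, add_zero, Nat.factorial_succ, Nat.cast_mul, Nat.cast_add, Nat.cast_one]
    ring

theorem tendsto_factor {q : ℕ} {g h : ℂ → ℂ} (hh : AnalyticAt ℂ h 0)
    (he : ∀ᶠ t in 𝓝 (0 : ℂ), g t = t ^ q * h t) :
    Tendsto (fun t : ℂ => g t / t ^ q) (𝓝[≠] 0) (𝓝 (h 0)) := by
  have h1 : Tendsto h (𝓝[≠] 0) (𝓝 (h 0)) := hh.continuousAt.tendsto.mono_left nhdsWithin_le_nhds
  refine h1.congr' ?_
  filter_upwards [he.filter_mono nhdsWithin_le_nhds, self_mem_nhdsWithin] with t ht h0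
  have : t ^ q ≠ 0 := pow_ne_zero _ h0
  rw [ht, mul_div_cancel_left₀ _ this]

/-- the three facts together -/
theorem one_var {g : ℂ → ℂ} (hg : AnalyticAt ℂ g 0) {q : ℕ}
    (hO : g =O[𝓝 0] fun t : ℂ => t ^ q) :
    Tendsto (fun t : ℂ => g t / t ^ q) (𝓝[≠] 0)
      (𝓝 ((q.factorial : ℂ)⁻¹ * iteratedDeriv q g 0)) := by
  obtain ⟨h, hh, he⟩ := exists_factor hg hO
  have hq : (q.factorial : ℂ) ≠ 0 := by exact_mod_cast q.factorial_ne_zero
  rw [iteratedDeriv_factor hh he, ← mul_assoc, inv_mul_cancel₀ hq, one_mul]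
  exact tendsto_factor hh he

theorem lower {g : ℂ → ℂ} (hg : AnalyticAt ℂ g 0) {q : ℕ}
    (hO : g =O[𝓝 0] fun t : ℂ => t ^ q) {k : ℕ} (hk : k < q) : iteratedDeriv k g 0 = 0 := by
  obtain ⟨h, hh, he⟩ := exists_factor hg hO
  have h1 : (q : ℕ∞) ≤ analyticOrderAt g 0 := by
    rw [natCast_le_analyticOrderAt hg]
    exact ⟨h, hh, by filter_upwards [he] with t ht; simpa using ht⟩
  exact (natCast_le_analyticOrderAt_iff_iteratedDeriv_eq_zero hg).1 h1 k hk

/-! ### Lines -/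

section
variable {n : ℕ} {V : Set (Cm n)} {f : Cm n → Cm n → ℂ}

theorem diff_line (hf : DifferentiableOn ℂ (fun p : Cm n × Cm n => f p.1 p.2) (V ×ˢ V))
    {z : Cm n} (hz : z ∈ V) (v : Cm n) :
    DifferentiableOn ℂ (fun t : ℂ => f z (z + t • v)) ((fun t : ℂ => z + t • v) ⁻¹' V) := by
  have h1 : DifferentiableOn ℂ (fun t : ℂ => ((z, z + t • v) : Cm n × Cm n))
      ((fun t : ℂ => z + t • v) ⁻¹' V) := by fun_prop
  exact hf.comp h1 (fun t ht => ⟨hz, ht⟩)

theorem open_line (hV : IsOpen V) (z v : Cm n) : IsOpen ((fun t : ℂ => z + t • v) ⁻¹' V) :=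
  hV.preimage (by fun_prop)

theorem analytic_line (hV : IsOpen V)
    (hf : DifferentiableOn ℂ (fun p : Cm n × Cm n => f p.1 p.2) (V ×ˢ V))
    {z : Cm n} (hz : z ∈ V) (v : Cm n) : AnalyticAt ℂ (fun t : ℂ => f z (z + t • v)) 0 :=
  (diff_line hf hz v).analyticAt ((open_line hV z v).mem_nhds (by simpa using hz))

theorem lead_tendsto {q : ℕ} (hV : IsOpen V)
    (hf : DifferentiableOn ℂ (fun p : Cm n × Cm n => f p.1 p.2) (V ×ˢ V)) (hq : Van q V f)
    {z : Cm n} (hz : z ∈ V) (v : Cm n) :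
    Tendsto (fun t : ℂ => f z (z + t • v) / t ^ q) (𝓝[≠] 0)
      (𝓝 ((q.factorial : ℂ)⁻¹ * iteratedDeriv q (fun t : ℂ => f z (z + t • v)) 0)) :=
  one_var (analytic_line hV hf hz v) (hq z hz v)

theorem lead_eq {q : ℕ} (hV : IsOpen V)
    (hf : DifferentiableOn ℂ (fun p : Cm n × Cm n => f p.1 p.2) (V ×ˢ V)) (hq : Van q V f)
    {z : Cm n} (hz : z ∈ V) (v : Cm n) :
    Lead q f z v = (q.factorial : ℂ)⁻¹ * iteratedDeriv q (fun t : ℂ => f z (z + t • v)) 0 :=
  (lead_tendsto hV hf hq hz v).limUnder_eq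

/-- the `k`-th derivative of `f z w` with respect to `w` in the direction `v` -/
def GG (f : Cm n → Cm n → ℂ) : ℕ → Cm n × Cm n × Cm n → ℂ
  | 0 => fun p => f p.1 p.2.1
  | k + 1 => fun p => fderiv ℂ (GG f k) p (0, p.2.2, 0)

theorem GG_diff (hV : IsOpen V)
    (hf : DifferentiableOn ℂ (fun p : Cm n × Cm n => f p.1 p.2) (V ×ˢ V)) (k : ℕ) :
    DifferentiableOn ℂ (GG f k) (V ×ˢ (V ×ˢ univ)) := by
  induction k with
  | zero =>
    have h1 : DifferentiableOn ℂ (fun p : Cm n × Cm n × Cm n => ((p.1, p.2.1) : Cm n × Cm n))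
        (V ×ˢ (V ×ˢ univ)) := by fun_prop
    exact hf.comp h1 (fun p hp => ⟨hp.1, hp.2.1⟩)
  | succ k ih =>
    have hU : IsOpen (V ×ˢ (V ×ˢ (univ : Set (Cm n)))) := hV.prod (hV.prod isOpen_univ)
    have h1 := (analyticOnNhd_of_differentiableOn hU ih).fderiv
    have h2 : DifferentiableOn ℂ (fderiv ℂ (GG f k)) (V ×ˢ (V ×ˢ univ)) := h1.differentiableOn
    have h3 : DifferentiableOn ℂ
        (fun p : Cm n × Cm n × Cm n => ((0, p.2.2, 0) : Cm n × Cm n × Cm n))
        (V ×ˢ (V ×ˢ univ)) := by fun_prop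
    exact h2.clm_apply h3

theorem GG_line (hV : IsOpen V)
    (hf : DifferentiableOn ℂ (fun p : Cm n × Cm n => f p.1 p.2) (V ×ˢ V)) (k : ℕ)
    {z : Cm n} (hz : z ∈ V) (v : Cm n) : ∀ {t : ℂ}, z + t • v ∈ V →
    iteratedDeriv k (fun t : ℂ => f z (z + t • v)) t = GG f k (z, z + t • v, v) := by
  induction k with
  | zero => intro t ht; simp [GG]
  | succ k ih =>
    intro t ht
    have hU : IsOpen (V ×ˢ (V ×ˢ (univ : Set (Cm n)))) := hV.prod (hV.prod isOpen_univ)
    rw [iteratedDeriv_succ]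
    have h1 : iteratedDeriv k (fun t : ℂ => f z (z + t • v)) =ᶠ[𝓝 t]
        fun s => GG f k (z, z + s • v, v) := by
      filter_upwards [(open_line hV z v).mem_nhds ht] with s hs using ih hs
    rw [h1.deriv_eq]
    have h2 : DifferentiableAt ℂ (GG f k) (z, z + t • v, v) :=
      (GG_diff hV hf k).differentiableAt (hU.mem_nhds ⟨hz, ht, mem_univ _⟩)
    have h3 : HasDerivAt (fun s : ℂ => ((z, z + s • v, v) : Cm n × Cm n × Cm n)) (0, v, 0) t := by
      have h4 : HasDerivAt (fun s : ℂ => z + s • v) v t := by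
        simpa using ((hasDerivAt_id t).smul_const v).const_add z
      exact (hasDerivAt_const t z).prodMk (h4.prodMk (hasDerivAt_const t v))
    exact (h2.hasFDerivAt.comp_hasDerivAt t h3).deriv

theorem lead_GG {q : ℕ} (hV : IsOpen V)
    (hf : DifferentiableOn ℂ (fun p : Cm n × Cm n => f p.1 p.2) (V ×ˢ V)) (hq : Van q V f)
    {z : Cm n} (hz : z ∈ V) (v : Cm n) :
    Lead q f z v = (q.factorial : ℂ)⁻¹ * GG f q (z, z, v) := by
  rw [lead_eq hV hf hq hz v, GG_line hV hf q hz v (by simpa using hz)]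
  simp

theorem lead_holo {q : ℕ} (hV : IsOpen V)
    (hf : DifferentiableOn ℂ (fun p : Cm n × Cm n => f p.1 p.2) (V ×ˢ V)) (hq : Van q V f) :
    DifferentiableOn ℂ (fun p : Cm n × Cm n => Lead q f p.1 p.2) (V ×ˢ univ) := by
  have h1 : DifferentiableOn ℂ (fun p : Cm n × Cm n => ((p.1, p.1, p.2) : Cm n × Cm n × Cm n))
      (V ×ˢ univ) := by fun_prop
  have h2 := (GG_diff hV hf q).comp h1 (fun p hp => ⟨hp.1, hp.1, hp.2⟩)
  refine (h2.const_mul ((q.factorial : ℂ)⁻¹)).congr fun p hp => ?_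
  exact lead_GG hV hf hq hp.1 p.2

/-! ### The power series at a point of the diagonal -/

theorem analytic_snd (hV : IsOpen V)
    (hf : DifferentiableOn ℂ (fun p : Cm n × Cm n => f p.1 p.2) (V ×ˢ V)) {z : Cm n}
    (hz : z ∈ V) : DifferentiableOn ℂ (f z) V ∧ AnalyticAt ℂ (f z) z := by
  have h1 : DifferentiableOn ℂ (fun w : Cm n => ((z, w) : Cm n × Cm n)) V := by fun_prop
  have h2 : DifferentiableOn ℂ (f z) V := hf.comp h1 (fun w hw => ⟨hz, hw⟩)
  exact ⟨h2, analyticAt_of_differentiableOn hV h2 hz⟩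

theorem iteratedDeriv_series (hV : IsOpen V)
    (hf : DifferentiableOn ℂ (fun p : Cm n × Cm n => f p.1 p.2) (V ×ˢ V)) {z : Cm n}
    (hz : z ∈ V) {p : FormalMultilinearSeries ℂ (Cm n) ℂ} (hp : HasFPowerSeriesAt (f z) p z)
    (k : ℕ) (v : Cm n) :
    iteratedDeriv k (fun t : ℂ => f z (z + t • v)) 0 = (k.factorial : ℂ) * p k (fun _ => v) := by
  obtain ⟨h1, h2⟩ := analytic_snd hV hf hz
  have h3 := iteratedDeriv_line hV (n := k) (P281.MF.contDiffOn_of_differentiableOn hV h1 k)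
    (x := z) (y := v) (t := 0) (by simpa using hz)
  rw [h3]
  obtain ⟨r, hr⟩ := hp
  have h4 := hr.factorial_smul v k
  simp only [zero_smul, add_zero]
  rw [← h4, nsmul_eq_mul]

theorem series_lower {q : ℕ} (hV : IsOpen V)
    (hf : DifferentiableOn ℂ (fun p : Cm n × Cm n => f p.1 p.2) (V ×ˢ V)) (hq : Van q V f)
    {z : Cm n} (hz : z ∈ V) {p : FormalMultilinearSeries ℂ (Cm n) ℂ}
    (hp : HasFPowerSeriesAt (f z) p z) {k : ℕ} (hk : k < q) (v : Cm n) :
    p k (fun _ => v) = 0 := by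
  have h1 := lower (analytic_line hV hf hz v) (hq z hz v) hk
  rw [iteratedDeriv_series hV hf hz hp] at h1
  have hk' : (k.factorial : ℂ) ≠ 0 := by exact_mod_cast k.factorial_ne_zero
  exact (mul_eq_zero.1 h1).resolve_left hk'

theorem series_lead {q : ℕ} (hV : IsOpen V)
    (hf : DifferentiableOn ℂ (fun p : Cm n × Cm n => f p.1 p.2) (V ×ˢ V)) (hq : Van q V f)
    {z : Cm n} (hz : z ∈ V) {p : FormalMultilinearSeries ℂ (Cm n) ℂ}
    (hp : HasFPowerSeriesAt (f z) p z) (v : Cm n) :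
    Lead q f z v = p q (fun _ => v) := by
  have hk' : (q.factorial : ℂ) ≠ 0 := by exact_mod_cast q.factorial_ne_zero
  rw [lead_eq hV hf hq hz, iteratedDeriv_series hV hf hz hp, ← mul_assoc, inv_mul_cancel₀ hk',
    one_mul]

/-- Taylor's formula. -/
theorem taylor {q : ℕ} (hV : IsOpen V)
    (hf : DifferentiableOn ℂ (fun p : Cm n × Cm n => f p.1 p.2) (V ×ˢ V)) (hq : Van q V f)
    {z : Cm n} (hz : z ∈ V) :
    (fun y : Cm n => f z (z + y) - Lead q f z y) =O[𝓝 0] fun y => ‖y‖ ^ (q + 1) := by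
  obtain ⟨p, hp⟩ := (analytic_snd hV hf hz).2
  have h1 := hp.isBigO_sub_partialSum_pow (q + 1)
  refine h1.congr_left fun y => ?_
  rw [FormalMultilinearSeries.partialSum, Finset.sum_range_succ,
    Finset.sum_eq_zero (fun k hk => series_lower hV hf hq hz hp (Finset.mem_range.1 hk) y),
    zero_add, series_lead hV hf hq hz hp]

theorem lead_homog {q : ℕ} (hV : IsOpen V)
    (hf : DifferentiableOn ℂ (fun p : Cm n × Cm n => f p.1 p.2) (V ×ˢ V)) (hq : Van q V f)
    {z : Cm n} (hz : z ∈ V) (t : ℂ) (v : Cm n) :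
    Lead q f z (t • v) = t ^ q * Lead q f z v := by
  obtain ⟨p, hp⟩ := (analytic_snd hV hf hz).2
  rw [series_lead hV hf hq hz hp, series_lead hV hf hq hz hp]
  have := (p q).map_smul_univ (fun _ => t) (fun _ => v)
  simpa using this

theorem lead_cont {q : ℕ} (hV : IsOpen V)
    (hf : DifferentiableOn ℂ (fun p : Cm n × Cm n => f p.1 p.2) (V ×ˢ V)) (hq : Van q V f)
    {z : Cm n} (hz : z ∈ V) : Continuous (Lead q f z) := by
  obtain ⟨p, hp⟩ := (analytic_snd hV hf hz).2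
  have : Lead q f z = fun v => p q (fun _ => v) := by
    funext v
    exact series_lead hV hf hq hz hp v
  rw [this]
  exact (p q).cont.comp (by fun_prop)

theorem lead_bound {q : ℕ} (hV : IsOpen V)
    (hf : DifferentiableOn ℂ (fun p : Cm n × Cm n => f p.1 p.2) (V ×ˢ V)) (hq : Van q V f)
    (z : Cm n) (ε B : ℝ) (hε : 0 < ε) (hb : ball z ε ⊆ V) (hB : ∀ w ∈ ball z ε, ‖f z w‖ ≤ B)
    (v : Cm n) : ‖Lead q f z v‖ ≤ B / ε ^ q * ‖v‖ ^ q := by
  have hz : z ∈ V := hb (mem_ball_self hε)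
  have hB0 : 0 ≤ B := (norm_nonneg _).trans (hB z (mem_ball_self hε))
  rcases eq_or_ne v 0 with rfl | hv
  · rcases Nat.eq_zero_or_pos q with rfl | hq0
    · rw [lead_eq hV hf hq hz]
      simpa using hB z (mem_ball_self hε)
    · have h1 := lead_homog hV hf hq hz 0 0
      rw [zero_smul, zero_pow hq0.ne', zero_mul] at h1
      rw [h1, norm_zero]
      positivity
  have hv' : 0 < ‖v‖ := norm_pos_iff.2 hv
  have key : ∀ s : ℝ, 0 < s → s < ε / ‖v‖ → ‖Lead q f z v‖ ≤ B / s ^ q := by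
    intro s hs hs'
    rw [lt_div_iff₀ hv'] at hs'
    have hmem : ∀ t : ℂ, ‖t‖ ≤ s → z + t • v ∈ ball z ε := by
      intro t ht
      rw [mem_ball, dist_eq_norm, add_sub_cancel_left, norm_smul]
      exact (mul_le_mul_of_nonneg_right ht hv'.le).trans_lt hs'
    have h1 : DifferentiableOn ℂ (fun t : ℂ => f z (z + t • v)) (closedBall 0 s) := by
      refine (diff_line hf hz v).mono fun t ht => hb (hmem t ?_)
      simpa using ht
    have h2 : DiffContOnCl ℂ (fun t : ℂ => f z (z + t • v)) (ball 0 s) := by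
      refine DifferentiableOn.diffContOnCl ?_
      rwa [closure_ball _ hs.ne']
    have h3 := Complex.norm_iteratedDeriv_le_of_forall_mem_sphere_norm_le q hs h2 (C := B)
      (fun t ht => hB _ (hmem t (by simpa using (mem_sphere_iff_norm.1 ht).le)))
    rw [lead_eq hV hf hq hz, norm_mul, norm_inv, Complex.norm_natCast]
    have hfac : (0 : ℝ) < q.factorial := by exact_mod_cast q.factorial_pos
    calc ((q.factorial : ℝ))⁻¹ * ‖iteratedDeriv q (fun t : ℂ => f z (z + t • v)) 0‖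
        ≤ ((q.factorial : ℝ))⁻¹ * (q.factorial * B / s ^ q) :=
          mul_le_mul_of_nonneg_left h3 (inv_nonneg.2 hfac.le)
      _ = B / s ^ q := by field_simp
  have hlim : Tendsto (fun s : ℝ => B / s ^ q) (𝓝[<] (ε / ‖v‖)) (𝓝 (B / (ε / ‖v‖) ^ q)) := by
    have hne : (ε / ‖v‖) ^ q ≠ 0 := by positivity
    have : ContinuousAt (fun s : ℝ => B / s ^ q) (ε / ‖v‖) := by fun_prop (disch := assumption)
    exact this.tendsto.mono_left nhdsWithin_le_nhds
  have hev : ∀ᶠ s in 𝓝[<] (ε / ‖v‖), ‖Lead q f z v‖ ≤ B / s ^ q := by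
    have h0 : (0 : ℝ) < ε / ‖v‖ := by positivity
    filter_upwards [Ioo_mem_nhdsLT h0] with s hs using key s hs.1 hs.2
  have := ge_of_tendsto hlim hev
  refine this.trans (le_of_eq ?_)
  rw [div_pow]
  field_simp

theorem lead_succ {q : ℕ} (hV : IsOpen V)
    (hf : DifferentiableOn ℂ (fun p : Cm n × Cm n => f p.1 p.2) (V ×ˢ V)) (hq : Van q V f)
    (h0 : ∀ z ∈ V, ∀ v, Lead q f z v = 0) : Van (q + 1) V f := by
  intro z hz v
  obtain ⟨h, hh, he⟩ := exists_factor (analytic_line hV hf hz v) (hq z hz v)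
  have h1 : h 0 = 0 := by
    have h2 := (tendsto_factor hh he).limUnder_eq
    rw [← h2]
    exact h0 z hz v
  have h3 : h =O[𝓝 0] fun t : ℂ => t := by
    have := hh.differentiableAt.isBigO_sub
    simpa [h1] using this
  have h4 : (fun t : ℂ => t ^ q * h t) =O[𝓝 0] fun t : ℂ => t ^ q * t :=
    (isBigO_refl _ _).mul h3
  refine (EventuallyEq.trans_isBigO he h4).congr_right fun t => ?_
  ring

/-- the leading term along a curve -/
theorem lead_curve {q : ℕ} (hV : IsOpen V)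
    (hf : DifferentiableOn ℂ (fun p : Cm n × Cm n => f p.1 p.2) (V ×ˢ V)) (hq : Van q V f)
    {z : Cm n} (hz : z ∈ V) {y : ℂ → Cm n} {u : Cm n} (hy : HasDerivAt y u 0) (hy0 : y 0 = 0) :
    Tendsto (fun t : ℂ => f z (z + y t) / t ^ q) (𝓝[≠] 0) (𝓝 (Lead q f z u)) := by
  have hcont : Tendsto y (𝓝[≠] 0) (𝓝 0) := by
    have := hy.continuousAt.tendsto
    rw [hy0] at this
    exact this.mono_left nhdsWithin_le_nhds
  have hslope : Tendsto (fun t : ℂ => t⁻¹ • y t) (𝓝[≠] 0) (𝓝 u) := by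
    have := hy.tendsto_slope_zero
    simpa [hy0] using this
  -- the main term
  have h1 : Tendsto (fun t : ℂ => Lead q f z (t⁻¹ • y t)) (𝓝[≠] 0) (𝓝 (Lead q f z u)) :=
    ((lead_cont hV hf hq hz).tendsto u).comp hslope
  -- the error term
  have h2 : (fun t : ℂ => f z (z + y t) - Lead q f z (y t)) =O[𝓝[≠] 0]
      fun t => ‖y t‖ ^ (q + 1) := (taylor hV hf hq hz).comp_tendsto hcont
  have h3 : y =O[𝓝[≠] 0] fun t : ℂ => t := by
    have := hy.differentiableAt.isBigO_sub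
    rw [hy0] at this
    simp only [sub_zero] at this
    exact this.mono nhdsWithin_le_nhds
  have h4 : (fun t : ℂ => ‖y t‖ ^ (q + 1)) =O[𝓝[≠] 0] fun t : ℂ => t ^ (q + 1) :=
    h3.norm_left.pow (q + 1)
  have h5 : (fun t : ℂ => (f z (z + y t) - Lead q f z (y t)) / t ^ q) =O[𝓝[≠] 0]
      fun t : ℂ => t ^ (q + 1) / t ^ q := by
    simp only [div_eq_mul_inv]
    exact (h2.trans h4).mul (isBigO_refl _ _)
  have h6 : Tendsto (fun t : ℂ => t ^ (q + 1) / t ^ q) (𝓝[≠] 0) (𝓝 0) := by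
    have : Tendsto (fun t : ℂ => t) (𝓝[≠] (0 : ℂ)) (𝓝 0) := nhdsWithin_le_nhds
    refine this.congr' ?_
    filter_upwards [self_mem_nhdsWithin] with t ht
    rw [pow_succ, mul_div_cancel_left₀ _ (pow_ne_zero _ ht)]
  have h7 := h5.trans_tendsto h6
  have h8 := h1.add h7
  rw [add_zero] at h8
  refine h8.congr' ?_
  filter_upwards [self_mem_nhdsWithin] with t ht
  rw [lead_homog hV hf hq hz, inv_pow]
  have : t ^ q ≠ 0 := pow_ne_zero _ ht
  field_simp
  ring

theorem lead_change {q : ℕ} {V' : Set (Cm n)} {f' : Cm n → Cm n → ℂ} (hV' : IsOpen V')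
    (hf' : DifferentiableOn ℂ (fun p : Cm n × Cm n => f' p.1 p.2) (V' ×ˢ V')) (hq' : Van q V' f')
    (T : Cm n → Cm n) (G : Cm n → ℂ) (z : Cm n) (hTz : T z ∈ V')
    (hT : DifferentiableAt ℂ T z) (hG : ContinuousAt G z)
    (he : ∀ᶠ w in 𝓝 z, f z w = G z * G w * f' (T z) (T w)) (v : Cm n) :
    Lead q f z v = G z ^ 2 * Lead q f' (T z) (fderiv ℂ T z v) := by
  have hline : HasDerivAt (fun t : ℂ => z + t • v) v 0 := by
    simpa using ((hasDerivAt_id (0 : ℂ)).smul_const v).const_add z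
  have hT' : HasFDerivAt T (fderiv ℂ T z) (z + (0 : ℂ) • v) := by simpa using hT.hasFDerivAt
  have hy : HasDerivAt (fun t : ℂ => T (z + t • v) - T z) (fderiv ℂ T z v) 0 := by
    have := (hT'.comp_hasDerivAt (0 : ℂ) hline).sub_const (T z)
    exact this
  have h1 := lead_curve hV' hf' hq' hTz hy (by simp)
  have hl : Tendsto (fun t : ℂ => z + t • v) (𝓝[≠] 0) (𝓝 z) := by
    have := hline.continuousAt.tendsto
    simp only [zero_smul, add_zero] at this
    exact this.mono_left nhdsWithin_le_nhds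
  have h2 : Tendsto (fun t : ℂ => G (z + t • v)) (𝓝[≠] 0) (𝓝 (G z)) := hG.tendsto.comp hl
  have h3 := (h2.const_mul (G z)).mul h1
  have h4 : Tendsto (fun t : ℂ => f z (z + t • v) / t ^ q) (𝓝[≠] 0)
      (𝓝 (G z * G z * Lead q f' (T z) (fderiv ℂ T z v))) := by
    refine h3.congr' ?_
    filter_upwards [hl.eventually he] with t ht
    rw [ht, add_sub_cancel]
    ring
  rw [Lead, h4.limUnder_eq, sq]

theorem lead_zero {c : Cm n} {r : ℝ}
    (hf : DifferentiableOn ℂ (fun p : Cm n × Cm n => f p.1 p.2) (ball c r ×ˢ ball c r))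
    (hq : ∀ q, Van q (ball c r) f) : ∀ z ∈ ball c r, ∀ w ∈ ball c r, f z w = 0 := by
  intro z hz w hw
  have hA : AnalyticOnNhd ℂ (fun t : ℂ => f z (z + t • (w - z)))
      ((fun t : ℂ => z + t • (w - z)) ⁻¹' ball c r) :=
    (diff_line hf hz (w - z)).analyticOnNhd (open_line isOpen_ball z (w - z))
  have hconv : Convex ℝ ((fun t : ℂ => z + t • (w - z)) ⁻¹' ball c r) := by
    intro s hs t ht a b ha hb hab
    have := convex_ball c r hs ht ha hb hab
    simp only [mem_preimage] at this ⊢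
    convert this using 1
    rw [smul_add, smul_add, add_smul, add_add_add_comm, ← add_smul a b z, hab, one_smul,
      smul_assoc, smul_assoc]
  have h0 : (0 : ℂ) ∈ (fun t : ℂ => z + t • (w - z)) ⁻¹' ball c r := by simpa using hz
  have h1 : (1 : ℂ) ∈ (fun t : ℂ => z + t • (w - z)) ⁻¹' ball c r := by simpa using hw
  have hA0 := hA 0 h0
  have htop : analyticOrderAt (fun t : ℂ => f z (z + t • (w - z))) 0 = ⊤ := by
    rw [ENat.eq_top_iff_forall_ge]
    intro q
    rw [natCast_le_analyticOrderAt hA0]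
    obtain ⟨h, hh, he⟩ := exists_factor hA0 (hq q z hz (w - z))
    exact ⟨h, hh, by filter_upwards [he] with t ht; simpa using ht⟩
  rw [analyticOrderAt_eq_top] at htop
  have := hA.eqOn_zero_of_preconnected_of_eventuallyEq_zero hconv.isPreconnected h0 htop h1
  simpa using this

end

/-- **Block D0.** -/
theorem d0Stmt : D0Stmt where
  tendsto := fun {n q V f} hV hf hq z hz v => by
    have h1 := lead_tendsto hV hf hq hz v
    rwa [← lead_eq hV hf hq hz v] at h1
  holo := fun {n q V f} hV hf hq => lead_holo hV hf hq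
  homog := fun {n q V f} hV hf hq z hz t v => lead_homog hV hf hq hz t v
  bound := fun {n q V f} hV hf hq z ε B hε hb hB v => lead_bound hV hf hq z ε B hε hb hB v
  succ := fun {n q V f} hV hf hq h0 => lead_succ hV hf hq h0
  coef := fun {n q V f} hV hf hq z hz v => by
    have hk' : (q.factorial : ℂ) ≠ 0 := by exact_mod_cast q.factorial_ne_zero
    rw [lead_eq hV hf hq hz, ← mul_assoc, mul_inv_cancel₀ hk', one_mul]
  change := fun {n q V V' f f'} _ hV' _ _ hf' hq' T G z _ hTz hT hG he v =>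
    lead_change hV' hf' hq' T G z hTz hT hG he v
  zero := fun {n c r f} hf hq => lead_zero hf hq

end Vale.Agent.P284.H5
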