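import Vale.Agent.P284.H5.FD
import Vale.Agent.P284.H913.SheetEx
import Mathlib.Analysis.Matrix.Order
import Mathlib.Algebra.Order.Chebyshev

/-!
# P284, theorem W: the pointwise estimate of the gradient along a sheet, and `FDStmt`
-/

open scoped Manifold ContDiff Topology Pointwise ComplexConjugate ComplexOrder
open Filter Set Metric MeasureTheory

noncomputable section

namespace Vale.Agent.P284.H5.W

open Vale.Agent.P272.K Vale.Agent.P284.H894.V Vale.Agent.P284.H894.W Vale.Agent.P284.H5.V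
  Vale.Agent.P284.H913

open scoped MatrixOrder in
/-- a positive semidefinite matrix is `Qᴴ Q` -/
theorem exists_root {n : ℕ} {A : Matrix (Fin n) (Fin n) ℂ} (hA : A.PosSemidef) :
    ∃ Q : Matrix (Fin n) (Fin n) ℂ, A = Q.conjTranspose * Q := by
  obtain ⟨Q, hQ⟩ := CStarAlgebra.nonneg_iff_eq_star_mul_self.mp hA.nonneg
  exact ⟨Q, hQ⟩

/-- a positive form of a linear combination -/
theorem qf_lin_le {n : ℕ} {A : Matrix (Fin n) (Fin n) ℂ} (hA : A.PosDef)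
    (M : Cm n →L[ℂ] Cm n) (a : Cm n) :
    (qf A (M a)).re ≤ n * ‖a‖ ^ 2 * (∑ j, qf A (M (Pi.single j 1))).re := by
  obtain ⟨Q, hQ⟩ := exists_root hA.posSemidef
  have key : ∀ v : Cm n, (qf A v).re = ∑ i, ‖(Q.mulVec (star v)) i‖ ^ 2 := by
    intro v
    rw [qf_eq, hQ, ← Matrix.mulVec_mulVec, Matrix.dotProduct_mulVec]
    have h1 : Matrix.vecMul v Q.conjTranspose = star (Q.mulVec (star v)) := by
      rw [Matrix.star_mulVec, star_star]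
    rw [h1]
    simp only [dotProduct, Pi.star_apply, Complex.re_sum]
    refine Finset.sum_congr rfl fun i _ => ?_
    rw [RCLike.star_def, ← Complex.normSq_eq_conj_mul_self, Complex.ofReal_re,
      Complex.normSq_eq_norm_sq]
  rw [Complex.re_sum, key]
  simp only [key]
  rw [Finset.sum_comm, Finset.mul_sum]
  refine Finset.sum_le_sum fun i _ => ?_
  have h2 : M a = ∑ j, a j • M (Pi.single j 1) := by
    conv_lhs => rw [show a = ∑ j, a j • (Pi.single j (1 : ℂ) : Cm n) from by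
      ext k
      simp [Finset.sum_apply, Pi.single_apply]]
    rw [map_sum]
    refine Finset.sum_congr rfl fun j _ => ?_
    rw [map_smul]
  have h3 : (Q.mulVec (star (M a))) i = ∑ j, conj (a j) * (Q.mulVec (star (M (Pi.single j 1)))) i := by
    rw [h2, star_sum, Matrix.mulVec_sum]
    rw [Finset.sum_apply]
    refine Finset.sum_congr rfl fun j _ => ?_
    rw [star_smul, Matrix.mulVec_smul]
    rfl
  rw [h3]
  have h4 : ‖∑ j, conj (a j) * (Q.mulVec (star (M (Pi.single j 1)))) i‖ ≤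
      ∑ j, ‖a‖ * ‖(Q.mulVec (star (M (Pi.single j 1)))) i‖ := by
    refine (norm_sum_le _ _).trans (Finset.sum_le_sum fun j _ => ?_)
    rw [norm_mul, Complex.norm_conj]
    exact mul_le_mul_of_nonneg_right (norm_le_pi_norm a j) (norm_nonneg _)
  calc ‖∑ j, conj (a j) * (Q.mulVec (star (M (Pi.single j 1)))) i‖ ^ 2
      ≤ (∑ j, ‖a‖ * ‖(Q.mulVec (star (M (Pi.single j 1)))) i‖) ^ 2 :=
        pow_le_pow_left₀ (norm_nonneg _) h4 2
    _ ≤ (Finset.univ : Finset (Fin n)).card *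
        ∑ j, (‖a‖ * ‖(Q.mulVec (star (M (Pi.single j 1)))) i‖) ^ 2 := sq_sum_le_card_mul_sum_sq
    _ = n * ‖a‖ ^ 2 * ∑ j, ‖(Q.mulVec (star (M (Pi.single j 1)))) i‖ ^ 2 := by
        rw [Finset.card_univ, Fintype.card_fin]
        simp only [mul_pow]
        rw [← Finset.mul_sum]
        ring

section
variable {n : ℕ} {X : Type} [TopologicalSpace X] [ChartedSpace (Cm n) X] [IsManifold 𝓘(ℂ, Cm n) ω X]
  {E : Type} [TopologicalSpace E] {p : E → X}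
  {w : Chart n X → Cm n → Matrix (Fin n) (Fin n) ℂ} {Φ : Cm n → X}

/-- the gradient of `u ∘ Φ~` along the sheet -/
theorem alA_pt {m : ℕ} (hw : IsHermitian w) (hΦ : ContMDiff 𝓘(ℂ, Cm n) 𝓘(ℂ, Cm n) ω Φ)
    {Φl : Cm n → E} (hΦl : Continuous Φl) (hpΦ : ∀ ζ, p (Φl ζ) = Φ ζ) (S : Sheet n m) {V₁ : Set E}
    (hVT : ∀ z ∈ S.T, Φl z ∈ V₁) (u : phal p w V₁) : ∃ B : ℝ, 0 ≤ B ∧ ∀ z ∈ S.T,
      ‖fderiv ℝ (fun x => alA p w V₁ Φl u (S.σ z x)) (S.pr z)‖ ^ 2 ≤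
        B * enDens w Φ z * ‖fderiv ℂ (S.σ z) (S.pr z)‖ ^ 2 := by
  obtain ⟨B', hB'⟩ := u.2
  refine ⟨max B' 0 * n, by positivity, fun z hz => ?_⟩
  set e := chartAt (Cm n) (Φ z) with he
  have hAt : At e (Φ z) := at_chartAt _
  have hs : S.σ z (S.pr z) = z := S.sec z hz
  have h1 := (along_iff.1 hB' m (fun w => Φl (S.σ z w)) (S.pr z)
    (sheet_holTo hΦ hΦl hpΦ S hVT hz)).2 e (by
      show At e (p (Φl (S.σ z (S.pr z))))
      rw [hs, hpΦ]; exact hAt)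
  set τ : Cm n → Cm n := fun ξ => e (Φ ξ) with hτ
  have hτd : DifferentiableAt ℂ τ z := (tau_smooth hΦ hAt).differentiableAt (by simp)
  have hσd : DifferentiableAt ℂ (S.σ z) (S.pr z) := (S.sec_ev z hz).self_of_nhds.2.2
  have h2 : fderiv ℂ (fun s => e (p (Φl (S.σ z s)))) (S.pr z) =
      (fderiv ℂ τ z).comp (fderiv ℂ (S.σ z) (S.pr z)) := by
    have h3 : HasFDerivAt (fun s => τ (S.σ z s))
        ((fderiv ℂ τ z).comp (fderiv ℂ (S.σ z) (S.pr z))) (S.pr z) := by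
      refine HasFDerivAt.comp (g := τ) (S.pr z) ?_ hσd.hasFDerivAt
      rw [hs]
      exact hτd.hasFDerivAt
    rw [← h3.fderiv]
    simp only [hpΦ, hτ]
  have h3 : ∀ v, (fderiv ℝ (fun x => alA p w V₁ Φl u (S.σ z x)) (S.pr z) v) ^ 2 ≤
      max B' 0 * n * enDens w Φ z * (‖fderiv ℂ (S.σ z) (S.pr z)‖ * ‖v‖) ^ 2 := by
    intro v
    have h4 := h1 v
    rw [h2] at h4
    simp only [hs, hpΦ] at h4
    have h5 : (fderiv ℝ (fun x => alA p w V₁ Φl u (S.σ z x)) (S.pr z) v) ^ 2 ≤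
        B' * (qf (w e (e (Φ z))) (fderiv ℂ τ z (fderiv ℂ (S.σ z) (S.pr z) v))).re := h4
    have h6 := qf_lin_le (hw.posDef _ _ hAt) (fderiv ℂ τ z) (fderiv ℂ (S.σ z) (S.pr z) v)
    have h7 : enDens w Φ z = (∑ j, qf (w e (e (Φ z))) (fderiv ℂ τ z (Pi.single j 1))).re := by
      rw [enDens_eq hw hΦ hAt]
      congr 1
      refine Finset.sum_congr rfl fun j _ => ?_
      congr 1
      funext k
      rw [← jmat_apply hτd]
      rfl
    rw [← h7] at h6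
    have h8 : 0 ≤ (qf (w e (e (Φ z))) (fderiv ℂ τ z (fderiv ℂ (S.σ z) (S.pr z) v))).re :=
      qf_nonneg (hw.posDef _ _ hAt) _
    have h9 : ‖fderiv ℂ (S.σ z) (S.pr z) v‖ ^ 2 ≤ (‖fderiv ℂ (S.σ z) (S.pr z)‖ * ‖v‖) ^ 2 :=
      pow_le_pow_left₀ (norm_nonneg _) ((fderiv ℂ (S.σ z) (S.pr z)).le_opNorm v) 2
    have h10 : 0 ≤ enDens w Φ z := enDens_nonneg hw hΦ z
    calc (fderiv ℝ (fun x => alA p w V₁ Φl u (S.σ z x)) (S.pr z) v) ^ 2
        ≤ B' * (qf (w e (e (Φ z))) (fderiv ℂ τ z (fderiv ℂ (S.σ z) (S.pr z) v))).re := h5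
      _ ≤ max B' 0 * (qf (w e (e (Φ z))) (fderiv ℂ τ z (fderiv ℂ (S.σ z) (S.pr z) v))).re :=
          mul_le_mul_of_nonneg_right (le_max_left _ _) h8
      _ ≤ max B' 0 * (n * ‖fderiv ℂ (S.σ z) (S.pr z) v‖ ^ 2 * enDens w Φ z) :=
          mul_le_mul_of_nonneg_left h6 (le_max_right _ _)
      _ ≤ max B' 0 * (n * (‖fderiv ℂ (S.σ z) (S.pr z)‖ * ‖v‖) ^ 2 * enDens w Φ z) := by gcongr
      _ = _ := by ring
  have h10 : 0 ≤ enDens w Φ z := enDens_nonneg hw hΦ z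
  have h11 : ‖fderiv ℝ (fun x => alA p w V₁ Φl u (S.σ z x)) (S.pr z)‖ ≤
      Real.sqrt (max B' 0 * n * enDens w Φ z) * ‖fderiv ℂ (S.σ z) (S.pr z)‖ := by
    refine ContinuousLinearMap.opNorm_le_bound _ (by positivity) fun v => ?_
    rw [Real.norm_eq_abs]
    refine abs_le_of_sq_le_sq ?_ (by positivity)
    rw [mul_assoc, mul_pow, Real.sq_sqrt (by positivity)]
    exact h3 v
  calc _ ≤ (Real.sqrt (max B' 0 * n * enDens w Φ z) * ‖fderiv ℂ (S.σ z) (S.pr z)‖) ^ 2 :=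
        pow_le_pow_left₀ (norm_nonneg _) h11 2
    _ = _ := by rw [mul_pow, Real.sq_sqrt (by positivity)]

/-- the pointwise estimate for maps of polynomial growth -/
theorem est_poly {m : ℕ} (hw : IsHermitian w) (hΦ : PolyMap w Φ)
    {Φl : Cm n → E} (hΦl : Continuous Φl) (hpΦ : ∀ ζ, p (Φl ζ) = Φ ζ) (S : Sheet n m) {V₁ : Set E}
    (hVT : ∀ z ∈ S.T, Φl z ∈ V₁) : ∃ k s : ℕ, ∀ u : phal p w V₁, ∃ C : ℝ, ∀ z ∈ S.T,
      ‖fderiv ℝ (fun x => alA p w V₁ Φl u (S.σ z x)) (S.pr z)‖ *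
        ‖MvPolynomial.eval (S.pr z) S.a0‖ ^ k ≤ C * (1 + ‖S.pr z‖) ^ s := by
  obtain ⟨C₁, s₁, hC₁⟩ := hΦ.growth
  obtain ⟨C₂, hC₂0, hC₂⟩ := C2.eval_growth S.a0
  set d := S.a0.totalDegree with hd
  refine ⟨s₁ + S.k, (d + S.s) * s₁ + S.s, fun u => ?_⟩
  obtain ⟨B, hB0, hB⟩ := alA_pt hw hΦ.holo hΦl hpΦ S hVT u
  refine ⟨Real.sqrt (B * |C₁|) * (C₂ + S.K) ^ s₁ * S.K, fun z hz => ?_⟩
  set R := 1 + ‖S.pr z‖ with hR
  have hR1 : 1 ≤ R := by rw [hR]; linarith [norm_nonneg (S.pr z)]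
  set a := ‖MvPolynomial.eval (S.pr z) S.a0‖ with ha
  have ha0 : 0 < a := norm_pos_iff.2 (S.off z hz)
  have hK := S.K_nn
  -- `(1 + ‖z‖) a ≤ (C₂ + K) R^(d + s)`
  have h1 : ‖z‖ * a ≤ S.K * R ^ S.s := by
    have h2 : ‖z‖ ≤ S.K * R ^ S.s / a := by
      refine (pi_norm_le_iff_of_nonneg (by positivity)).2 fun j => ?_
      rw [le_div_iff₀ ha0]
      exact S.bd z hz j
    rwa [le_div_iff₀ ha0] at h2
  have h2 : (1 + ‖z‖) * a ≤ (C₂ + S.K) * R ^ (d + S.s) := by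
    have h3 : a ≤ C₂ * R ^ d := hC₂ _
    have h4 : R ^ d ≤ R ^ (d + S.s) := pow_le_pow_right₀ hR1 (by omega)
    have h5 : R ^ S.s ≤ R ^ (d + S.s) := pow_le_pow_right₀ hR1 (by omega)
    nlinarith [mul_le_mul_of_nonneg_left h4 hC₂0, mul_le_mul_of_nonneg_left h5 hK]
  have h3 : ‖fderiv ℂ (S.σ z) (S.pr z)‖ * a ^ S.k ≤ S.K * R ^ S.s := S.dbd z hz
  have h4 : enDens w Φ z ≤ |C₁| * (1 + ‖z‖) ^ (2 * s₁) := by
    refine (hC₁ z).trans ?_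
    have h5 : (1 + ‖z‖) ^ s₁ ≤ (1 + ‖z‖) ^ (2 * s₁) :=
      pow_le_pow_right₀ (by linarith [norm_nonneg z]) (by omega)
    exact mul_le_mul (le_abs_self _) h5 (by positivity) (abs_nonneg _)
  have h5 : (‖fderiv ℝ (fun x => alA p w V₁ Φl u (S.σ z x)) (S.pr z)‖ * a ^ (s₁ + S.k)) ^ 2 ≤
      (Real.sqrt (B * |C₁|) * (C₂ + S.K) ^ s₁ * S.K * R ^ ((d + S.s) * s₁ + S.s)) ^ 2 := by
    calc (‖fderiv ℝ (fun x => alA p w V₁ Φl u (S.σ z x)) (S.pr z)‖ * a ^ (s₁ + S.k)) ^ 2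
        = ‖fderiv ℝ (fun x => alA p w V₁ Φl u (S.σ z x)) (S.pr z)‖ ^ 2 * (a ^ (s₁ + S.k)) ^ 2 :=
          mul_pow _ _ _
      _ ≤ (B * enDens w Φ z * ‖fderiv ℂ (S.σ z) (S.pr z)‖ ^ 2) * (a ^ (s₁ + S.k)) ^ 2 :=
          mul_le_mul_of_nonneg_right (hB z hz) (by positivity)
      _ ≤ (B * (|C₁| * (1 + ‖z‖) ^ (2 * s₁)) * ‖fderiv ℂ (S.σ z) (S.pr z)‖ ^ 2) *
          (a ^ (s₁ + S.k)) ^ 2 := by gcongr
      _ = B * |C₁| * (((1 + ‖z‖) * a) ^ s₁) ^ 2 *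
          (‖fderiv ℂ (S.σ z) (S.pr z)‖ * a ^ S.k) ^ 2 := by
          rw [pow_add, mul_pow (1 + ‖z‖) a s₁]
          ring
      _ ≤ B * |C₁| * (((C₂ + S.K) * R ^ (d + S.s)) ^ s₁) ^ 2 * (S.K * R ^ S.s) ^ 2 := by
          gcongr
      _ = _ := by
          have h6 : Real.sqrt (B * |C₁|) ^ 2 = B * |C₁| := Real.sq_sqrt (by positivity)
          rw [mul_pow (Real.sqrt (B * |C₁|) * (C₂ + S.K) ^ s₁ * S.K),
            mul_pow (Real.sqrt (B * |C₁|) * (C₂ + S.K) ^ s₁), mul_pow (Real.sqrt (B * |C₁|)), h6,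
            pow_add R ((d + S.s) * s₁), pow_mul R (d + S.s), mul_pow (C₂ + S.K)]
          ring
  exact abs_le_of_sq_le_sq' h5 (by positivity) |>.2

end

/-- **FDStmt** -/
theorem fdStmt : FDStmt := by
  intro n X _ _ _ _ _ _ w hw Φ hΦ E _ _ p hp N F hF Φl hΦl hpΦ P hP hsurj
  obtain ⟨B, hB⟩ := hF
  have hP' : ∃ ζ, Function.Surjective
      (fderiv ℂ (fun ζ : Cm n => fun i => MvPolynomial.eval ζ (P i)) ζ) := by
    obtain ⟨ζ, hζ⟩ := hsurj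
    refine ⟨ζ, ?_⟩
    have : (fun ζ => F (Φl ζ)) = fun ζ : Cm n => fun i => MvPolynomial.eval ζ (P i) := by
      funext ζ i
      exact hP ζ i
    rwa [this] at hζ
  obtain ⟨m, hNm, b, hb0, hb⟩ := exists_sheet P hP'
  refine ⟨b, hb0, fun ζ₁ hζ₁ hinj hreg => ?_⟩
  obtain ⟨S, h1, hS, hpr⟩ := hb ζ₁ hζ₁
  have hVT : ∀ z ∈ S.T, Φl z ∈ connectedComponentIn (F ⁻¹' {F (Φl ζ₁)}) (Φl ζ₁) :=
    sheet_sub hΦl hP S h1 hS
  obtain ⟨k, s, hks⟩ := est_poly hw.toIsHermitian hΦ hΦl hpΦ S hVT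
  exact fd_core hΦ.holo hp hNm hB hΦl hpΦ hP hinj hreg S h1 (hpr _) hS rfl (k := k) (s := s)
    fun u hu => hks ⟨u, hu⟩

end Vale.Agent.P284.H5.W
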