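import Vale.Agent.P284.H10.CY.Exh
import Vale.Agent.P284.H730.VP
import Vale.Agent.P284.H513.Mol4
import Vale.Agent.P272.K.N.MaxP

/-!
# P284, theorem CY (helper5): the exhaustion row `ExhStmt`
-/

open scoped Manifold ContDiff Topology Pointwise ComplexConjugate ComplexOrder Matrix
open Filter Set Metric MeasureTheory

set_option maxSynthPendingDepth 3

noncomputable section

namespace Vale.Agent.P284.H5.Exh

open Vale.Agent.P272.K Vale.Agent.P284.H248 Vale.Agent.P284.H894 Vale.Agent.P284.H894.G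
  Vale.Agent.P284.H894.V Vale.Agent.P284.H409.K Vale.Agent.P284.H10.CY

/-! ### Matrices -/

section
variable {n : ℕ}

theorem smul_psd {t : ℝ} (ht : 0 ≤ t) {A : Matrix (Fin n) (Fin n) ℂ} (hA : A.PosSemidef) :
    ((t : ℂ) • A).PosSemidef := hA.smul (by exact_mod_cast ht)

theorem dot_self (x : Fin n → ℂ) : star x ⬝ᵥ x = ((∑ j, ‖x j‖ ^ 2 : ℝ) : ℂ) := by
  simp only [dotProduct, Pi.star_apply, RCLike.star_def]
  push_cast
  refine Finset.sum_congr rfl fun j _ => ?_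
  rw [mul_comm, Complex.mul_conj, Complex.normSq_eq_norm_sq]
  push_cast
  rfl

/-- a Hermitian matrix with a bounded quadratic form -/
theorem psd_of_form {H : Matrix (Fin n) (Fin n) ℂ} (hH : H.IsHermitian) {M : ℝ}
    (h : ∀ x : Fin n → ℂ, (star x ⬝ᵥ (H *ᵥ x)).re ≤ M * ∑ j, ‖x j‖ ^ 2) :
    ((M : ℂ) • 1 - H).PosSemidef := by
  have hM : ((M : ℂ) • (1 : Matrix (Fin n) (Fin n) ℂ)).IsHermitian := by
    rw [Matrix.IsHermitian, Matrix.conjTranspose_smul, Matrix.conjTranspose_one]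
    simp
  have hH' := hM.sub hH
  refine Matrix.PosSemidef.of_dotProduct_mulVec_nonneg hH' fun x => ?_
  have him : (star x ⬝ᵥ (((M : ℂ) • 1 - H) *ᵥ x)).im = 0 := by
    have := hH'.im_star_dotProduct_mulVec_self x
    simpa using this
  rw [Complex.le_def, him]
  refine ⟨?_, rfl⟩
  have h1 := h x
  rw [Matrix.sub_mulVec, Matrix.smul_mulVec, Matrix.one_mulVec, dotProduct_sub, dotProduct_smul,
    dot_self, smul_eq_mul, ← Complex.ofReal_mul, Complex.sub_re, Complex.ofReal_re,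
    Complex.zero_re]
  linarith

theorem norm_sq_le (x : Fin n → ℂ) : ‖x‖ ^ 2 ≤ ∑ j, ‖x j‖ ^ 2 := by
  rcases isEmpty_or_nonempty (Fin n) with h | h
  · have : x = 0 := Subsingleton.elim _ _
    rw [this]
    simp
  · obtain ⟨i, hi⟩ := Finite.exists_max fun i : Fin n => ‖x i‖
    have h1 : ‖x‖ ≤ ‖x i‖ := (pi_norm_le_iff_of_nonneg (norm_nonneg _)).2 hi
    calc ‖x‖ ^ 2 ≤ ‖x i‖ ^ 2 := by gcongr
      _ ≤ ∑ j, ‖x j‖ ^ 2 := Finset.single_le_sum (f := fun j => ‖x j‖ ^ 2)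
        (fun j _ => sq_nonneg _) (Finset.mem_univ i)

/-- bounded second derivatives -/
theorem psd_lev {B : N.Bil n} (hB : ∀ v w, B v w = B w v) {M : ℝ} (h0 : 0 ≤ M)
    (h1 : ∀ v : Cm n, B v v ≤ M * ‖v‖ ^ 2) :
    ((M : ℂ) • 1 - N.lev B).PosSemidef := by
  refine psd_of_form (N.lev_isHermitian hB) fun x => ?_
  rw [N.lev_quadratic hB, Complex.ofReal_re]
  have h2 := h1 (star x)
  have h3 := h1 (Complex.I • star x)
  have h4 : ‖star x‖ ^ 2 ≤ ∑ j, ‖x j‖ ^ 2 := by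
    refine (norm_sq_le _).trans (le_of_eq ?_)
    exact Finset.sum_congr rfl fun j _ => by rw [Pi.star_apply, norm_star]
  have h5 : ‖Complex.I • star x‖ = ‖star x‖ := by rw [norm_smul, Complex.norm_I, one_mul]
  rw [h5] at h3
  have h6 : M * ‖star x‖ ^ 2 ≤ M * ∑ j, ‖x j‖ ^ 2 := by gcongr
  have h7 : 0 ≤ ‖star x‖ ^ 2 := sq_nonneg _
  nlinarith

theorem psd_hess {f : Cm n → ℝ} {z : Cm n} (hf : ContDiffAt ℝ 2 f z) {M : ℝ}
    (hM : ‖fderiv ℝ (fderiv ℝ f) z‖ ≤ M) :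
    ((M : ℂ) • 1 - cHess f z).PosSemidef ∧ ((M : ℂ) • 1 + cHess f z).PosSemidef := by
  have h2 : DifferentiableAt ℝ (fderiv ℝ f) z :=
    (hf.fderiv_right (m := 1) (by norm_num)).differentiableAt (by simp)
  rw [N.cHess_eq_lev h2]
  have h0 : 0 ≤ M := (norm_nonneg (fderiv ℝ (fderiv ℝ f) z)).trans hM
  have h1 : ∀ v : Cm n, |fderiv ℝ (fderiv ℝ f) z v v| ≤ M * ‖v‖ ^ 2 := fun v => by
    calc |fderiv ℝ (fderiv ℝ f) z v v| = ‖fderiv ℝ (fderiv ℝ f) z v v‖ := rfl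
      _ ≤ ‖fderiv ℝ (fderiv ℝ f) z v‖ * ‖v‖ := ContinuousLinearMap.le_opNorm _ _
      _ ≤ (‖fderiv ℝ (fderiv ℝ f) z‖ * ‖v‖) * ‖v‖ := by
        gcongr
        exact ContinuousLinearMap.le_opNorm _ _
      _ ≤ (M * ‖v‖) * ‖v‖ := by gcongr
      _ = _ := by ring
  refine ⟨psd_lev (N.fderiv_fderiv_symm hf) h0 fun v => (le_abs_self _).trans (h1 v), ?_⟩
  have h3 := psd_lev (B := -fderiv ℝ (fderiv ℝ f) z) (fun v w => by
    have := N.fderiv_fderiv_symm hf v w
    simp only [neg_apply]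
    rw [this]) h0 fun v => by
      simp only [neg_apply]
      exact (neg_le_abs _).trans (h1 v)
  rwa [N.lev_neg, sub_neg_eq_add] at h3

theorem psd_grad (g : Fin n → ℂ) {M : ℝ} (hM : ∑ j, ‖g j‖ ^ 2 ≤ M) :
    ((M : ℂ) • 1 - Matrix.vecMulVec g (star g)).PosSemidef := by
  refine psd_of_form ?_ fun x => ?_
  · ext j k
    simp [Matrix.vecMulVec_apply, Matrix.conjTranspose_apply, mul_comm]
  · have h1 : star x ⬝ᵥ (Matrix.vecMulVec g (star g) *ᵥ x) =
        (star x ⬝ᵥ g) * (star g ⬝ᵥ x) := by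
      simp only [dotProduct, Matrix.mulVec, Matrix.vecMulVec_apply, Finset.sum_mul,
        Finset.mul_sum]
      rw [Finset.sum_comm]
      exact Finset.sum_congr rfl fun j _ => Finset.sum_congr rfl fun k _ => by ring
    have h2 : star x ⬝ᵥ g = conj (star g ⬝ᵥ x) := by
      simp [dotProduct, map_sum, mul_comm]
    have h3 : (star x ⬝ᵥ (Matrix.vecMulVec g (star g) *ᵥ x)).re = ‖star g ⬝ᵥ x‖ ^ 2 := by
      rw [h1, h2, mul_comm, Complex.mul_conj, Complex.ofReal_re, Complex.normSq_eq_norm_sq]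
    rw [h3]
    have h4 : ‖star g ⬝ᵥ x‖ ≤ ∑ j, ‖g j‖ * ‖x j‖ := by
      refine (norm_sum_le _ _).trans (le_of_eq (Finset.sum_congr rfl fun j _ => ?_))
      rw [norm_mul, Pi.star_apply, norm_star]
    calc ‖star g ⬝ᵥ x‖ ^ 2 ≤ (∑ j, ‖g j‖ * ‖x j‖) ^ 2 := by gcongr
      _ ≤ (∑ j, ‖g j‖ ^ 2) * ∑ j, ‖x j‖ ^ 2 := Finset.sum_mul_sq_le_sq_mul_sq _ _ _
      _ ≤ M * ∑ j, ‖x j‖ ^ 2 := by gcongr

/-- comparison with the metric -/
theorem psd_met {w : Matrix (Fin n) (Fin n) ℂ} (hw : w.IsHermitian) {lam M B : ℝ}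
    (hlow : ∀ v : Cm n, lam * ∑ j, ‖v j‖ ^ 2 ≤ (∑ j, ∑ k, w j k * v j * conj (v k)).re)
    (hB : 0 ≤ B) (hM : M ≤ B * lam) {H : Matrix (Fin n) (Fin n) ℂ}
    (h : ((M : ℂ) • 1 - H).PosSemidef) : ((B : ℂ) • w - H).PosSemidef := by
  have h1 : (w - (lam : ℂ) • 1).PosSemidef := by
    have := psd_of_form (H := -w) hw.neg (M := -lam) fun x => by
      have h2 := hlow (star x)
      have h3 : ∑ j, ‖(star x) j‖ ^ 2 = ∑ j, ‖x j‖ ^ 2 :=
        Finset.sum_congr rfl fun j _ => by rw [Pi.star_apply, norm_star]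
      have h4 : star x ⬝ᵥ (w *ᵥ x) = ∑ j, ∑ k, w j k * (star x) j * conj ((star x) k) := by
        simp only [dotProduct, Matrix.mulVec, Finset.mul_sum]
        refine Finset.sum_congr rfl fun j _ => Finset.sum_congr rfl fun k _ => ?_
        simp only [Pi.star_apply, RCLike.star_def, Complex.conj_conj]
        ring
      rw [h3, ← h4] at h2
      rw [Matrix.neg_mulVec, dotProduct_neg, Complex.neg_re]
      linarith
    have h5 : ((-lam : ℝ) : ℂ) • (1 : Matrix (Fin n) (Fin n) ℂ) - -w = w - (lam : ℂ) • 1 := by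
      push_cast
      module
    rwa [h5] at this
  have h2 : (B : ℂ) • w - H = (B : ℂ) • (w - (lam : ℂ) • 1) +
      (((B * lam - M : ℝ) : ℂ) • (1 : Matrix (Fin n) (Fin n) ℂ) + ((M : ℂ) • 1 - H)) := by
    rw [smul_sub, smul_smul]
    push_cast
    module
  rw [h2]
  exact (smul_psd hB h1).add ((smul_psd (sub_nonneg.2 hM) Matrix.PosSemidef.one).add h)

theorem norm_dz_le (f : Cm n → ℝ) (z : Cm n) (j : Fin n) :
    ‖dz j (fun y => (f y : ℂ)) z‖ ≤ ‖fderiv ℝ f z‖ := by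
  rw [N.dz_ofReal]
  have h1 : ∀ c : ℂ, ‖c‖ = 1 → ‖fderiv ℝ f z (Pi.single j c)‖ ≤ ‖fderiv ℝ f z‖ := fun c hc => by
    refine ((fderiv ℝ f z).le_opNorm _).trans ?_
    have : ‖(Pi.single j c : Cm n)‖ = 1 := by
      rw [Pi.norm_single, hc]
    rw [this, mul_one]
  have h2 := h1 1 (by simp)
  have h3 := h1 Complex.I (by simp)
  rw [norm_div]
  have h4 : ‖((fderiv ℝ f z (Pi.single j 1) : ℝ) : ℂ) -
      Complex.I * ((fderiv ℝ f z (Pi.single j Complex.I) : ℝ) : ℂ)‖ ≤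
      ‖fderiv ℝ f z‖ + ‖fderiv ℝ f z‖ := by
    refine (norm_sub_le _ _).trans (add_le_add ?_ ?_)
    · rw [Complex.norm_real]
      exact h2
    · rw [norm_mul, Complex.norm_I, one_mul, Complex.norm_real]
      exact h3
  simp only [Complex.norm_ofNat]
  linarith

theorem D1_le (f : Cm n → ℝ) (z : Cm n) {M : ℝ} (hM : ‖fderiv ℝ f z‖ ≤ M) :
    D1 f z ≤ n * M ^ 2 := by
  unfold D1
  calc ∑ j, ‖dz j (fun y => (f y : ℂ)) z‖ ^ 2 ≤ ∑ _j : Fin n, M ^ 2 :=
        Finset.sum_le_sum fun j _ => by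
          have := (norm_dz_le f z j).trans hM
          gcongr
    _ = n * M ^ 2 := by simp

end

/-! ### The word length -/

section
variable {n : ℕ} {Γ : Type} [Group Γ]

/-- the symmetric finite set of the steps -/
def St (C : Coc n Γ) : Set Γ := (C.N : Set Γ) ∪ (C.N : Set Γ)⁻¹

theorem St_finite (C : Coc n Γ) : (St C).Finite :=
  C.N.finite_toSet.union C.N.finite_toSet.inv

theorem pow_fin {S : Set Γ} (hS : S.Finite) (k : ℕ) : (S ^ k).Finite := by
  induction k with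
  | zero =>
    rw [pow_zero]
    exact Set.finite_one
  | succ k ih =>
    rw [pow_succ]
    exact ih.mul hS

theorem exists_pow (C : Coc n Γ) (γ : Γ) : ∃ k : ℕ, γ ∈ St C ^ k := by
  obtain ⟨a⟩ := C.ne
  refine C.conn (fun γ _ => ∃ k : ℕ, γ ∈ St C ^ k) ?_ 1 a γ a ⟨0, by simp⟩
  rintro γ a b z h1 h2 h3 ⟨k, hk⟩
  refine ⟨k + 1, ?_⟩
  rw [pow_succ]
  exact Set.mul_mem_mul hk (Or.inl (C.κ_mem a b z h1 h2 h3))

/-- the word length -/
def len (C : Coc n Γ) (γ : Γ) : ℕ := sInf {k | γ ∈ St C ^ k}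

theorem len_mem (C : Coc n Γ) (γ : Γ) : γ ∈ St C ^ len C γ := Nat.sInf_mem (exists_pow C γ)

theorem len_le (C : Coc n Γ) (γ : Γ) {s : Γ} (hs : s ∈ St C) : len C (γ * s) ≤ len C γ + 1 := by
  refine Nat.sInf_le ?_
  show γ * s ∈ St C ^ (len C γ + 1)
  rw [pow_succ]
  exact Set.mul_mem_mul (len_mem C γ) hs

theorem len_diff (C : Coc n Γ) (γ : Γ) {s : Γ} (hs : s ∈ C.N) :
    |(len C (γ * s) : ℝ) - len C γ| ≤ 1 := by
  have h1 : len C (γ * s) ≤ len C γ + 1 := len_le C γ (Or.inl hs)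
  have h2 : len C γ ≤ len C (γ * s) + 1 := by
    have := len_le C (γ * s) (s := s⁻¹) (Or.inr (by simpa using hs))
    rwa [mul_inv_cancel_right] at this
  have h3 : (len C (γ * s) : ℝ) ≤ len C γ + 1 := by exact_mod_cast h1
  have h4 : (len C γ : ℝ) ≤ len C (γ * s) + 1 := by exact_mod_cast h2
  rw [abs_le]
  constructor <;> linarith

theorem len_fin (C : Coc n Γ) (R : ℝ) : {γ : Γ | (len C γ : ℝ) ≤ R}.Finite := by
  have h1 : (⋃ k ∈ Finset.range (⌊R⌋₊ + 1), St C ^ k).Finite := by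
    refine Set.Finite.biUnion (Finset.finite_toSet _) fun k _ => ?_
    exact pow_fin (St_finite C) k
  refine h1.subset fun γ hγ => ?_
  simp only [Set.mem_iUnion]
  refine ⟨len C γ, ?_, len_mem C γ⟩
  rw [Finset.mem_range]
  have : len C γ ≤ ⌊R⌋₊ := Nat.le_floor hγ
  omega

/-! ### The function -/

/-- the exhaustion function -/
def rho {C : Coc n Γ} (P : PU C) (γ : Γ) (a : C.I) (z : Cm n) : ℝ :=
  1 + ∑ b, P.χ b a z * (len C (γ * C.κ a b z) : ℝ)

open Classical in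
/-- the frozen coefficients -/
def cf {C : Coc n Γ} (P : PU C) (γ : Γ) (a : C.I) (z : Cm n) (b : C.I) : ℝ :=
  if z ∈ C.O a b ∧ C.T a b z ∈ P.K b then (len C (γ * C.κ a b z) : ℝ) else len C γ

theorem K_sub_Ω {C : Coc n Γ} (P : PU C) (b : C.I) : P.K b ⊆ ball (C.c b) (4 * C.r b) := by
  refine (P.K_sub b).trans (ball_subset_ball ?_)
  have := C.r_pos b
  linarith

theorem rho_ev {C : Coc n Γ} (P : PU C) (γ : Γ) {a : C.I} {z : Cm n} (hz : z ∈ C.Ω a) :
    ∀ᶠ y in 𝓝 z, rho P γ a y = 1 + ∑ b, P.χ b a y * cf P γ a z b := by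
  have h1 : ∀ b : C.I, ∀ᶠ y in 𝓝 z,
      P.χ b a y * (len C (γ * C.κ a b y) : ℝ) = P.χ b a y * cf P γ a z b := by
    intro b
    by_cases h : z ∈ C.O a b ∧ C.T a b z ∈ P.K b
    · filter_upwards [C.κ_loc a b z h.1] with y hy
      rw [cf, if_pos h, hy]
    · filter_upwards [C.closed a b (P.K b) (P.compactK b) (K_sub_Ω P b) z hz h,
        isOpen_ball.mem_nhds hz] with y hy hy2
      have : P.χ b a y = 0 := by
        by_contra hne
        exact hy (P.supp b a y hy2 hne)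
      rw [this, zero_mul, zero_mul]
  filter_upwards [Filter.eventually_all.2 h1] with y hy
  rw [rho]
  congr 1
  exact Finset.sum_congr rfl fun b _ => hy b

theorem rho_ev' {C : Coc n Γ} (P : PU C) (γ : Γ) {a : C.I} {z : Cm n} (hz : z ∈ C.Ω a) :
    ∀ᶠ y in 𝓝 z, rho P γ a y =
      (1 + len C γ) + ∑ b, (cf P γ a z b - len C γ) * P.χ b a y := by
  filter_upwards [rho_ev P γ hz, isOpen_ball.mem_nhds hz] with y hy hy2
  rw [hy]
  have h1 := P.sum_one a y hy2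
  have h2 : ∑ b, (cf P γ a z b - len C γ) * P.χ b a y =
      ∑ b, P.χ b a y * cf P γ a z b - len C γ * ∑ b, P.χ b a y := by
    rw [Finset.mul_sum, ← Finset.sum_sub_distrib]
    exact Finset.sum_congr rfl fun b _ => by ring
  rw [h2, h1]
  ring

theorem cf_diff {C : Coc n Γ} (P : PU C) (γ : Γ) {a : C.I} {z : Cm n} (hz : z ∈ C.V a)
    (b : C.I) : |cf P γ a z b - len C γ| ≤ 1 := by
  rw [cf]
  split_ifs with h
  · exact len_diff C γ (C.κ_mem a b z h.1 hz (P.K_sub b h.2))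
  · simp

theorem V_sub {C : Coc n Γ} (a : C.I) : C.V a ⊆ C.Ω a :=
  ball_subset_ball (by have := C.r_pos a; linarith)

theorem smF_rho {C : Coc n Γ} (P : PU C) : SmF C (rho P) where
  smooth γ a z hz := by
    have h1 : ContDiffAt ℝ ∞ (fun y => 1 + ∑ b, P.χ b a y * cf P γ a z b) z := by
      refine contDiffAt_const.add (ContDiffAt.sum fun b _ => ?_)
      exact (P.smooth b a z hz).mul contDiffAt_const
    exact h1.congr_of_eventuallyEq (rho_ev P γ hz)
  compat γ a b z hz := by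
    rw [rho, rho]
    congr 1
    refine Finset.sum_congr rfl fun d _ => ?_
    rw [P.compat d a b z hz]
    by_cases h : P.χ d b (C.T a b z) = 0
    · rw [h, zero_mul, zero_mul]
    · have hT : C.T a b z ∈ C.Ω b := C.O_sub b a (C.T_mem a b z hz)
      rw [C.trans_κ a b d z hz (P.supp d b _ hT h).1, mul_assoc]

theorem one_le_rho {C : Coc n Γ} (P : PU C) (γ : Γ) (a : C.I) (z : Cm n) : 1 ≤ rho P γ a z := by
  rw [rho]
  have : 0 ≤ ∑ b, P.χ b a z * (len C (γ * C.κ a b z) : ℝ) :=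
    Finset.sum_nonneg fun b _ => mul_nonneg (P.nonneg b a z) (Nat.cast_nonneg _)
  linarith

theorem len_le_rho {C : Coc n Γ} (P : PU C) (γ : Γ) {a : C.I} {z : Cm n} (hz : z ∈ C.V a) :
    (len C γ : ℝ) ≤ rho P γ a z := by
  rw [(rho_ev' P γ (V_sub a hz)).self_of_nhds]
  have h1 : -∑ b, P.χ b a z ≤ ∑ b, (cf P γ a z b - len C γ) * P.χ b a z := by
    rw [← Finset.sum_neg_distrib]
    refine Finset.sum_le_sum fun b _ => ?_
    have h2 := (abs_le.1 (cf_diff P γ hz b)).1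
    have h3 := P.nonneg b a z
    nlinarith
  rw [P.sum_one a z (V_sub a hz)] at h1
  linarith

/-- bounds for the partition of unity -/
theorem exists_M {C : Coc n Γ} (P : PU C) : ∃ M : ℝ, 0 ≤ M ∧ ∀ b a, ∀ z ∈ C.V a,
    ‖fderiv ℝ (P.χ b a) z‖ ≤ M ∧ ‖fderiv ℝ (fderiv ℝ (P.χ b a)) z‖ ≤ M := by
  have h1 : ∀ p : C.I × C.I, ∃ M : ℝ, ∀ z ∈ C.V p.2,
      ‖fderiv ℝ (P.χ p.1 p.2) z‖ ≤ M ∧ ‖fderiv ℝ (fderiv ℝ (P.χ p.1 p.2)) z‖ ≤ M := by
    rintro ⟨b, a⟩
    have hsub : closedBall (C.c a) (3 * C.r a) ⊆ C.Ω a :=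
      closedBall_subset_ball (by have := C.r_pos a; linarith)
    have hc := isCompact_closedBall (C.c a) (3 * C.r a)
    have h2 : ∀ z ∈ closedBall (C.c a) (3 * C.r a), ContDiffAt ℝ 1 (fderiv ℝ (P.χ b a)) z :=
      fun z hz => (P.smooth b a z (hsub hz)).fderiv_right (by norm_cast)
    obtain ⟨M1, hM1⟩ := hc.exists_bound_of_continuousOn (f := fderiv ℝ (P.χ b a))
      fun z hz => (h2 z hz).continuousAt.continuousWithinAt
    obtain ⟨M2, hM2⟩ := hc.exists_bound_of_continuousOn (f := fderiv ℝ (fderiv ℝ (P.χ b a)))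
      fun z hz => ((h2 z hz).fderiv_right (m := 0) (by norm_num)).continuousAt.continuousWithinAt
    exact ⟨max M1 M2, fun z hz =>
      ⟨(hM1 z (ball_subset_closedBall hz)).trans (le_max_left _ _),
        (hM2 z (ball_subset_closedBall hz)).trans (le_max_right _ _)⟩⟩
  choose M hM using h1
  refine ⟨∑ p, |M p|, Finset.sum_nonneg fun p _ => abs_nonneg _, fun b a z hz => ?_⟩
  have h3 : M (b, a) ≤ ∑ p, |M p| := (le_abs_self _).trans
    (Finset.single_le_sum (f := fun p => |M p|) (fun p _ => abs_nonneg _) (Finset.mem_univ (b, a)))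
  exact ⟨(hM (b, a) z hz).1.trans h3, (hM (b, a) z hz).2.trans h3⟩

theorem norm_sum_smul_le {F ι : Type*} [NormedAddCommGroup F] [NormedSpace ℝ F] [Fintype ι]
    {M : ℝ} (t : ι → ℝ) (v : ι → F) (ht : ∀ b, |t b| ≤ 1) (hv : ∀ b, ‖v b‖ ≤ M) :
    ‖∑ b, t b • v b‖ ≤ Fintype.card ι * M := by
  calc ‖∑ b, t b • v b‖ ≤ ∑ b, ‖t b • v b‖ := norm_sum_le _ _
    _ ≤ ∑ _b : ι, M := Finset.sum_le_sum fun b _ => by
        rw [norm_smul, Real.norm_eq_abs]
        have h1 := ht b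
        have h2 := hv b
        have h3 := norm_nonneg (v b)
        nlinarith [abs_nonneg (t b)]
    _ = Fintype.card ι * M := by simp

theorem bounds {C : Coc n Γ} (P : PU C) {M : ℝ}
    (hM : ∀ b a, ∀ z ∈ C.V a,
      ‖fderiv ℝ (P.χ b a) z‖ ≤ M ∧ ‖fderiv ℝ (fderiv ℝ (P.χ b a)) z‖ ≤ M)
    (γ : Γ) {a : C.I} {z : Cm n} (hz : z ∈ C.V a) :
    ‖fderiv ℝ (rho P γ a) z‖ ≤ Fintype.card C.I * M ∧
      ‖fderiv ℝ (fderiv ℝ (rho P γ a)) z‖ ≤ Fintype.card C.I * M := by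
  have hzΩ := V_sub a hz
  set g : Cm n → ℝ := fun y => (1 + len C γ) + ∑ b, (cf P γ a z b - len C γ) * P.χ b a y with hg
  have hev : rho P γ a =ᶠ[𝓝 z] g := rho_ev' P γ hzΩ
  have hd : ∀ y ∈ C.Ω a, HasFDerivAt g (∑ b, (cf P γ a z b - len C γ) • fderiv ℝ (P.χ b a) y) y := by
    intro y hy
    refine HasFDerivAt.const_add _ (HasFDerivAt.fun_sum fun b _ => ?_)
    exact (((P.smooth b a y hy).differentiableAt (by simp)).hasFDerivAt).const_mul _
  have hd2 : fderiv ℝ (fderiv ℝ g) z =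
      ∑ b, (cf P γ a z b - len C γ) • fderiv ℝ (fderiv ℝ (P.χ b a)) z := by
    have h1 : fderiv ℝ g =ᶠ[𝓝 z] fun y => ∑ b, (cf P γ a z b - len C γ) • fderiv ℝ (P.χ b a) y := by
      filter_upwards [isOpen_ball.mem_nhds hzΩ] with y hy
      exact (hd y hy).fderiv
    rw [h1.fderiv_eq]
    have h2 : ∀ b : C.I, HasFDerivAt (fun y => (cf P γ a z b - len C γ) • fderiv ℝ (P.χ b a) y)
        ((cf P γ a z b - len C γ) • fderiv ℝ (fderiv ℝ (P.χ b a)) z) z := fun b => by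
      have h3 : DifferentiableAt ℝ (fderiv ℝ (P.χ b a)) z :=
        ((P.smooth b a z hzΩ).fderiv_right (m := 1) (by norm_cast)).differentiableAt (by simp)
      exact h3.hasFDerivAt.const_smul (cf P γ a z b - len C γ : ℝ)
    exact (HasFDerivAt.fun_sum fun b _ => h2 b).fderiv
  constructor
  · rw [hev.fderiv_eq, (hd z hzΩ).fderiv]
    exact norm_sum_smul_le _ _ (fun b => cf_diff P γ hz b) fun b => (hM b a z hz).1
  · rw [hev.fderiv.fderiv_eq, hd2]
    exact norm_sum_smul_le _ _ (fun b => cf_diff P γ hz b) fun b => (hM b a z hz).2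

/-- **EXH** -/
theorem exhStmt : ExhStmt := by
  intro n Γ _ C P K
  obtain ⟨M, hM0, hM⟩ := exists_M P
  set G : ℝ := Fintype.card C.I * M with hG
  have hG0 : 0 ≤ G := by positivity
  have hlam := K.lam_pos
  set M' : ℝ := max G (n * G ^ 2) with hM'
  have hS := smF_rho P
  have hgr : ∀ γ a, ∀ z ∈ C.Ω a, D1 (rho P γ a) z ≤ K.Lam * (n * G ^ 2 / K.lam) := by
    intro γ a z hz
    obtain ⟨b, h1, h2⟩ := C.cover a z hz
    have hV : C.T a b z ∈ C.V b := ball_subset_ball (by have := C.r_pos b; linarith) h2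
    have hΩ := V_sub b hV
    have hVP := H730.V.vpStmt
    obtain ⟨-, h3, -, -⟩ := hVP.trans (K.w a) (K.w b) (rho P γ a) (rho P γ a)
      (rho P (γ * C.κ a b z) b) (rho P (γ * C.κ a b z) b) (C.T a b) z
      (by
        filter_upwards [(C.O_open a b).mem_nhds h1] with y hy
        exact (C.T_holo a b).differentiableAt ((C.O_open a b).mem_nhds hy))
      ((K.ku a).pos z hz) ((K.ku b).pos _ hΩ) (K.change a b z h1)
      (hS.smooth _ b _ hΩ) (hS.smooth _ b _ hΩ)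
      (by
        filter_upwards [(C.O_open a b).mem_nhds h1, C.κ_loc a b z h1] with y hy hk
        rw [hS.compat γ a b y hy, hk])
      (by
        filter_upwards [(C.O_open a b).mem_nhds h1, C.κ_loc a b z h1] with y hy hk
        rw [hS.compat γ a b y hy, hk])
    have h4 := hVP.ell (K.w a) (rho P γ a) z K.lam K.Lam ((K.ku a).pos z hz) hlam
      (K.low a z hz) (K.up a z hz)
    have h5 := hVP.ell (K.w b) (rho P (γ * C.κ a b z) b) (C.T a b z) K.lam K.Lam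
      ((K.ku b).pos _ hΩ) hlam (K.low b _ hΩ) (K.up b _ hΩ)
    have h6 := D1_le (rho P (γ * C.κ a b z) b) (C.T a b z) (bounds P hM (γ * C.κ a b z) hV).1
    have h7 : gr (K.w b) (rho P (γ * C.κ a b z) b) (rho P (γ * C.κ a b z) b) (C.T a b z) ≤
        n * G ^ 2 / K.lam := by
      rw [le_div_iff₀ hlam]
      calc _ = K.lam * gr (K.w b) (rho P (γ * C.κ a b z) b) (rho P (γ * C.κ a b z) b)
            (C.T a b z) := by ring
        _ ≤ _ := h5.2.1
        _ ≤ _ := h6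
    have h8 : 0 ≤ K.Lam := by
      have := K.vol_up a z hz
      have h9 := K.vol_low a z hz
      linarith
    calc D1 (rho P γ a) z ≤ K.Lam * gr (K.w a) (rho P γ a) (rho P γ a) z := h4.1
      _ ≤ K.Lam * (n * G ^ 2 / K.lam) := by
        rw [h3]
        gcongr
  set L : ℝ := Real.sqrt (4 * n * (K.Lam * (n * G ^ 2 / K.lam))) with hL
  have hfd : ∀ γ a, ∀ z ∈ C.Ω a, ‖fderiv ℝ (rho P γ a) z‖ ≤ L := by
    intro γ a z hz
    refine Real.le_sqrt_of_sq_le ?_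
    refine (H513.V.sq_norm_fderiv_le ((hS.smooth γ a z hz).differentiableAt (by simp))).trans ?_
    have := hgr γ a z hz
    gcongr
  refine ⟨rho P, M' / K.lam, hS, by positivity, fun γ a z _ => one_le_rho P γ a z, ?_, ?_⟩
  · intro R
    have hfin : (⋃ a : C.I, {γ : Γ | (len C γ : ℝ) ≤ R + L * (4 * C.r a)}).Finite :=
      Set.finite_iUnion fun a => len_fin C _
    refine hfin.subset ?_
    rintro γ ⟨a, z, hz, h⟩
    refine Set.mem_iUnion.2 ⟨a, ?_⟩
    show (len C γ : ℝ) ≤ R + L * (4 * C.r a)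
    have hc : C.c a ∈ C.V a := mem_ball_self (by have := C.r_pos a; linarith)
    have h1 := len_le_rho P γ hc
    have h2 := (convex_ball (C.c a) (4 * C.r a)).norm_image_sub_le_of_norm_fderiv_le
      (𝕜 := ℝ) (f := rho P γ a) (C := L)
      (fun y hy => (hS.smooth γ a y hy).differentiableAt (by simp)) (fun y hy => hfd γ a y hy)
      hz (V_sub a hc)
    have h3 : ‖C.c a - z‖ ≤ 4 * C.r a := by
      rw [← dist_eq_norm, dist_comm]
      exact (mem_ball.1 hz).le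
    have h4 : rho P γ a (C.c a) - rho P γ a z ≤ L * (4 * C.r a) := by
      calc _ ≤ ‖rho P γ a (C.c a) - rho P γ a z‖ := Real.le_norm_self _
        _ ≤ L * ‖C.c a - z‖ := h2
        _ ≤ _ := by
          have : 0 ≤ L := Real.sqrt_nonneg _
          gcongr
    linarith
  · intro γ a z hz
    have hzΩ := V_sub a hz
    obtain ⟨h1, h2⟩ := bounds P hM γ hz
    have hw := ((K.ku a).pos z hzΩ).isHermitian
    have h3 : ContDiffAt ℝ 2 (rho P γ a) z := (hS.smooth γ a z hzΩ).of_le (by norm_cast)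
    obtain ⟨h4, h5⟩ := psd_hess h3 (h2.trans (le_max_left G (n * G ^ 2)))
    have hB : 0 ≤ M' / K.lam := by positivity
    have hMB : M' ≤ M' / K.lam * K.lam := by rw [div_mul_cancel₀ _ hlam.ne']
    refine ⟨psd_met hw (K.low a z hzΩ) hB hMB h4, ?_, ?_⟩
    · have h6 := psd_met hw (K.low a z hzΩ) hB hMB (H := -cHess (rho P γ a) z)
        (by rwa [sub_neg_eq_add])
      rwa [sub_neg_eq_add] at h6
    · refine psd_met hw (K.low a z hzΩ) hB hMB (psd_grad _ ?_)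
      exact (D1_le (rho P γ a) z h1).trans (le_max_right _ _)

end

end Vale.Agent.P284.H5.Exh
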