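import Vale.Agent.P284.H5.V16B
import Vale.Agent.P284.H894.V.Defs
import Vale.Agent.P272.K.Inv.Chart
import Mathlib.Analysis.Analytic.Uniqueness
import Mathlib.Analysis.Complex.CauchyIntegral

/-!
# P284 V16, part C: the identity theorem for pluriharmonic functions
-/

open scoped Manifold ContDiff Topology Pointwise ComplexConjugate ComplexOrder
open Filter Set Metric MeasureTheory

noncomputable section

namespace Vale.Agent.P284.H5.V

open Vale.Agent.P272.K Vale.Agent.P284.H894.V

variable {n : ℕ}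

lemma dzb_real {g : Cm n → ℝ} {z : Cm n} (hg : DifferentiableAt ℝ (fun y => (g y : ℂ)) z)
    (j : Fin n) : dzb j (fun y => (g y : ℂ)) z = cj (dz j (fun y => (g y : ℂ)) z) := by
  have h := dzb_cj (i := j) hg
  rw [← h]
  simp [cj]

lemma fderiv_zero_of_dz {g : Cm n → ℝ} {z : Cm n}
    (hg : DifferentiableAt ℝ (fun y => (g y : ℂ)) z)
    (h0 : ∀ j, dz j (fun y => (g y : ℂ)) z = 0) : fderiv ℝ (fun y => (g y : ℂ)) z = 0 := by
  ext v
  rw [fderiv_eq]
  simp [h0, dzb_real hg, cj]

lemma dz_diffC {g : Cm n → ℝ} {z : Cm n} (hg : ContDiffAt ℝ ∞ g z) (h0 : cHess g z = 0)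
    (j : Fin n) : DifferentiableAt ℂ (dz j fun y => (g y : ℂ)) z := by
  have hG : ContDiffAt ℝ ∞ (fun y => (g y : ℂ)) z := ofReal_contDiffAt hg
  refine differentiableAt_of_dzb ?_ fun k => ?_
  · exact (contDiffAt_dz (m := ∞) (r := ∞) hG le_rfl).differentiableAt (by simp)
  · rw [← dz_dzb_comm (hG.of_le two_le), ← cHess_apply, h0]
    rfl

/-- Identity theorem on a ball for pluriharmonic functions. -/
lemma eq_const_on_ball {g : Cm n → ℝ} {c₀ : Cm n} {r : ℝ}
    (hg : ∀ z ∈ ball c₀ r, ContDiffAt ℝ ∞ g z ∧ cHess g z = 0) {z₁ : Cm n}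
    (hz₁ : z₁ ∈ ball c₀ r) {c : ℝ} (hc : ∀ᶠ z in 𝓝 z₁, g z = c) : ∀ z ∈ ball c₀ r, g z = c := by
  have hz : ∀ j, ∀ z ∈ ball c₀ r, dz j (fun y => (g y : ℂ)) z = 0 := by
    intro j z hz
    set q : ℂ → Cm n := fun t => z₁ + t • (z - z₁) with hq
    have hqc : Continuous q := by fun_prop
    set T : Set ℂ := q ⁻¹' ball c₀ r with hT
    have hTo : IsOpen T := isOpen_ball.preimage hqc
    have hTc : IsPreconnected T := by
      refine Convex.isPreconnected ?_
      intro a ha b hb s t hs ht hst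
      have h1 : q (s • a + t • b) = s • q a + t • q b := by
        simp only [hq]
        have : z₁ = s • z₁ + t • z₁ := by rw [← add_smul, hst, one_smul]
        nth_rewrite 1 [this]
        simp only [smul_add, add_smul, smul_assoc]
        abel
      show q (s • a + t • b) ∈ ball c₀ r
      rw [h1]
      exact (convex_ball c₀ r) ha hb hs ht hst
    have hd : DifferentiableOn ℂ (fun t => dz j (fun y => (g y : ℂ)) (q t)) T := by
      intro t ht
      have h1 := dz_diffC (hg (q t) ht).1 (hg (q t) ht).2 j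
      have h2 : DifferentiableAt ℂ q t := by
        simp only [hq]
        exact (differentiableAt_id.smul_const _).const_add _
      exact (h1.comp t h2).differentiableWithinAt
    have han := hd.analyticOnNhd hTo
    have h0 : (0 : ℂ) ∈ T := by
      show q 0 ∈ ball c₀ r
      simpa [hq] using hz₁
    have hev : (fun t => dz j (fun y => (g y : ℂ)) (q t)) =ᶠ[𝓝 0] 0 := by
      have h1 : ∀ᶠ y in 𝓝 z₁, dz j (fun y => (g y : ℂ)) y = 0 := by
        have h2 : (fun y => (g y : ℂ)) =ᶠ[𝓝 z₁] fun _ => (c : ℂ) := by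
          filter_upwards [hc] with y hy
          rw [hy]
        filter_upwards [dz_congr_ev (i := j) h2] with y hy
        rw [hy, dz_const]
      have h3 : Tendsto q (𝓝 0) (𝓝 z₁) := by
        have := hqc.tendsto 0
        simpa [hq] using this
      exact h3.eventually h1
    have h1 : (1 : ℂ) ∈ T := by
      show q 1 ∈ ball c₀ r
      simpa [hq] using hz
    have := han.eqOn_zero_of_preconnected_of_eventuallyEq_zero hTc h0 hev h1
    simpa [hq] using this
  have hG : ∀ z ∈ ball c₀ r, DifferentiableAt ℝ (fun y => (g y : ℂ)) z := fun z hz' =>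
    (ofReal_contDiffAt (hg z hz').1).differentiableAt (by simp)
  intro z hz'
  have h1 := isOpen_ball.is_const_of_fderiv_eq_zero (𝕜 := ℝ) (f := fun y => (g y : ℂ))
    (convex_ball c₀ r).isPreconnected (fun y hy => (hG y hy).differentiableWithinAt)
    (fun y hy => fderiv_zero_of_dz (hG y hy) fun j => hz j y hy) hz' hz₁
  have h2 : g z = g z₁ := Complex.ofReal_injective h1
  rw [h2]
  exact hc.self_of_nhds

section
variable {X : Type} [TopologicalSpace X] [ChartedSpace (Cm n) X] {E : Type} [TopologicalSpace E]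
  {p : E → X} {w : Chart n X → Cm n → Matrix (Fin n) (Fin n) ℂ} {u : E → ℝ} {B : ℝ}

lemma at_chartAt (x : X) : At (chartAt (Cm n) x) x :=
  ⟨chart_mem_atlas _ _, mem_chart_source _ _⟩

omit [ChartedSpace (Cm n) X] in
lemma map_nhds_chart (hp : IsCoveringMap p) {y : E} {e : Chart n X} (he : p y ∈ e.source) :
    map (fun y' => e (p y')) (𝓝 y) = 𝓝 (e (p y)) := by
  rw [← e.map_nhds_eq he, ← hp.isLocalHomeomorph.map_nhds_eq y, Filter.map_map]
  rfl

/-- Identity theorem on the covering space. -/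
theorem eq_const_of_eventually [ConnectedSpace E] (hp : IsCoveringMap p) (hu : IsPHB p w u B)
    {y₀ : E} {c : ℝ} (hc : ∀ᶠ y in 𝓝 y₀, u y = c) (y : E) : u y = c := by
  set S : Set E := {y | ∀ᶠ y' in 𝓝 y, u y' = c} with hS
  have hopen : IsOpen S := isOpen_setOfPred_eventually_nhds
  have hclosed : IsClosed S := by
    rw [← closure_subset_iff_isClosed]
    intro y hy
    rw [mem_closure_iff_nhds] at hy
    set e := chartAt (Cm n) (p y) with he
    have hAt : At e (p y) := at_chartAt _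
    obtain ⟨g, hug, hg, -⟩ := hu y e hAt
    obtain ⟨r, hr, hball⟩ := Metric.eventually_nhds_iff_ball.1 hg
    have hq : Tendsto (fun y' => e (p y')) (𝓝 y) (𝓝 (e (p y))) := (map_nhds_chart hp hAt.2).le
    have hN1 : ∀ᶠ y' in 𝓝 y, e (p y') ∈ ball (e (p y)) r :=
      hq.eventually (ball_mem_nhds _ hr)
    have hN2 : ∀ᶠ y' in 𝓝 y, p y' ∈ e.source :=
      hp.continuous.continuousAt.eventually (e.open_source.mem_nhds hAt.2)
    obtain ⟨y₁, ⟨h1, h2, h3⟩, h4⟩ := hy _ (hug.eventually_nhds.and (hN1.and hN2))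
    have h5 : ∀ᶠ z in 𝓝 (e (p y₁)), g z = c := by
      rw [← map_nhds_chart hp h3, eventually_map]
      have h4' : ∀ᶠ y' in 𝓝 y₁, u y' = c := h4
      filter_upwards [h1, h4'] with y' ha hb
      rw [← ha, hb]
    have h6 := eq_const_on_ball hball h2 h5
    show ∀ᶠ y' in 𝓝 y, u y' = c
    filter_upwards [hug, hN1] with y' ha hb
    rw [ha, h6 _ hb]
  have huniv := IsClopen.eq_univ ⟨hclosed, hopen⟩ ⟨y₀, hc⟩
  have h7 : y ∈ S := by rw [huniv]; trivial
  have h8 : ∀ᶠ y' in 𝓝 y, u y' = c := h7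
  exact h8.self_of_nhds

end

end Vale.Agent.P284.H5.V
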