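import Vale.Agent.P284.H913.Sheet
import Vale.Agent.P284.H5.S5N
import Vale.Agent.P284.H5.V16C
import Mathlib.LinearAlgebra.Vandermonde

/-!
# P284, block JET: functions which are pluriharmonic along a sheet, with gradient of polynomial growth,
form a finite-dimensional space modulo constants.

Proof: for `g` holomorphic along the sheet and a linear form `ℓ` which separates the points over one `w₁`,
the traces `Σ_{z over w} g(z) ℓ(z)^i`, multiplied by a power of `a0`, are polynomials of bounded degree, linear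
in `g`; if they all vanish then `g = 0` (Vandermonde).
-/

open scoped Manifold ContDiff Topology Pointwise ComplexConjugate ComplexOrder
open Filter Set Metric MeasureTheory

noncomputable section

namespace Vale.Agent.P284.H5.J

open Vale.Agent.P272.K Vale.Agent.P284.H5.V Vale.Agent.P284.H5.C2 Vale.Agent.P284.H913

variable {n m : ℕ}

/-- a linear form separating a finite set of points -/
lemma exists_sep {P : Set (Cm n)} (hP : P.Finite) :
    ∃ c : Cm n, ∀ z ∈ P, ∀ z' ∈ P, z ≠ z' → ∑ j, c j * z j ≠ ∑ j, c j * z' j := by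
  classical
  by_contra hcon
  push Not at hcon
  let I := {q : P × P // (q.1 : Cm n) ≠ q.2}
  have : Finite P := hP
  let V : I → Submodule ℂ (Cm n) := fun q =>
    { carrier := {c | ∑ j, c j * (q.1.1 : Cm n) j = ∑ j, c j * (q.1.2 : Cm n) j}
      zero_mem' := by simp
      add_mem' := fun {a b} ha hb => by
        have ha' : ∑ j, a j * (q.1.1 : Cm n) j = ∑ j, a j * (q.1.2 : Cm n) j := ha
        have hb' : ∑ j, b j * (q.1.1 : Cm n) j = ∑ j, b j * (q.1.2 : Cm n) j := hb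
        show ∑ j, (a + b) j * (q.1.1 : Cm n) j = ∑ j, (a + b) j * (q.1.2 : Cm n) j
        simp only [Pi.add_apply, add_mul, Finset.sum_add_distrib]
        rw [ha', hb']
      smul_mem' := fun t a ha => by
        have ha' : ∑ j, a j * (q.1.1 : Cm n) j = ∑ j, a j * (q.1.2 : Cm n) j := ha
        show ∑ j, (t • a) j * (q.1.1 : Cm n) j = ∑ j, (t • a) j * (q.1.2 : Cm n) j
        simp only [Pi.smul_apply, smul_eq_mul, mul_assoc]
        rw [← Finset.mul_sum, ← Finset.mul_sum, ha'] }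
  have hcov : ⋃ i, (V i : Set (Cm n)) = Set.univ := by
    rw [Set.eq_univ_iff_forall]
    intro c
    obtain ⟨z, hz, z', hz', hne, h⟩ := hcon c
    exact Set.mem_iUnion.2 ⟨⟨(⟨z, hz⟩, ⟨z', hz'⟩), hne⟩, h⟩
  obtain ⟨⟨⟨⟨z, hz⟩, ⟨z', hz'⟩⟩, hne⟩, hi⟩ := Subspace.exists_eq_top_of_iUnion_eq_univ hcov
  apply hne
  funext j
  have h1 : (Pi.single j 1 : Cm n) ∈ V ⟨(⟨z, hz⟩, ⟨z', hz'⟩), hne⟩ := by rw [hi]; trivial
  have h2 : ∑ i, (Pi.single j 1 : Cm n) i * z i = ∑ i, (Pi.single j 1 : Cm n) i * z' i := h1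
  rw [Finset.sum_eq_single j, Finset.sum_eq_single j] at h2
  · simpa using h2
  · intro b _ hb
    simp [hb]
  · simp
  · intro b _ hb
    simp [hb]
  · simp

variable (S : Sheet n m)

/-- the trace of a function on the sheet -/
def tr (g : Cm n → ℂ) (w : {w : Cm m // MvPolynomial.eval w S.a0 ≠ 0}) : ℂ :=
  ∑ z ∈ (S.fin w.1 w.2).1.toFinset, g z

/-- the trace, extended by `0` -/
def tr' (g : Cm n → ℂ) (w : Cm m) : ℂ := by
  classical
  exact if h : MvPolynomial.eval w S.a0 ≠ 0 then tr S g ⟨w, h⟩ else 0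

lemma tr'_eq (g : Cm n → ℂ) (w : Cm m) (h : MvPolynomial.eval w S.a0 ≠ 0) :
    tr' S g w = tr S g ⟨w, h⟩ := by
  rw [tr', dif_pos h]

lemma tr_near (g : Cm n → ℂ) (w₀ : Cm m) (h₀ : MvPolynomial.eval w₀ S.a0 ≠ 0) :
    ∀ᶠ w in 𝓝 w₀, tr' S g w = ∑ z ∈ (S.fin w₀ h₀).1.toFinset, g (S.σ z w) := by
  classical
  filter_upwards [S.fib_near w₀ h₀, (isOpen_ne_zero S.a0).mem_nhds h₀] with w hw hw0
  rw [tr'_eq S g w hw0, tr]
  have hcoe : S.fib w₀ = ((S.fin w₀ h₀).1.toFinset : Set (Cm n)) := by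
    rw [Set.Finite.coe_toFinset]; rfl
  have h1 : (S.fin w hw0).1.toFinset = (S.fin w₀ h₀).1.toFinset.image fun z => S.σ z w := by
    apply Finset.coe_injective
    rw [Finset.coe_image, ← hcoe, Set.Finite.coe_toFinset]
    exact hw.1
  have hinj : Set.InjOn (fun z => S.σ z w) ((S.fin w₀ h₀).1.toFinset : Set (Cm n)) := by
    rw [← hcoe]
    exact hw.2
  rw [h1]
  exact Finset.sum_image fun a ha b hb hab => hinj ha hb hab

lemma tr_diff (g : Cm n → ℂ) (hg : S.Hol g) (w₀ : Cm m) (h₀ : MvPolynomial.eval w₀ S.a0 ≠ 0) :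
    DifferentiableAt ℂ (tr' S g) w₀ := by
  refine DifferentiableAt.congr_of_eventuallyEq ?_ (tr_near S g w₀ h₀)
  refine DifferentiableAt.fun_sum fun z hz => ?_
  rw [Set.Finite.mem_toFinset] at hz
  have h := hg z hz.1
  have e : S.pr z = w₀ := hz.2
  rw [e] at h
  exact h.self_of_nhds

/-- The trace of a function of polynomial growth is a polynomial. -/
lemma tr_poly {g : Cm n → ℂ} (hg : S.Hol g) {k s : ℕ} {C : ℝ}
    (hC : ∀ z ∈ S.T, ‖g z‖ * ‖MvPolynomial.eval (S.pr z) S.a0‖ ^ k ≤ C * (1 + ‖S.pr z‖) ^ s) :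
    ∃ q : MvPolynomial (Fin m) ℂ, q.totalDegree ≤ s ∧ ∀ w, MvPolynomial.eval w S.a0 ≠ 0 →
      MvPolynomial.eval w S.a0 ^ k * tr' S g w = MvPolynomial.eval w q := by
  refine ext_poly S.a0_ne (C := S.deg * |C|) (fun w hw => ?_) (fun w hw => ?_)
  · exact (((differentiable_eval S.a0) w).pow _).mul (tr_diff S g hg w hw)
  · rw [tr'_eq S g w hw, norm_mul, norm_pow, mul_comm]
    have h1 : ‖tr S g ⟨w, hw⟩‖ ≤ ∑ z ∈ (S.fin w hw).1.toFinset, ‖g z‖ := norm_sum_le _ _
    calc ‖tr S g ⟨w, hw⟩‖ * ‖MvPolynomial.eval w S.a0‖ ^ k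
        ≤ (∑ z ∈ (S.fin w hw).1.toFinset, ‖g z‖) * ‖MvPolynomial.eval w S.a0‖ ^ k := by gcongr
      _ = ∑ z ∈ (S.fin w hw).1.toFinset, ‖g z‖ * ‖MvPolynomial.eval w S.a0‖ ^ k := by
          rw [Finset.sum_mul]
      _ ≤ ∑ _z ∈ (S.fin w hw).1.toFinset, |C| * (1 + ‖w‖) ^ s := by
          refine Finset.sum_le_sum fun z hz => ?_
          rw [Set.Finite.mem_toFinset] at hz
          have e : S.pr z = w := hz.2
          have h2 := hC z hz.1
          rw [e] at h2
          exact h2.trans (mul_le_mul_of_nonneg_right (le_abs_self C) (by positivity))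
      _ = ((S.fin w hw).1.toFinset.card : ℝ) * (|C| * (1 + ‖w‖) ^ s) := by
          rw [Finset.sum_const, nsmul_eq_mul]
      _ ≤ (S.deg : ℝ) * (|C| * (1 + ‖w‖) ^ s) := by
          refine mul_le_mul_of_nonneg_right ?_ (by positivity)
          have h3 := (S.fin w hw).2
          rw [Set.ncard_eq_toFinset_card _ (S.fin w hw).1] at h3
          exact_mod_cast h3
      _ = _ := by ring

/-- a polynomial of degree `≤ D` is in `PG` -/
lemma eval_mem_PG {q : MvPolynomial (Fin m) ℂ} {D : ℕ} (hq : q.totalDegree ≤ D) :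
    (fun w : Cm m => MvPolynomial.eval w q) ∈ PG m D := by
  have han : AnalyticOnNhd ℂ (fun w : Cm m => MvPolynomial.eval w q) univ :=
    AnalyticOnNhd.eval_mvPolynomial q
  obtain ⟨C, hC0, hC⟩ := eval_growth q
  refine ⟨⟨?_, fun z k => dzb_of_holo (differentiable_eval q z)⟩, C, fun z => (hC z).trans ?_⟩
  · rw [contDiff_iff_contDiffAt]
    intro z
    exact ((han z (mem_univ z)).contDiffAt (n := ∞)).restrict_scalars ℝ
  · refine mul_le_mul_of_nonneg_left (pow_le_pow_right₀ ?_ hq) hC0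
    linarith [norm_nonneg z]

/-- restriction of functions to `{a0 ≠ 0}` -/
def resL (a : MvPolynomial (Fin m) ℂ) :
    (Cm m → ℂ) →ₗ[ℝ] ({w : Cm m // MvPolynomial.eval w a ≠ 0} → ℂ) where
  toFun f w := f w
  map_add' _ _ := rfl
  map_smul' _ _ := rfl

/-- restrictions of polynomials -/
def PGr (a : MvPolynomial (Fin m) ℂ) (D : ℕ) :
    Submodule ℝ ({w : Cm m // MvPolynomial.eval w a ≠ 0} → ℂ) := (PG m D).map (resL a)

instance PGr.finite (a : MvPolynomial (Fin m) ℂ) (D : ℕ) : FiniteDimensional ℝ (PGr a D) := by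
  have := PG.finite m D
  unfold PGr
  infer_instance

/-- the linear form -/
def lf (c z : Cm n) : ℂ := ∑ j, c j * z j

lemma lf_bd (c : Cm n) {z : Cm n} (hz : z ∈ S.T) :
    ‖lf c z‖ * ‖MvPolynomial.eval (S.pr z) S.a0‖ ≤
      ((∑ j, ‖c j‖) * S.K) * (1 + ‖S.pr z‖) ^ S.s := by
  calc ‖lf c z‖ * ‖MvPolynomial.eval (S.pr z) S.a0‖
      ≤ (∑ j, ‖c j‖ * ‖z j‖) * ‖MvPolynomial.eval (S.pr z) S.a0‖ := by
        refine mul_le_mul_of_nonneg_right ?_ (norm_nonneg _)
        refine (norm_sum_le _ _).trans (Finset.sum_le_sum fun j _ => ?_)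
        rw [norm_mul]
    _ = ∑ j, ‖c j‖ * (‖z j‖ * ‖MvPolynomial.eval (S.pr z) S.a0‖) := by
        rw [Finset.sum_mul]
        exact Finset.sum_congr rfl fun j _ => by ring
    _ ≤ ∑ j, ‖c j‖ * (S.K * (1 + ‖S.pr z‖) ^ S.s) :=
        Finset.sum_le_sum fun j _ => mul_le_mul_of_nonneg_left (S.bd z hz j) (norm_nonneg _)
    _ = _ := by rw [← Finset.sum_mul]; ring

lemma hol_lf {g : Cm n → ℂ} (hg : S.Hol g) (c : Cm n) (i : ℕ) :
    S.Hol fun z => g z * lf c z ^ i := by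
  intro z hz
  filter_upwards [hg z hz, S.sec_ev z hz] with w h1 h2
  refine h1.mul (DifferentiableAt.pow ?_ i)
  unfold lf
  refine DifferentiableAt.fun_sum fun j _ => ?_
  exact ((differentiableAt_pi.1 h2.2.2) j).const_mul _

lemma bd_lf {g : Cm n → ℂ} {k s : ℕ} {C : ℝ}
    (hC : ∀ z ∈ S.T, ‖g z‖ * ‖MvPolynomial.eval (S.pr z) S.a0‖ ^ k ≤ C * (1 + ‖S.pr z‖) ^ s)
    (c : Cm n) (i : ℕ) : ∀ z ∈ S.T, ‖g z * lf c z ^ i‖ *
      ‖MvPolynomial.eval (S.pr z) S.a0‖ ^ (k + i) ≤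
        (|C| * ((∑ j, ‖c j‖) * S.K) ^ i) * (1 + ‖S.pr z‖) ^ (s + S.s * i) := by
  intro z hz
  have h1 := hC z hz
  have h2 := lf_bd S c hz
  have h3 : 0 ≤ (∑ j, ‖c j‖) * S.K :=
    mul_nonneg (Finset.sum_nonneg fun _ _ => norm_nonneg _) S.K_nn
  calc ‖g z * lf c z ^ i‖ * ‖MvPolynomial.eval (S.pr z) S.a0‖ ^ (k + i)
      = (‖g z‖ * ‖MvPolynomial.eval (S.pr z) S.a0‖ ^ k) *
        (‖lf c z‖ * ‖MvPolynomial.eval (S.pr z) S.a0‖) ^ i := by
        rw [norm_mul, norm_pow, pow_add, mul_pow]; ring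
    _ ≤ (|C| * (1 + ‖S.pr z‖) ^ s) * (((∑ j, ‖c j‖) * S.K) * (1 + ‖S.pr z‖) ^ S.s) ^ i := by
        refine mul_le_mul ?_ (pow_le_pow_left₀ (by positivity) h2 i) (by positivity)
          (by positivity)
        exact h1.trans (mul_le_mul_of_nonneg_right (le_abs_self C) (by positivity))
    _ = _ := by rw [mul_pow, ← pow_mul, pow_add]; ring

/-- the twisted trace is the restriction of a polynomial of bounded degree -/
lemma tw_mem {g : Cm n → ℂ} (hg : S.Hol g) {k s : ℕ} {C : ℝ}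
    (hC : ∀ z ∈ S.T, ‖g z‖ * ‖MvPolynomial.eval (S.pr z) S.a0‖ ^ k ≤ C * (1 + ‖S.pr z‖) ^ s)
    (c : Cm n) (i : ℕ) :
    (fun w : {w : Cm m // MvPolynomial.eval w S.a0 ≠ 0} =>
      MvPolynomial.eval (w : Cm m) S.a0 ^ (k + i) * tr S (fun z => g z * lf c z ^ i) w) ∈
      PGr S.a0 (s + S.s * i) := by
  obtain ⟨q, hq, hqe⟩ := tr_poly S (hol_lf S hg c i) (bd_lf S hC c i)
  refine ⟨_, eval_mem_PG hq, ?_⟩
  funext w
  show MvPolynomial.eval (w : Cm m) q = _
  rw [← hqe w.1 w.2, tr'_eq S _ w.1 w.2]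

/-- If all twisted traces vanish, so does the function. -/
lemma eq_zero_of_traces {g : Cm n → ℂ} (hg : S.Hol g) {z₀ : Cm n} (hz₀ : z₀ ∈ S.T) {k : ℕ}
    {c : Cm n} (hc : ∀ z ∈ S.fib (S.pr z₀), ∀ z' ∈ S.fib (S.pr z₀), z ≠ z' → lf c z ≠ lf c z')
    (h0 : ∀ i < (S.fin (S.pr z₀) (S.off z₀ hz₀)).1.toFinset.card,
      ∀ w : {w : Cm m // MvPolynomial.eval w S.a0 ≠ 0},
      MvPolynomial.eval (w : Cm m) S.a0 ^ (k + i) * tr S (fun z => g z * lf c z ^ i) w = 0) :
    ∀ z ∈ S.T, g z = 0 := by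
  classical
  set w₀ := S.pr z₀ with hw₀
  set h₀ := S.off z₀ hz₀
  set P := (S.fin w₀ h₀).1.toFinset with hP
  have hPmem : ∀ z, z ∈ P ↔ z ∈ S.fib w₀ := fun z => by
    rw [hP, Set.Finite.mem_toFinset]; rfl
  have hz₀P : z₀ ∈ P := (hPmem z₀).2 ⟨hz₀, rfl⟩
  -- the separation persists near `w₀`
  have hsep : ∀ᶠ w in 𝓝 w₀, ∀ z ∈ P, ∀ z' ∈ P, z ≠ z' → lf c (S.σ z w) ≠ lf c (S.σ z' w) := by
    rw [eventually_all_finset]
    intro z hz
    rw [eventually_all_finset]
    intro z' hz'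
    by_cases hzz : z = z'
    · exact Eventually.of_forall fun w h => absurd hzz h
    · have hzf := (hPmem z).1 hz
      have hzf' := (hPmem z').1 hz'
      have lfc : Continuous (lf c) := by unfold lf; fun_prop
      have c1 := (S.sec_ev z hzf.1).self_of_nhds.2.2.continuousAt
      have c2 := (S.sec_ev z' hzf'.1).self_of_nhds.2.2.continuousAt
      have e1 := S.sec z hzf.1
      have e2 := S.sec z' hzf'.1
      have p1 : S.pr z = w₀ := hzf.2
      have p2 : S.pr z' = w₀ := hzf'.2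
      rw [p1] at c1 e1
      rw [p2] at c2 e2
      have c3 : ContinuousAt (fun w => lf c (S.σ z w) - lf c (S.σ z' w)) w₀ :=
        (lfc.continuousAt.comp c1).sub (lfc.continuousAt.comp c2)
      have h5 : lf c (S.σ z w₀) - lf c (S.σ z' w₀) ≠ 0 := by
        rw [e1, e2]
        exact sub_ne_zero.2 (hc z hzf z' hzf' hzz)
      filter_upwards [c3.eventually_ne h5] with w hw _
      exact sub_ne_zero.1 hw
  have hnear : ∀ᶠ w in 𝓝 w₀, ∀ i : Fin P.card,
      ∑ z ∈ P, g (S.σ z w) * lf c (S.σ z w) ^ (i : ℕ) = 0 := by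
    rw [eventually_all]
    intro i
    filter_upwards [tr_near S (fun z => g z * lf c z ^ (i : ℕ)) w₀ h₀,
      (isOpen_ne_zero S.a0).mem_nhds h₀] with w h1 h2
    have h3 := h0 i i.2 ⟨w, h2⟩
    have h4 := (mul_eq_zero.1 h3).resolve_left (pow_ne_zero _ h2)
    rw [← tr'_eq S _ w h2, h1] at h4
    exact h4
  refine S.ident g hg z₀ hz₀ ?_
  show ∀ᶠ w in 𝓝 w₀, g (S.σ z₀ w) = 0
  filter_upwards [hsep, hnear] with w h1 h2
  let e : Fin P.card ≃ P := P.equivFin.symm
  have h3 : (fun r : Fin P.card => g (S.σ (e r) w)) = 0 := by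
    refine Matrix.eq_zero_of_forall_pow_sum_mul_pow_eq_zero
      (f := fun r : Fin P.card => lf c (S.σ (e r) w)) ?_ ?_
    · intro r r' hrr
      by_contra hne
      have : (e r : Cm n) ≠ (e r' : Cm n) := fun h => hne (e.injective (Subtype.ext h))
      exact h1 _ (e r).2 _ (e r').2 this hrr
    · intro i
      rw [← h2 i, ← Finset.sum_coe_sort P, ← e.sum_comp]
  have h4 := congrFun h3 (e.symm ⟨z₀, hz₀P⟩)
  simpa using h4

/-- `∂_j` of `U` along the sheet -/
def Gd (U : Cm n → ℝ) (j : Fin m) (z : Cm n) : ℂ :=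
  dz j (fun w => (U (S.σ z w) : ℂ)) (S.pr z)

/-- `U` is pluriharmonic along the sheet -/
def Ph (U : Cm n → ℝ) : Prop := ∀ z ∈ S.T, ∀ᶠ w in 𝓝 (S.pr z),
  ContDiffAt ℝ ∞ (fun w => U (S.σ z w)) w ∧ cHess (fun w => U (S.σ z w)) w = 0

lemma Ph.hol {U : Cm n → ℝ} (hU : Ph S U) (j : Fin m) : S.Hol (Gd S U j) := by
  intro z hz
  have h1 : ∀ᶠ w in 𝓝 (S.pr z), Gd S U j (S.σ z w) = dz j (fun w => (U (S.σ z w) : ℂ)) w := by
    filter_upwards [S.agree z hz] with w hw
    unfold Gd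
    rw [hw.2.1]
    refine dz_congr ?_
    filter_upwards [hw.2.2.2] with w' hw'
    rw [hw']
  filter_upwards [h1.eventually_nhds, hU z hz] with w h2 h3
  exact (dz_diffC h3.1 h3.2 j).congr_of_eventuallyEq h2

lemma norm_dz_le {U : Cm m → ℝ} {w : Cm m} (hU : DifferentiableAt ℝ U w) (j : Fin m) :
    ‖dz j (fun y => (U y : ℂ)) w‖ ≤ ‖fderiv ℝ U w‖ := by
  have h1 : ∀ v : Cm m, fderiv ℝ (fun y => (U y : ℂ)) w v = ((fderiv ℝ U w v : ℝ) : ℂ) := by
    intro v
    have h1 : HasFDerivAt (fun y => (U y : ℂ)) (Complex.ofRealCLM.comp (fderiv ℝ U w)) w :=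
      Complex.ofRealCLM.hasFDerivAt.comp w hU.hasFDerivAt
    rw [h1.fderiv]
    rfl
  have hs : ∀ t : ℂ, ‖t‖ ≤ 1 → ‖fderiv ℝ U w (Pi.single j t)‖ ≤ ‖fderiv ℝ U w‖ := by
    intro t ht
    refine (ContinuousLinearMap.le_opNorm _ _).trans ?_
    have : ‖(Pi.single j t : Cm m)‖ ≤ 1 := by
      rw [pi_norm_le_iff_of_nonneg zero_le_one]
      intro i
      by_cases hij : i = j
      · subst hij; simpa using ht
      · simp [hij]
    nlinarith [norm_nonneg (fderiv ℝ U w)]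
  unfold dz
  rw [h1, h1, norm_div]
  have h2 := hs 1 (by simp)
  have h3 := hs Complex.I (by simp)
  rw [show ‖(2 : ℂ)‖ = 2 by simp, div_le_iff₀ two_pos]
  refine (norm_sub_le _ _).trans ?_
  rw [norm_mul, Complex.norm_I, one_mul, Complex.norm_real, Complex.norm_real]
  linarith

lemma Gd_add {U U' : Cm n → ℝ} (hU : Ph S U) (hU' : Ph S U') (j : Fin m) {z : Cm n}
    (hz : z ∈ S.T) : Gd S (U + U') j z = Gd S U j z + Gd S U' j z := by
  unfold Gd
  rw [← dz_add ((ofReal_contDiffAt (hU z hz).self_of_nhds.1).differentiableAt (by simp))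
    ((ofReal_contDiffAt (hU' z hz).self_of_nhds.1).differentiableAt (by simp))]
  simp

lemma Gd_smul {U : Cm n → ℝ} (hU : Ph S U) (t : ℝ) (j : Fin m) {z : Cm n}
    (hz : z ∈ S.T) : Gd S (t • U) j z = t • Gd S U j z := by
  unfold Gd
  rw [← dz_smul_real t ((ofReal_contDiffAt (hU z hz).self_of_nhds.1).differentiableAt (by simp))]
  congr 1
  funext w
  simp

/-- **JET**: finite dimension. -/
theorem finite_dim {𝒱 : Type*} [AddCommGroup 𝒱] [Module ℝ 𝒱] (A : 𝒱 →ₗ[ℝ] (Cm n → ℝ))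
    (hph : ∀ u, Ph S (A u)) {k s : ℕ}
    (hb : ∀ u, ∃ C : ℝ, ∀ z ∈ S.T, ‖fderiv ℝ (fun w => A u (S.σ z w)) (S.pr z)‖ *
      ‖MvPolynomial.eval (S.pr z) S.a0‖ ^ k ≤ C * (1 + ‖S.pr z‖) ^ s)
    {z₀ : Cm n} (hz₀ : z₀ ∈ S.T)
    (hinj : ∀ u, (∀ z ∈ S.T, fderiv ℝ (fun w => A u (S.σ z w)) (S.pr z) = 0) → A u z₀ = 0 →
      u = 0) : FiniteDimensional ℝ 𝒱 := by
  classical
  obtain ⟨c, hc⟩ := exists_sep (S.fin (S.pr z₀) (S.off z₀ hz₀)).1
  have hbG : ∀ u j, ∃ C : ℝ, ∀ z ∈ S.T, ‖Gd S (A u) j z‖ *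
      ‖MvPolynomial.eval (S.pr z) S.a0‖ ^ k ≤ C * (1 + ‖S.pr z‖) ^ s := by
    intro u j
    obtain ⟨C, hC⟩ := hb u
    refine ⟨C, fun z hz => le_trans ?_ (hC z hz)⟩
    refine mul_le_mul_of_nonneg_right ?_ (by positivity)
    exact norm_dz_le (((hph u) z hz).self_of_nhds.1.differentiableAt (by simp)) j
  set κ := (S.fin (S.pr z₀) (S.off z₀ hz₀)).1.toFinset.card with hκ
  have hmem : ∀ u (j : Fin m) (i : Fin κ),
      (fun w : {w : Cm m // MvPolynomial.eval w S.a0 ≠ 0} =>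
        MvPolynomial.eval (w : Cm m) S.a0 ^ (k + (i : ℕ)) *
          tr S (fun z => Gd S (A u) j z * lf c z ^ (i : ℕ)) w) ∈ PGr S.a0 (s + S.s * i) := by
    intro u j i
    obtain ⟨C, hC⟩ := hbG u j
    exact tw_mem S (Ph.hol S (hph u) j) hC c i
  let L : 𝒱 →ₗ[ℝ] (∀ (_ : Fin m) (i : Fin κ), PGr S.a0 (s + S.s * i)) × ℝ :=
    { toFun := fun u => (fun j i => ⟨_, hmem u j i⟩, A u z₀)
      map_add' := by
        intro u v
        refine Prod.ext ?_ ?_
        · funext j i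
          refine Subtype.ext ?_
          funext w
          show MvPolynomial.eval (w : Cm m) S.a0 ^ (k + (i : ℕ)) *
              tr S (fun z => Gd S (A (u + v)) j z * lf c z ^ (i : ℕ)) w =
            MvPolynomial.eval (w : Cm m) S.a0 ^ (k + (i : ℕ)) *
              tr S (fun z => Gd S (A u) j z * lf c z ^ (i : ℕ)) w +
            MvPolynomial.eval (w : Cm m) S.a0 ^ (k + (i : ℕ)) *
              tr S (fun z => Gd S (A v) j z * lf c z ^ (i : ℕ)) w
          rw [← mul_add]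
          congr 1
          unfold tr
          rw [← Finset.sum_add_distrib]
          refine Finset.sum_congr rfl fun z hz => ?_
          rw [Set.Finite.mem_toFinset] at hz
          rw [map_add]
          show Gd S (A u + A v) j z * lf c z ^ (i : ℕ) = _
          rw [Gd_add S (hph u) (hph v) j hz.1]
          ring
        · show A (u + v) z₀ = A u z₀ + A v z₀
          rw [map_add]; rfl
      map_smul' := by
        intro t u
        refine Prod.ext ?_ ?_
        · funext j i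
          refine Subtype.ext ?_
          funext w
          show MvPolynomial.eval (w : Cm m) S.a0 ^ (k + (i : ℕ)) *
              tr S (fun z => Gd S (A (t • u)) j z * lf c z ^ (i : ℕ)) w =
            t • (MvPolynomial.eval (w : Cm m) S.a0 ^ (k + (i : ℕ)) *
              tr S (fun z => Gd S (A u) j z * lf c z ^ (i : ℕ)) w)
          rw [Complex.real_smul, ← mul_assoc, mul_comm (t : ℂ), mul_assoc]
          congr 1
          unfold tr
          rw [Finset.mul_sum]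
          refine Finset.sum_congr rfl fun z hz => ?_
          rw [Set.Finite.mem_toFinset] at hz
          rw [map_smul]
          show Gd S (t • A u) j z * lf c z ^ (i : ℕ) = _
          rw [Gd_smul S (hph u) t j hz.1, Complex.real_smul]
          ring
        · show A (t • u) z₀ = t • A u z₀
          rw [map_smul]; rfl }
  have hL : Function.Injective L := by
    rw [injective_iff_map_eq_zero]
    intro u hu
    have h1 : A u z₀ = 0 := congrArg Prod.snd hu
    have h2 : ∀ j, ∀ z ∈ S.T, Gd S (A u) j z = 0 := by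
      intro j
      refine eq_zero_of_traces S (Ph.hol S (hph u) j) hz₀ (k := k) (c := c)
        (fun z hz z' hz' hne => hc z hz z' hz' hne) fun i hi w => ?_
      have h3 := congrFun (congrFun (congrArg Prod.fst hu) j) ⟨i, hi⟩
      exact congrFun (congrArg Subtype.val h3) w
    refine hinj u (fun z hz => ?_) h1
    have hd : DifferentiableAt ℝ (fun w => A u (S.σ z w)) (S.pr z) :=
      ((hph u) z hz).self_of_nhds.1.differentiableAt (by simp)
    have h4 := fderiv_zero_of_dz (g := fun w => A u (S.σ z w))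
      (Complex.ofRealCLM.differentiableAt.comp (S.pr z) hd) (fun j => h2 j z hz)
    ext v
    have h5 : HasFDerivAt (fun w => (A u (S.σ z w) : ℂ))
        (Complex.ofRealCLM.comp (fderiv ℝ (fun w => A u (S.σ z w)) (S.pr z))) (S.pr z) :=
      Complex.ofRealCLM.hasFDerivAt.comp (S.pr z) hd.hasFDerivAt
    rw [h5.fderiv] at h4
    have h6 := congrArg (fun M => M v) h4
    simpa using h6
  exact FiniteDimensional.of_injective L hL

end Vale.Agent.P284.H5.J
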