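import Vale.Agent.P284.H5.FibZ
import Vale.Agent.P284.H5.V16
import Vale.Agent.P284.H5.Jet

/-!
# P284, theorem W: the space of pluriharmonic functions along the component of a regular fibre is
finite-dimensional, given the estimate on the sheet
-/

open scoped Manifold ContDiff Topology Pointwise ComplexConjugate ComplexOrder
open Filter Set Metric MeasureTheory

noncomputable section

namespace Vale.Agent.P284.H5.W

open Vale.Agent.P272.K Vale.Agent.P284.H894.V Vale.Agent.P284.H894.W Vale.Agent.P284.H5.V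
  Vale.Agent.P284.H913

section
variable {n : ℕ} {X : Type} [TopologicalSpace X] [ChartedSpace (Cm n) X]
  {E : Type} [TopologicalSpace E] {p : E → X}
  {w : Chart n X → Cm n → Matrix (Fin n) (Fin n) ℂ}

omit [TopologicalSpace E] in
theorem ext_add {V₁ : Set E} (a b : V₁ → ℝ) (y : E) : ext V₁ (a + b) y = ext V₁ a y + ext V₁ b y := by
  unfold ext
  split_ifs <;> simp

omit [TopologicalSpace E] in
theorem ext_smul {V₁ : Set E} (c : ℝ) (a : V₁ → ℝ) (y : E) : ext V₁ (c • a) y = c * ext V₁ a y := by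
  unfold ext
  split_ifs <;> simp

omit [TopologicalSpace E] in
theorem ext_zero {V₁ : Set E} (y : E) : ext V₁ (0 : V₁ → ℝ) y = 0 := by
  unfold ext
  split_ifs <;> simp

/-- the definition of `Along` with `ext` -/
theorem along_iff {V₁ : Set E} {u : V₁ → ℝ} {B : ℝ} : Along p w V₁ u B ↔
    ∀ (k : ℕ) (g : Cm k → E) (t : Cm k),
    (∀ᶠ s in 𝓝 t, g s ∈ V₁ ∧ HolTo (n := n) p g s) →
    (∀ᶠ s in 𝓝 t, ContDiffAt ℝ ∞ (fun s => ext V₁ u (g s)) s ∧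
      cHess (fun s => ext V₁ u (g s)) s = 0) ∧
    ∀ e : Chart n X, At e (p (g t)) → ∀ v : Cm k,
      fderiv ℝ (fun s => ext V₁ u (g s)) t v ^ 2 ≤
        B * (∑ i, ∑ j, w e (e (p (g t))) i j * fderiv ℂ (fun s => e (p (g s))) t v i *
          conj (fderiv ℂ (fun s => e (p (g s))) t v j)).re := Iff.rfl

/-- The space of pluriharmonic functions with bounded gradient along `V₁`. -/
def phal (p : E → X) (w : Chart n X → Cm n → Matrix (Fin n) (Fin n) ℂ) (V₁ : Set E) :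
    Submodule ℝ (V₁ → ℝ) where
  carrier := {u | ∃ B, Along p w V₁ u B}
  zero_mem' := by
    refine ⟨0, along_iff.2 fun k g t _ => ?_⟩
    simp only [ext_zero]
    refine ⟨Eventually.of_forall fun z => ⟨contDiffAt_const, cHess_zero z⟩, fun e _ v => ?_⟩
    have h : fderiv ℝ (fun _ : Cm k => (0 : ℝ)) t = 0 := fderiv_const_apply _
    rw [h]
    simp
  add_mem' := by
    rintro a b ⟨A, ha⟩ ⟨B, hb⟩
    refine ⟨2 * A + 2 * B, along_iff.2 fun k g t hg => ?_⟩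
    obtain ⟨h1, h2⟩ := along_iff.1 ha k g t hg
    obtain ⟨h3, h4⟩ := along_iff.1 hb k g t hg
    simp only [ext_add]
    refine ⟨?_, fun e he v => ?_⟩
    · filter_upwards [h1, h3] with z h1 h2
      refine ⟨h1.1.add h2.1, ?_⟩
      rw [cHess_add (h1.1.of_le two_le) (h2.1.of_le two_le), h1.2, h2.2, add_zero]
    · rw [fderiv_fun_add (h1.self_of_nhds.1.differentiableAt (by simp))
        (h3.self_of_nhds.1.differentiableAt (by simp))]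
      have h1 := h2 e he v
      have h2 := h4 e he v
      rw [add_apply]
      nlinarith [sq_nonneg (fderiv ℝ (fun s => ext V₁ a (g s)) t v -
        fderiv ℝ (fun s => ext V₁ b (g s)) t v)]
  smul_mem' := by
    rintro c a ⟨A, ha⟩
    refine ⟨c ^ 2 * A, along_iff.2 fun k g t hg => ?_⟩
    obtain ⟨h1, h2⟩ := along_iff.1 ha k g t hg
    simp only [ext_smul]
    refine ⟨?_, fun e he v => ?_⟩
    · filter_upwards [h1] with z h1
      refine ⟨contDiffAt_const.mul h1.1, ?_⟩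
      rw [cHess_const_mul c (h1.1.of_le two_le), h1.2, smul_zero]
    · rw [fderiv_const_mul (h1.self_of_nhds.1.differentiableAt (by simp))]
      have h1 := mul_le_mul_of_nonneg_left (h2 e he v) (sq_nonneg c)
      rw [smul_apply, smul_eq_mul, mul_pow]
      linarith

/-- the sheet is mapped into the component -/
theorem sheet_sub {N m : ℕ} {F : E → Cm N} {Φl : Cm n → E} (hΦl : Continuous Φl)
    {P : Fin N → MvPolynomial (Fin n) ℂ} (hP : ∀ ζ i, F (Φl ζ) i = MvPolynomial.eval ζ (P i))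
    (S : Sheet n m) {ζ₁ : Cm n} (h1 : ζ₁ ∈ S.T)
    (hS : ∀ z ∈ S.T, ∀ i, MvPolynomial.eval z (P i) = MvPolynomial.eval ζ₁ (P i)) :
    ∀ z ∈ S.T, Φl z ∈ connectedComponentIn (F ⁻¹' {F (Φl ζ₁)}) (Φl ζ₁) := by
  intro z hz
  have h2 : IsPreconnected (Φl '' S.T) := S.conn.image Φl hΦl.continuousOn
  refine h2.subset_connectedComponentIn ⟨ζ₁, h1, rfl⟩ ?_ ⟨z, hz, rfl⟩
  rintro _ ⟨y, hy, rfl⟩
  show F (Φl y) = F (Φl ζ₁)
  funext i
  rw [hP, hP, hS y hy]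

variable [IsManifold 𝓘(ℂ, Cm n) ω X] {Φ : Cm n → X}

/-- the sections of the sheet give holomorphic maps to `E` -/
theorem sheet_holTo {m : ℕ} (hΦ : ContMDiff 𝓘(ℂ, Cm n) 𝓘(ℂ, Cm n) ω Φ) {Φl : Cm n → E}
    (hΦl : Continuous Φl) (hpΦ : ∀ ζ, p (Φl ζ) = Φ ζ) (S : Sheet n m) {V₁ : Set E}
    (hV : ∀ z ∈ S.T, Φl z ∈ V₁) {z : Cm n} (hz : z ∈ S.T) :
    ∀ᶠ w in 𝓝 (S.pr z), Φl (S.σ z w) ∈ V₁ ∧ HolTo (n := n) p (fun w => Φl (S.σ z w)) w := by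
  filter_upwards [S.sec_ev z hz] with w hw
  refine ⟨hV _ hw.1, ?_, fun e he => ?_⟩
  · exact ContinuousAt.comp (g := Φl) hΦl.continuousAt hw.2.2.continuousAt
  · have he' : At e (Φ (S.σ z w)) := by rw [← hpΦ]; exact he
    simp only [hpΦ]
    exact DifferentiableAt.comp (g := fun ξ => e (Φ ξ)) w
      ((tau_smooth hΦ he').differentiableAt (by simp)) hw.2.2

omit [IsManifold 𝓘(ℂ, Cm n) ω X] in
theorem mfderiv_inj (hΦ : ContMDiff 𝓘(ℂ, Cm n) 𝓘(ℂ, Cm n) ω Φ) {ζ : Cm n}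
    (hinj : Function.Injective (mfderiv 𝓘(ℂ, Cm n) 𝓘(ℂ, Cm n) Φ ζ)) :
    Function.Injective (fderiv ℂ (fun ξ => chartAt (Cm n) (Φ ζ) (Φ ξ)) ζ) := by
  have hmd : MDifferentiableAt 𝓘(ℂ, Cm n) 𝓘(ℂ, Cm n) Φ ζ := hΦ.contMDiffAt.mdifferentiableAt (by simp)
  have h1 : mfderiv 𝓘(ℂ, Cm n) 𝓘(ℂ, Cm n) Φ ζ = fderiv ℂ (fun ξ => chartAt (Cm n) (Φ ζ) (Φ ξ)) ζ := by
    rw [hmd.mfderiv]
    simp only [writtenInExtChartAt, mfld_simps, fderivWithin_univ]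
    rfl
  rwa [h1] at hinj

/-- `u ↦ u ∘ Φ~`, as a function on `ℂⁿ` (meaningful on the sheet) -/
def alA (p : E → X) (w : Chart n X → Cm n → Matrix (Fin n) (Fin n) ℂ) (V₁ : Set E)
    (Φl : Cm n → E) : phal p w V₁ →ₗ[ℝ] (Cm n → ℝ) where
  toFun := fun u z => ext V₁ (u : V₁ → ℝ) (Φl z)
  map_add' := fun a b => by funext z; exact ext_add _ _ _
  map_smul' := fun c a => by funext z; exact ext_smul _ _ _

theorem alA_ph {m : ℕ} (hΦ : ContMDiff 𝓘(ℂ, Cm n) 𝓘(ℂ, Cm n) ω Φ) {Φl : Cm n → E}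
    (hΦl : Continuous Φl) (hpΦ : ∀ ζ, p (Φl ζ) = Φ ζ) (S : Sheet n m) {V₁ : Set E}
    (hVT : ∀ z ∈ S.T, Φl z ∈ V₁) (u : phal p w V₁) : J.Ph S (alA p w V₁ Φl u) := by
  intro z hz
  obtain ⟨B', hB'⟩ := u.2
  exact (along_iff.1 hB' m (fun w => Φl (S.σ z w)) (S.pr z)
    (sheet_holTo hΦ hΦl hpΦ S hVT hz)).1

/-- if `u ∘ Φ~` has derivative zero along the sheet and vanishes at one point, `u = 0` on the whole
component of the fibre -/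
theorem alA_inj (hΦ : ContMDiff 𝓘(ℂ, Cm n) 𝓘(ℂ, Cm n) ω Φ) (hp : IsCoveringMap p) {N m : ℕ}
    (hNm : N + m = n) {F : E → Cm N} {B : ℝ} (hB : HolB p w F B) {Φl : Cm n → E}
    (hΦl : Continuous Φl) (hpΦ : ∀ ζ, p (Φl ζ) = Φ ζ) {P : Fin N → MvPolynomial (Fin n) ℂ}
    (hP : ∀ ζ i, F (Φl ζ) i = MvPolynomial.eval ζ (P i)) {ζ₁ : Cm n}
    (hinj : Function.Injective (mfderiv 𝓘(ℂ, Cm n) 𝓘(ℂ, Cm n) Φ ζ₁))
    (hreg : ∀ y, F y = F (Φl ζ₁) → Reg (n := n) p F y)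
    (S : Sheet n m) (h1 : ζ₁ ∈ S.T) (hpr : DifferentiableAt ℂ S.pr ζ₁)
    (hS : ∀ z ∈ S.T, ∀ i, MvPolynomial.eval z (P i) = MvPolynomial.eval ζ₁ (P i))
    {V₁ : Set E} (hV : V₁ = connectedComponentIn (F ⁻¹' {F (Φl ζ₁)}) (Φl ζ₁))
    (u : phal p w V₁)
    (hu0 : ∀ z ∈ S.T, fderiv ℝ (fun x => alA p w V₁ Φl u (S.σ z x)) (S.pr z) = 0)
    (hu1 : alA p w V₁ Φl u ζ₁ = 0) : u = 0 := by
  have hVT : ∀ z ∈ S.T, Φl z ∈ V₁ := by rw [hV]; exact sheet_sub hΦl hP S h1 hS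
  have hVsub : V₁ ⊆ F ⁻¹' {F (Φl ζ₁)} := by rw [hV]; exact connectedComponentIn_subset _ _
  set A := alA p w V₁ Φl with hAdef
  have hal := fun u => alA_ph (w := w) hΦ hΦl hpΦ S hVT u
  obtain ⟨B', hB'⟩ := u.2
  -- `u` vanishes along the section through `ζ₁`
  have hz : ∀ᶠ x in 𝓝 (S.pr ζ₁), ext V₁ (u : V₁ → ℝ) (Φl (S.σ ζ₁ x)) = 0 := by
    have h2 : ∀ᶠ x in 𝓝 (S.pr ζ₁), DifferentiableAt ℝ (fun w => A u (S.σ ζ₁ w)) x ∧
        fderiv ℝ (fun w => A u (S.σ ζ₁ w)) x = 0 := by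
      filter_upwards [S.agree ζ₁ h1, hal u ζ₁ h1] with x hx hx2
      refine ⟨hx2.1.differentiableAt (by simp), ?_⟩
      have h3 : (fun w => A u (S.σ (S.σ ζ₁ x) w)) =ᶠ[𝓝 x] fun w => A u (S.σ ζ₁ w) :=
        hx.2.2.2.mono fun w hw => congrArg (A u) hw
      rw [← h3.fderiv_eq]
      have h4 := hu0 _ hx.1
      rwa [hx.2.1] at h4
    obtain ⟨r, hr, hball⟩ := Metric.eventually_nhds_iff_ball.1 h2
    filter_upwards [ball_mem_nhds _ hr] with x hx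
    have h5 := isOpen_ball.is_const_of_fderiv_eq_zero (𝕜 := ℝ)
      (convex_ball (S.pr ζ₁) r).isPreconnected
      (fun x hx => (hball x hx).1.differentiableWithinAt) (fun x hx => (hball x hx).2) hx
      (mem_ball_self hr)
    have h6 : A u (S.σ ζ₁ x) = A u (S.σ ζ₁ (S.pr ζ₁)) := h5
    rw [S.sec ζ₁ h1, hu1] at h6
    exact h6
  set e := chartAt (Cm n) (Φ ζ₁) with he
  have hAt : At e (p (Φl ζ₁)) := by rw [hpΦ]; exact at_chartAt _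
  have hAt' : At e (Φ ζ₁) := at_chartAt _
  have hy₁ : Φl ζ₁ ∈ connectedComponentIn (F ⁻¹' {F (Φl ζ₁)}) (Φl ζ₁) := by
    rw [← hV]; exact hVT _ h1
  obtain ⟨f, L, g, r, hr, hf1, hf2, hL, h2, h3, h4⟩ :=
    comp_param hNm hp hB hy₁ (hreg _ rfl) hAt
  rw [← hV] at h3 h4
  have hpe : p (Φl ζ₁) = Φ ζ₁ := hpΦ ζ₁
  rw [hpe] at hf2 hL h2 h3
  set τ : Cm n → Cm n := fun ξ => e (Φ ξ) with hτ
  have hτs : ContDiffAt ℂ ω τ ζ₁ := tau_smooth hΦ hAt'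
  have hτd : DifferentiableAt ℂ τ ζ₁ := hτs.differentiableAt (by simp)
  have hs : S.σ ζ₁ (S.pr ζ₁) = ζ₁ := S.sec ζ₁ h1
  have hσd : ∀ᶠ x in 𝓝 (S.pr ζ₁), DifferentiableAt ℂ (S.σ ζ₁) x :=
    (S.sec_ev ζ₁ h1).mono fun x hx => hx.2.2
  have hσs : ContDiffAt ℂ ω (S.σ ζ₁) (S.pr ζ₁) := holo_contDiffAt' hσd
  have hσ1 : HasFDerivAt (S.σ ζ₁) (fderiv ℂ (S.σ ζ₁) (S.pr ζ₁)) (S.pr ζ₁) :=
    hσd.self_of_nhds.hasFDerivAt
  have hσt : Tendsto (S.σ ζ₁) (𝓝 (S.pr ζ₁)) (𝓝 ζ₁) := by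
    have := hσs.continuousAt.tendsto
    rwa [hs] at this
  -- the derivative of `σ` is injective
  have hσi : ∀ v, fderiv ℂ (S.σ ζ₁) (S.pr ζ₁) v = 0 → v = 0 := by
    intro v hv
    have h5 : HasFDerivAt (fun x => S.pr (S.σ ζ₁ x))
        ((fderiv ℂ S.pr ζ₁).comp (fderiv ℂ (S.σ ζ₁) (S.pr ζ₁))) (S.pr ζ₁) := by
      refine HasFDerivAt.comp (g := S.pr) (S.pr ζ₁) ?_ hσ1
      rw [hs]
      exact hpr.hasFDerivAt
    have h6 : HasFDerivAt (fun x => S.pr (S.σ ζ₁ x)) (ContinuousLinearMap.id ℂ (Cm m))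
        (S.pr ζ₁) := by
      refine (hasFDerivAt_id (𝕜 := ℂ) (S.pr ζ₁)).congr_of_eventuallyEq ?_
      filter_upwards [S.sec_ev ζ₁ h1] with x hx
      exact hx.2.1
    have h7 := congrArg (fun M : Cm m →L[ℂ] Cm m => M v) (h5.unique h6)
    simp only [ContinuousLinearMap.comp_apply, hv, map_zero, ContinuousLinearMap.id_apply] at h7
    exact h7.symm
  -- the coordinate change `κ`
  set κ : Cm m → Cm m := fun x => L (τ (S.σ ζ₁ x)) with hκ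
  have hκ1 : HasFDerivAt κ (L.comp ((fderiv ℂ τ ζ₁).comp (fderiv ℂ (S.σ ζ₁) (S.pr ζ₁))))
      (S.pr ζ₁) := by
    refine L.hasFDerivAt.comp (S.pr ζ₁) ?_
    refine HasFDerivAt.comp (g := τ) (S.pr ζ₁) ?_ hσ1
    rw [hs]
    exact hτd.hasFDerivAt
  have hκs : ContDiffAt ℂ ω κ (S.pr ζ₁) := by
    refine L.contDiff.contDiffAt.comp (S.pr ζ₁) ?_
    refine ContDiffAt.comp (g := τ) (S.pr ζ₁) ?_ hσs
    rw [hs]
    exact hτs
  have hfc : f (τ ζ₁) = F (Φl ζ₁) := by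
    have := hf1.self_of_nhds
    rw [hpΦ] at this
    exact this.symm
  have hκi : Function.Injective (L.comp ((fderiv ℂ τ ζ₁).comp (fderiv ℂ (S.σ ζ₁) (S.pr ζ₁)))) := by
    rw [injective_iff_map_eq_zero]
    intro v hv
    have h5 : HasFDerivAt (fun x => f (τ (S.σ ζ₁ x)))
        ((fderiv ℂ f (τ ζ₁)).comp ((fderiv ℂ τ ζ₁).comp (fderiv ℂ (S.σ ζ₁) (S.pr ζ₁))))
        (S.pr ζ₁) := by
      have h6 : HasFDerivAt (fun x => τ (S.σ ζ₁ x))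
          ((fderiv ℂ τ ζ₁).comp (fderiv ℂ (S.σ ζ₁) (S.pr ζ₁))) (S.pr ζ₁) := by
        refine HasFDerivAt.comp (g := τ) (S.pr ζ₁) ?_ hσ1
        rw [hs]
        exact hτd.hasFDerivAt
      refine HasFDerivAt.comp (g := f) (S.pr ζ₁) ?_ h6
      rw [hs]
      exact hf2.self_of_nhds.hasFDerivAt
    have h6 : HasFDerivAt (fun x => f (τ (S.σ ζ₁ x))) (0 : Cm m →L[ℂ] Cm N) (S.pr ζ₁) := by
      refine (hasFDerivAt_const (𝕜 := ℂ) (F (Φl ζ₁)) (S.pr ζ₁)).congr_of_eventuallyEq ?_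
      have h7 : Tendsto (fun x => Φl (S.σ ζ₁ x)) (𝓝 (S.pr ζ₁)) (𝓝 (Φl ζ₁)) :=
        (hΦl.continuousAt.tendsto (x := ζ₁)).comp hσt
      filter_upwards [S.sec_ev ζ₁ h1, h7.eventually hf1] with x hx hx2
      rw [hpΦ] at hx2
      show f (e (Φ (S.σ ζ₁ x))) = F (Φl ζ₁)
      rw [← hx2]
      exact hVsub (hVT _ hx.1)
    have h7 := congrArg (fun M : Cm m →L[ℂ] Cm N => M v) (h5.unique h6)
    simp only [ContinuousLinearMap.comp_apply, zero_apply] at h7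
    have h8 := hL _ h7 hv
    have h9 : fderiv ℂ (S.σ ζ₁) (S.pr ζ₁) v = 0 := by
      refine (injective_iff_map_eq_zero (fderiv ℂ τ ζ₁)).1 (mfderiv_inj hΦ hinj) _ h8
    exact hσi v h9
  have hκm : map κ (𝓝 (S.pr ζ₁)) = 𝓝 (L (τ ζ₁)) := by
    have h5 : HasStrictFDerivAt κ (L.comp ((fderiv ℂ τ ζ₁).comp (fderiv ℂ (S.σ ζ₁) (S.pr ζ₁))))
        (S.pr ζ₁) := by
      have := hκs.hasStrictFDerivAt (by simp)
      rwa [hκ1.fderiv] at this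
    have h6 : Function.Surjective (L.comp ((fderiv ℂ τ ζ₁).comp (fderiv ℂ (S.σ ζ₁) (S.pr ζ₁)))) :=
      LinearMap.injective_iff_surjective (f := ((L.comp ((fderiv ℂ τ ζ₁).comp
        (fderiv ℂ (S.σ ζ₁) (S.pr ζ₁))) : Cm m →L[ℂ] Cm m) : Cm m →ₗ[ℂ] Cm m)).1 hκi
    have h7 := h5.map_nhds_eq_of_surj (LinearMap.range_eq_top.2 h6)
    rw [h7]
    show 𝓝 (L (τ (S.σ ζ₁ (S.pr ζ₁)))) = _
    rw [hs]
  -- `u ∘ g` vanishes near the centre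
  have hug : ∀ᶠ c in 𝓝 (L (τ ζ₁)), ext V₁ (u : V₁ → ℝ) (g c) = 0 := by
    rw [← hκm, eventually_map]
    have h7 : Tendsto (fun x => Φl (S.σ ζ₁ x)) (𝓝 (S.pr ζ₁)) (𝓝 (Φl ζ₁)) :=
      (hΦl.continuousAt.tendsto (x := ζ₁)).comp hσt
    filter_upwards [hz, S.sec_ev ζ₁ h1, h7.eventually h4] with x hx1 hx2 hx3
    have h8 := hx3 (hVT _ hx2.1)
    rw [hpΦ] at h8
    show ext V₁ (u : V₁ → ℝ) (g (L (e (Φ (S.σ ζ₁ x))))) = 0
    rw [h8]
    exact hx1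
  have hfin : (u : V₁ → ℝ) = 0 := by
    refine along_zero hNm hp hB hreg hV hB' (y₂ := ⟨Φl ζ₁, hVT _ h1⟩) ?_
    rw [nhds_subtype_eq_comap, eventually_comap]
    have h7 : Tendsto (fun y => L (e (p y))) (𝓝 (Φl ζ₁)) (𝓝 (L (τ ζ₁))) := by
      have h8 : Tendsto (fun y => e (p y)) (𝓝 (Φl ζ₁)) (𝓝 (e (p (Φl ζ₁)))) :=
        (e.continuousAt hAt.2).tendsto.comp hp.continuous.continuousAt
      rw [hpe] at h8
      exact (L.continuous.tendsto _).comp h8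
    filter_upwards [h7.eventually hug, h4] with y h9 h10 y' hy'
    subst hy'
    rw [h10 y'.2, ext_of_mem y'.2] at h9
    exact h9
  exact Subtype.ext hfin

/-- the core: finite dimension from the estimate -/
theorem fd_core (hΦ : ContMDiff 𝓘(ℂ, Cm n) 𝓘(ℂ, Cm n) ω Φ) (hp : IsCoveringMap p) {N m : ℕ}
    (hNm : N + m = n) {F : E → Cm N} {B : ℝ} (hB : HolB p w F B) {Φl : Cm n → E}
    (hΦl : Continuous Φl) (hpΦ : ∀ ζ, p (Φl ζ) = Φ ζ) {P : Fin N → MvPolynomial (Fin n) ℂ}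
    (hP : ∀ ζ i, F (Φl ζ) i = MvPolynomial.eval ζ (P i)) {ζ₁ : Cm n}
    (hinj : Function.Injective (mfderiv 𝓘(ℂ, Cm n) 𝓘(ℂ, Cm n) Φ ζ₁))
    (hreg : ∀ y, F y = F (Φl ζ₁) → Reg (n := n) p F y)
    (S : Sheet n m) (h1 : ζ₁ ∈ S.T) (hpr : DifferentiableAt ℂ S.pr ζ₁)
    (hS : ∀ z ∈ S.T, ∀ i, MvPolynomial.eval z (P i) = MvPolynomial.eval ζ₁ (P i))
    {V₁ : Set E} (hV : V₁ = connectedComponentIn (F ⁻¹' {F (Φl ζ₁)}) (Φl ζ₁)) {k s : ℕ}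
    (est : ∀ u : V₁ → ℝ, (∃ B, Along p w V₁ u B) → ∃ C : ℝ, ∀ z ∈ S.T,
      ‖fderiv ℝ (fun x => ext V₁ u (Φl (S.σ z x))) (S.pr z)‖ *
        ‖MvPolynomial.eval (S.pr z) S.a0‖ ^ k ≤ C * (1 + ‖S.pr z‖) ^ s) :
    ∃ V : Submodule ℝ (V₁ → ℝ), FiniteDimensional ℝ V ∧ ∀ u, (∃ B, Along p w V₁ u B) → u ∈ V := by
  have hVT : ∀ z ∈ S.T, Φl z ∈ V₁ := by rw [hV]; exact sheet_sub hΦl hP S h1 hS
  refine ⟨phal p w V₁, ?_, fun u hu => hu⟩
  exact J.finite_dim S (alA p w V₁ Φl) (fun u => alA_ph hΦ hΦl hpΦ S hVT u) (k := k) (s := s)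
    (fun u => est u u.2) h1
    fun u => alA_inj hΦ hp hNm hB hΦl hpΦ hP hinj hreg S h1 hpr hS hV u

end

end Vale.Agent.P284.H5.W
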