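import Vale.Agent.P284.H5.V16D
import Vale.Agent.P284.H894.W.Spec2
import Vale.Agent.P284.H731.S2
import Mathlib.Analysis.Calculus.InverseFunctionTheorem.ContDiff

/-!
# P284, theorem W: local parametrisation of a regular fibre, identity theorem along a fibre
-/

open scoped Manifold ContDiff Topology Pointwise ComplexConjugate ComplexOrder
open Filter Set Metric MeasureTheory

noncomputable section

namespace Vale.Agent.P284.H5.W

open Vale.Agent.P272.K Vale.Agent.P284.H894.V Vale.Agent.P284.H894.W Vale.Agent.P284.H5.V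

/-- a complement of the kernel of a surjective linear map, in coordinates -/
theorem exists_compl {n N m : ℕ} (hNm : N + m = n) (A : Cm n →L[ℂ] Cm N)
    (hA : Function.Surjective A) :
    ∃ (L : Cm n →L[ℂ] Cm m) (T : Cm n ≃L[ℂ] Cm N × Cm m), ∀ v, T v = (A v, L v) := by
  have h1 : Module.finrank ℂ (LinearMap.ker (A : Cm n →ₗ[ℂ] Cm N)) = m := by
    have h2 := LinearMap.finrank_range_add_finrank_ker (A : Cm n →ₗ[ℂ] Cm N)
    have h3 : LinearMap.range (A : Cm n →ₗ[ℂ] Cm N) = ⊤ := LinearMap.range_eq_top.2 hA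
    rw [h3, finrank_top] at h2
    simp only [Module.finrank_fin_fun] at h2
    omega
  have e : LinearMap.ker (A : Cm n →ₗ[ℂ] Cm N) ≃ₗ[ℂ] Cm m :=
    LinearEquiv.ofFinrankEq _ _ (by rw [h1]; simp)
  obtain ⟨L, hL⟩ := LinearMap.exists_extend (e : LinearMap.ker (A : Cm n →ₗ[ℂ] Cm N) →ₗ[ℂ] Cm m)
  have hinj : Function.Injective ((A : Cm n →ₗ[ℂ] Cm N).prod L) := by
    rw [injective_iff_map_eq_zero]
    intro v hv
    have h4 : A v = 0 := congrArg Prod.fst hv
    have h5 : L v = 0 := congrArg Prod.snd hv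
    have h6 : v ∈ LinearMap.ker (A : Cm n →ₗ[ℂ] Cm N) := h4
    have h7 : e ⟨v, h6⟩ = 0 := by
      have := LinearMap.congr_fun hL ⟨v, h6⟩
      simp only [LinearMap.comp_apply, Submodule.subtype_apply, LinearEquiv.coe_coe] at this
      rw [← this]; exact h5
    have h8 := (LinearEquiv.map_eq_zero_iff e).1 h7
    exact congrArg Subtype.val h8
  have hd : Module.finrank ℂ (Cm n) = Module.finrank ℂ (Cm N × Cm m) := by
    simp [hNm]
  refine ⟨L.toContinuousLinearMap,
    (LinearEquiv.ofInjectiveOfFinrankEq ((A : Cm n →ₗ[ℂ] Cm N).prod L) hinj hd).toContinuousLinearEquiv,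
    fun v => ?_⟩
  rfl

section
variable {n : ℕ} {X : Type} [TopologicalSpace X] [ChartedSpace (Cm n) X] [IsManifold 𝓘(ℂ, Cm n) ω X]
  {E : Type} [TopologicalSpace E] {p : E → X}

/-- a holomorphic map is smooth -/
theorem holo_contDiffAt' {N : ℕ} {f : Cm n → Cm N} {z : Cm n}
    (hf : ∀ᶠ y in 𝓝 z, DifferentiableAt ℂ f y) : ContDiffAt ℂ ω f z :=
  contDiffAt_pi.2 fun i => H731.S2.holo_contDiffAt (hf.mono fun _ hy => (differentiableAt_pi.1 hy) i)

/-- local parametrisation of a regular fibre -/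
theorem fib_param {N m : ℕ} (hNm : N + m = n) (hp : IsCoveringMap p) {F : E → Cm N} {y : E}
    {e : Chart n X} (he : At e (p y)) {f : Cm n → Cm N} (hF : ∀ᶠ y' in 𝓝 y, F y' = f (e (p y')))
    (hf : ∀ᶠ z in 𝓝 (e (p y)), DifferentiableAt ℂ f z)
    (hs : Function.Surjective (fderiv ℂ f (e (p y)))) :
    ∃ (L : Cm n →L[ℂ] Cm m) (g : Cm m → E) (r : ℝ), 0 < r ∧
      (∀ v, fderiv ℂ f (e (p y)) v = 0 → L v = 0 → v = 0) ∧
      g (L (e (p y))) = y ∧
      (∀ v ∈ ball (L (e (p y))) r, F (g v) = F y ∧ HolTo (n := n) p g v) ∧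
      ∀ᶠ y' in 𝓝 y, F y' = F y → g (L (e (p y'))) = y' := by
  set a := e (p y) with ha
  obtain ⟨L, T, hT⟩ := exists_compl hNm (fderiv ℂ f a) hs
  have hfa : ContDiffAt ℂ ω f a := holo_contDiffAt' hf
  set G : Cm n → Cm N × Cm m := fun z => (f z, L z) with hGdef
  have hG : ContDiffAt ℂ ω G a := hfa.prodMk L.contDiff.contDiffAt
  have hG' : HasFDerivAt G (T : Cm n →L[ℂ] Cm N × Cm m) a := by
    have h1 : HasFDerivAt G ((fderiv ℂ f a).prod L) a :=
      (hfa.differentiableAt (by simp)).hasFDerivAt.prodMk L.hasFDerivAt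
    have h2 : (T : Cm n →L[ℂ] Cm N × Cm m) = (fderiv ℂ f a).prod L := by
      ext1 v
      exact hT v
    rw [h2]
    exact h1
  have hn : (ω : WithTop ℕ∞) ≠ 0 := by simp
  set H := hG.toOpenPartialHomeomorph G hG' hn with hH
  have hHG : (H : Cm n → Cm N × Cm m) = G := rfl
  have hHs : a ∈ H.source := ContDiffAt.mem_toOpenPartialHomeomorph_source hG hG' hn
  have hHt : G a ∈ H.target := ContDiffAt.image_mem_toOpenPartialHomeomorph_target hG hG' hn
  have hHi : H.symm (G a) = a := H.left_inv hHs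
  have hHc : ContDiffAt ℂ ω H.symm (G a) := hG.to_localInverse hG' hn
  obtain ⟨q, hqs, hqp⟩ := hp.isLocalHomeomorph y
  have hqp' : ∀ y, p y = q y := fun y => congrFun hqp y
  -- the parametrisation
  set ψ : Cm m → Cm n := fun v => H.symm (f a, v) with hψ
  set g : Cm m → E := fun v => q.symm (e.symm (ψ v)) with hg
  have hpair : ContinuousAt (fun v : Cm m => (f a, v)) (L a) := by fun_prop
  have hψd : ∀ᶠ v in 𝓝 (L a), DifferentiableAt ℂ ψ v := by
    have h1 : ∀ᶠ x in 𝓝 (G a), DifferentiableAt ℂ H.symm x := by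
      have h2 := hHc.eventually (by simp)
      exact h2.mono fun x hx => hx.differentiableAt (by simp)
    have h3 : Tendsto (fun v : Cm m => (f a, v)) (𝓝 (L a)) (𝓝 (G a)) := hpair
    filter_upwards [h3.eventually h1] with v hv
    exact DifferentiableAt.comp v hv (by fun_prop)
  have hψa : ψ (L a) = a := hHi
  have hψt : Tendsto ψ (𝓝 (L a)) (𝓝 a) := by
    have := hψd.self_of_nhds.continuousAt.tendsto
    rwa [hψa] at this
  have hea : e.symm a = p y := e.left_inv he.2
  have hat : a ∈ e.target := e.map_source he.2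
  have het : Tendsto (fun v => e.symm (ψ v)) (𝓝 (L a)) (𝓝 (p y)) := by
    have h1 : Tendsto e.symm (𝓝 a) (𝓝 (e.symm a)) := (e.continuousAt_symm hat).tendsto
    rw [hea] at h1
    exact h1.comp hψt
  have hqy : q.symm (p y) = y := by rw [hqp']; exact q.left_inv hqs
  have hpt : p y ∈ q.target := by rw [hqp']; exact q.map_source hqs
  have hgt : Tendsto g (𝓝 (L a)) (𝓝 y) := by
    have h1 : Tendsto q.symm (𝓝 (p y)) (𝓝 (q.symm (p y))) := (q.continuousAt_symm hpt).tendsto
    rw [hqy] at h1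
    exact h1.comp het
  have hga : g (L a) = y := by
    show q.symm (e.symm (ψ (L a))) = y
    rw [hψa, hea, hqy]
  -- the good neighbourhood
  have hev : ∀ᶠ v in 𝓝 (L a), F (g v) = F y ∧ HolTo (n := n) p g v := by
    have e1 : ∀ᶠ v in 𝓝 (L a), (f a, v) ∈ H.target :=
      hpair.eventually (H.open_target.mem_nhds hHt)
    have e2 : ∀ᶠ v in 𝓝 (L a), ψ v ∈ e.target := hψt.eventually (e.open_target.mem_nhds hat)
    have e3 : ∀ᶠ v in 𝓝 (L a), e.symm (ψ v) ∈ q.target :=
      het.eventually (q.open_target.mem_nhds hpt)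
    have e4 : ∀ᶠ v in 𝓝 (L a), F (g v) = f (e (p (g v))) := hgt.eventually hF
    have e5 : ∀ᶠ v in 𝓝 (L a), p (g v) = e.symm (ψ v) := by
      filter_upwards [e3] with v hv
      rw [hqp']
      exact q.right_inv hv
    filter_upwards [e1, e2, e3, e4, e5.eventually_nhds, hψd] with v h1 h2 h3 h4 h5 h6
    constructor
    · rw [h4, h5.self_of_nhds, e.right_inv h2, hF.self_of_nhds]
      have h7 : G (ψ v) = (f a, v) := H.right_inv h1
      exact congrArg Prod.fst h7
    · have hψc : ContinuousAt ψ v := h6.continuousAt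
      have hec : ContinuousAt (fun v => e.symm (ψ v)) v :=
        ContinuousAt.comp (g := e.symm) (e.continuousAt_symm h2) hψc
      refine ⟨ContinuousAt.comp (g := q.symm) (q.continuousAt_symm h3) hec, fun e' he' => ?_⟩
      have h8 : At e (p (g v)) := by
        rw [h5.self_of_nhds]
        exact ⟨he.1, e.map_target h2⟩
      have h9 : (fun s => e' (p (g s))) =ᶠ[𝓝 v] fun s => e' (e.symm (ψ s)) := by
        filter_upwards [h5] with s hs
        rw [hs]
      refine DifferentiableAt.congr_of_eventuallyEq ?_ h9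
      have h10 : DifferentiableAt ℂ (fun z => e' (e.symm z)) (ψ v) := by
        have := transition_differentiableAt h8 he'
        rwa [h5.self_of_nhds, e.right_inv h2] at this
      exact DifferentiableAt.comp (g := fun z => e' (e.symm z)) v h10 h6
  obtain ⟨r, hr, hball⟩ := Metric.eventually_nhds_iff_ball.1 hev
  refine ⟨L, g, r, hr, ?_, hga, hball, ?_⟩
  · intro v h1 h2
    have h3 : T v = 0 := by rw [hT v, h1, h2]; rfl
    exact (ContinuousLinearEquiv.map_eq_zero_iff T).1 h3
  · have hep : Tendsto (fun y' => e (p y')) (𝓝 y) (𝓝 a) :=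
      (e.continuousAt he.2).tendsto.comp hp.continuous.continuousAt
    filter_upwards [hep.eventually (H.open_source.mem_nhds hHs), hF,
      q.open_source.mem_nhds hqs, hp.continuous.continuousAt.eventually
        (e.open_source.mem_nhds he.2)] with y' h1 h2 h3 h4 h5
    show q.symm (e.symm (H.symm (f a, L (e (p y'))))) = y'
    have h6 : f a = f (e (p y')) := by rw [← h2, h5, hF.self_of_nhds]
    have h7 : H.symm (f a, L (e (p y'))) = e (p y') := by
      rw [h6]
      exact H.left_inv h1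
    rw [h7, e.left_inv h4, hqp']
    exact q.left_inv h3

end

end Vale.Agent.P284.H5.W
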