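import Vale.Agent.P284.H5.FibP

/-!
# P284, theorem W: identity theorem along a regular fibre
-/

open scoped Manifold ContDiff Topology Pointwise ComplexConjugate ComplexOrder
open Filter Set Metric MeasureTheory

noncomputable section

namespace Vale.Agent.P284.H5.W

open Vale.Agent.P272.K Vale.Agent.P284.H894.V Vale.Agent.P284.H894.W Vale.Agent.P284.H5.V

open Classical in
/-- extension by zero -/
def ext {E : Type} (V₁ : Set E) (u : V₁ → ℝ) (y : E) : ℝ := if h : y ∈ V₁ then u ⟨y, h⟩ else 0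

theorem ext_of_mem {E : Type} {V₁ : Set E} {u : V₁ → ℝ} {y : E} (h : y ∈ V₁) :
    ext V₁ u y = u ⟨y, h⟩ := by
  unfold ext
  rw [dif_pos h]

section
variable {n : ℕ} {X : Type} [TopologicalSpace X] [ChartedSpace (Cm n) X] [IsManifold 𝓘(ℂ, Cm n) ω X]
  {E : Type} [TopologicalSpace E] {p : E → X}
  {w : Chart n X → Cm n → Matrix (Fin n) (Fin n) ℂ}

/-- the parametrisation of the component through `y` -/
theorem comp_param {N m : ℕ} (hNm : N + m = n) (hp : IsCoveringMap p) {F : E → Cm N} {B : ℝ}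
    (hB : HolB p w F B) {y₁ y : E} (hy : y ∈ connectedComponentIn (F ⁻¹' {F y₁}) y₁)
    (hreg : Reg (n := n) p F y) {e : Chart n X} (he : At e (p y)) :
    ∃ (f : Cm n → Cm N) (L : Cm n →L[ℂ] Cm m) (g : Cm m → E) (r : ℝ), 0 < r ∧
      (∀ᶠ y' in 𝓝 y, F y' = f (e (p y'))) ∧ (∀ᶠ z in 𝓝 (e (p y)), DifferentiableAt ℂ f z) ∧
      (∀ v, fderiv ℂ f (e (p y)) v = 0 → L v = 0 → v = 0) ∧
      g (L (e (p y))) = y ∧
      (∀ v ∈ ball (L (e (p y))) r, g v ∈ connectedComponentIn (F ⁻¹' {F y₁}) y₁ ∧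
        HolTo (n := n) p g v) ∧
      ∀ᶠ y' in 𝓝 y, y' ∈ connectedComponentIn (F ⁻¹' {F y₁}) y₁ → g (L (e (p y'))) = y' := by
  obtain ⟨f, hf1, hf2, -⟩ := hB y e he
  obtain ⟨L, g, r, hr, h1, h2, h3, h4⟩ := fib_param hNm hp he hf1 hf2 (hreg e f he hf1)
  have hsub : connectedComponentIn (F ⁻¹' {F y₁}) y₁ ⊆ F ⁻¹' {F y₁} :=
    connectedComponentIn_subset _ _
  have hFy : F y = F y₁ := hsub hy
  refine ⟨f, L, g, r, hr, hf1, hf2, h1, h2, fun v hv => ⟨?_, (h3 v hv).2⟩, ?_⟩
  · have h5 : IsPreconnected (g '' ball (L (e (p y))) r) := by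
      refine (convex_ball _ _).isPreconnected.image g fun v hv => ?_
      exact (h3 v hv).2.1.continuousWithinAt
    have h6 : y ∈ g '' ball (L (e (p y))) r := ⟨_, mem_ball_self hr, h2⟩
    have h7 : g '' ball (L (e (p y))) r ⊆ F ⁻¹' {F y₁} := by
      rintro _ ⟨v, hv, rfl⟩
      show F (g v) = F y₁
      rw [(h3 v hv).1, hFy]
    have h8 := h5.subset_connectedComponentIn h6 h7
    rw [connectedComponentIn_eq hy]
    exact h8 ⟨v, hv, rfl⟩
  · filter_upwards [h4] with y' h5 h6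
    exact h5 ((hsub h6 : F y' = F y₁).trans hFy.symm)

/-- identity theorem along a regular fibre -/
theorem along_zero {N m : ℕ} (hNm : N + m = n) (hp : IsCoveringMap p) {F : E → Cm N} {B B' : ℝ}
    (hB : HolB p w F B) {y₁ : E} (hreg : ∀ y, F y = F y₁ → Reg (n := n) p F y)
    {V₁ : Set E} (hV : V₁ = connectedComponentIn (F ⁻¹' {F y₁}) y₁) {u : V₁ → ℝ}
    (hu : Along p w V₁ u B') {y₂ : V₁} (h0 : ∀ᶠ y in 𝓝 y₂, u y = 0) : u = 0 := by
  have hconn : IsPreconnected V₁ := by rw [hV]; exact isPreconnected_connectedComponentIn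
  have : PreconnectedSpace V₁ := isPreconnected_iff_preconnectedSpace.1 hconn
  have hsub : V₁ ⊆ F ⁻¹' {F y₁} := by rw [hV]; exact connectedComponentIn_subset _ _
  set W : Set V₁ := {y | ∀ᶠ y' in 𝓝 y, u y' = 0} with hW
  have hopen : IsOpen W := isOpen_setOfPred_eventually_nhds
  have hclosed : IsClosed W := by
    rw [← closure_subset_iff_isClosed]
    intro y hy
    rw [mem_closure_iff_nhds] at hy
    set e := chartAt (Cm n) (p y) with he
    have hAt : At e (p y) := at_chartAt _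
    obtain ⟨f, L, g, r, hr, -, -, -, h2, h3, h4⟩ :=
      comp_param hNm hp hB (y₁ := y₁) (by rw [← hV]; exact y.2) (hreg y (hsub y.2)) hAt
    rw [← hV] at h3 h4
    have hg : ∀ v ∈ ball (L (e (p y))) r, ContDiffAt ℝ ∞ (fun s => ext V₁ u (g s)) v ∧
        cHess (fun s => ext V₁ u (g s)) v = 0 := by
      intro v hv
      have h5 : ∀ᶠ s in 𝓝 v, g s ∈ V₁ ∧ HolTo (n := n) p g s := by
        filter_upwards [isOpen_ball.mem_nhds hv] with s hs
        exact h3 s hs
      exact (hu m g v h5).1.self_of_nhds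
    have hq : ContinuousAt (fun y' : V₁ => L (e (p y'))) y := by
      refine L.continuous.continuousAt.comp ?_
      refine ContinuousAt.comp (g := e) (f := fun y' : V₁ => p y') (e.continuousAt hAt.2) ?_
      exact (hp.continuous.comp continuous_subtype_val).continuousAt
    have hN1 : ∀ᶠ y' : V₁ in 𝓝 y, L (e (p y')) ∈ ball (L (e (p y))) r :=
      hq.eventually (ball_mem_nhds _ hr)
    have hN2 : ∀ᶠ y' : V₁ in 𝓝 y, g (L (e (p y'))) = y' := by
      have h5 : Tendsto (fun y' : V₁ => (y' : E)) (𝓝 y) (𝓝 (y : E)) :=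
        continuous_subtype_val.continuousAt
      filter_upwards [h5.eventually h4] with y' h6
      exact h6 y'.2
    obtain ⟨y', ⟨h5, h6⟩, h7⟩ := hy _ (hN1.and hN2)
    have h8 : ∀ᶠ s in 𝓝 (L (e (p y'))), ext V₁ u (g s) = 0 := by
      have h9 : ContinuousAt g (L (e (p y'))) := (h3 _ h5).2.1
      have h7' : ∀ᶠ y'' in 𝓝 y', u y'' = 0 := h7
      rw [nhds_subtype_eq_comap, eventually_comap] at h7'
      have h10 : Tendsto g (𝓝 (L (e (p y')))) (𝓝 (y' : E)) := by
        have := h9.tendsto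
        rwa [h6] at this
      filter_upwards [h10.eventually h7', isOpen_ball.mem_nhds h5] with s h11 h12
      rw [ext_of_mem (h3 s h12).1]
      exact h11 ⟨g s, (h3 s h12).1⟩ rfl
    have h13 := eq_const_on_ball hg h5 h8
    show ∀ᶠ y'' in 𝓝 y, u y'' = 0
    filter_upwards [hN1, hN2] with y'' h14 h15
    have h16 := h13 _ h14
    rw [h15, ext_of_mem y''.2] at h16
    exact h16
  have huniv := IsClopen.eq_univ ⟨hclosed, hopen⟩ ⟨y₂, h0⟩
  funext y
  have h7 : y ∈ W := by rw [huniv]; trivial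
  have h8 : ∀ᶠ y' in 𝓝 y, u y' = 0 := h7
  exact h8.self_of_nhds

end

end Vale.Agent.P284.H5.W
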