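import Vale.Agent.P284.H409.K.Spec
import Vale.Agent.P272.K.N.MaxP

/-!
# P284, theorem K (helper5): `K2Stmt`, the maximum principle on a finite covering
-/

open scoped Manifold ContDiff Topology Pointwise ComplexConjugate ComplexOrder
open Filter Set Metric MeasureTheory

noncomputable section

namespace Vale.Agent.P284.H5.K2

open Vale.Agent.P272.K Vale.Agent.P284.H248 Vale.Agent.P284.H894 Vale.Agent.P284.H894.G
  Vale.Agent.P284.H894.V Vale.Agent.P284.H894.W Vale.Agent.P284.H913.V Vale.Agent.P284.H409.A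
  Vale.Agent.P284.H409.K

variable {n : ℕ}

theorem cHess_neg (f : Cm n → ℝ) (z : Cm n) : cHess (fun y => -f y) z = -cHess f z := by
  have h1 : ∀ k, dzb k (fun y => ((-f y : ℝ) : ℂ)) = fun y => -dzb k (fun y => (f y : ℂ)) y := by
    intro k
    ext y
    have h2 : (fun y => ((-f y : ℝ) : ℂ)) = fun y => -((f y : ℝ) : ℂ) := by
      ext y
      push_cast
      rfl
    simp only [dzb, h2, fderiv_fun_neg, neg_apply]
    ring
  ext j k
  simp only [cHess, Matrix.of_apply, Matrix.neg_apply, h1]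
  simp only [dz, fderiv_fun_neg, neg_apply]
  ring

variable {Γ : Type} [Group Γ]

/-- a smooth function on a finite covering has a maximum -/
theorem exists_max [Finite Γ] (C : Coc n Γ) (u : Γ → C.I → Cm n → ℝ) (hu : SmF C u) :
    ∃ γ a, ∃ z ∈ C.Ω a, ∀ γ' b, ∀ z' ∈ C.Ω b, u γ' b z' ≤ u γ a z := by
  have hsub : ∀ a, closedBall (C.c a) (C.r a) ⊆ C.Ω a := fun a z hz => by
    have := C.r_pos a
    have h2 : dist z (C.c a) ≤ C.r a := hz
    show dist z (C.c a) < 4 * C.r a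
    linarith
  have h1 : ∀ p : Γ × C.I, ∃ z ∈ closedBall (C.c p.2) (C.r p.2),
      ∀ z' ∈ closedBall (C.c p.2) (C.r p.2), u p.1 p.2 z' ≤ u p.1 p.2 z := by
    intro p
    obtain ⟨z, hz, h⟩ := (isCompact_closedBall (C.c p.2) (C.r p.2)).exists_isMaxOn
      ⟨C.c p.2, mem_closedBall_self (C.r_pos p.2).le⟩
      (f := u p.1 p.2) fun z hz =>
        (hu.smooth p.1 p.2 z (hsub p.2 hz)).continuousAt.continuousWithinAt
    exact ⟨z, hz, fun z' hz' => h hz'⟩
  choose Z hZ1 hZ2 using h1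
  obtain ⟨p, hp⟩ := Finite.exists_max fun p : Γ × C.I => u p.1 p.2 (Z p)
  refine ⟨p.1, p.2, Z p, hsub _ (hZ1 p), fun γ' b z' hz' => ?_⟩
  obtain ⟨b', h3, h4⟩ := C.cover b z' hz'
  rw [hu.compat γ' b b' z' h3]
  exact (hZ2 (γ' * C.κ b b' z', b') _ (ball_subset_closedBall h4)).trans (hp _)

theorem SmF.neg {C : Coc n Γ} {u : Γ → C.I → Cm n → ℝ} (hu : SmF C u) :
    SmF C fun γ a z => -u γ a z where
  smooth γ a z hz := (hu.smooth γ a z hz).neg
  compat γ a b z hz := by rw [hu.compat γ a b z hz]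

theorem isLocalMax {C : Coc n Γ} {u : Γ → C.I → Cm n → ℝ} {γ : Γ} {a : C.I} {z : Cm n}
    (hz : z ∈ C.Ω a) (h : ∀ γ' b, ∀ z' ∈ C.Ω b, u γ' b z' ≤ u γ a z) : IsLocalMax (u γ a) z := by
  filter_upwards [isOpen_ball.mem_nhds hz] with z' hz'
  exact h γ a z' hz'

/-- **K2**: the maximum principle. -/
theorem k2Stmt : K2Stmt := by
  intro n Γ _ _ C K F φ hφ A hF γ a z hz
  constructor
  · obtain ⟨γ0, a0, z0, hz0, hmax⟩ := exists_max C _ (SmF.neg hφ.toSmF)
    have h1 := N.neg_cHess_posSemidef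
      (((SmF.neg hφ.toSmF).smooth γ0 a0 z0 hz0).of_le (by norm_cast)) (isLocalMax hz0 hmax)
    rw [cHess_neg, neg_neg] at h1
    have hw := (K.ku a0).pos z0 hz0
    have h2 := N.det_re_le hw (B := K.w a0 z0 + cHess (φ γ0 a0) z0) (by
      rw [add_sub_cancel_left]
      exact h1)
    have h3 := Real.log_le_log (Complex.pos_iff.1 hw.det_pos).1 h2
    have h4 := hφ.eq γ0 a0 z0 hz0
    have h5 := hF γ0 a0 z0 hz0
    have h6 := hmax γ a z hz
    linarith [h5.2]
  · obtain ⟨γ0, a0, z0, hz0, hmax⟩ := exists_max C _ hφ.toSmF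
    have h1 := N.neg_cHess_posSemidef
      ((hφ.smooth γ0 a0 z0 hz0).of_le (by norm_cast)) (isLocalMax hz0 hmax)
    have hw := hφ.pos γ0 a0 z0 hz0
    have h2 := N.det_re_le hw (B := K.w a0 z0) (by
      have : K.w a0 z0 - (K.w a0 z0 + cHess (φ γ0 a0) z0) = -cHess (φ γ0 a0) z0 := by abel
      rw [this]
      exact h1)
    have h3 := Real.log_le_log (Complex.pos_iff.1 hw.det_pos).1 h2
    have h4 := hφ.eq γ0 a0 z0 hz0
    have h5 := hF γ0 a0 z0 hz0
    have h6 := hmax γ a z hz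
    linarith [h5.1]

end Vale.Agent.P284.H5.K2
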