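import Vale.Agent.P284.H409.SpecA
import Vale.Agent.P284.H977.Pi1

/-! # P284, theorem A, block API (helper5): the universal covering. -/

open scoped Manifold ContDiff Topology Pointwise
open Filter Set Metric

noncomputable section

namespace Vale.Agent.P284.H5.A

open Vale.Agent.P272.K Vale.Agent.P284.H248 Vale.Agent.P284.H894 Vale.Agent.P284.H894.G
  Vale.Agent.P284.H894.W Vale.Agent.P284.H409.A Vale.Agent.P284.H977

/-- **API** -/
theorem piStmtA : PiStmtA := by
  constructor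
  · intro h n X iT iT2 iC iCn iCh iM w hw Φ hΦ x Q gQ q hq hQ
    obtain ⟨Y, Γ, tY, hsc, gΓ, aΓ, π, e, hG⟩ := exists_uc (n := n) X x
    exact h n X w hw Φ hΦ Y Γ π hG Q (q.comp e.symm.toMonoidHom)
      (hq.comp e.symm.surjective) hQ
  · intro h n X iT iT2 iC iCn iCh iM w hw Φ hΦ x Q gQ q hq hQ
    obtain ⟨Y, Γ, tY, hsc, gΓ, aΓ, π, e, hG⟩ := exists_uc (n := n) X x
    exact h n X w hw Φ hΦ Y Γ π hG Q (q.comp e.symm.toMonoidHom)
      (hq.comp e.symm.surjective) hQ

end Vale.Agent.P284.H5.A
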