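import Vale.Agent.P272.K.Inv.Hess
import Vale.Agent.P272.K.QN.H86.Poly
import Mathlib.Analysis.Complex.Liouville

/-!
# P284 V16, part A: entire functions of polynomial growth on `ℂⁿ` form a finite-dimensional space
-/

open scoped Manifold ContDiff Topology Pointwise ComplexConjugate ComplexOrder
open Filter Set Metric MeasureTheory

noncomputable section

namespace Vale.Agent.P284.H5.V

open Vale.Agent.P272.K

variable {n : ℕ}

/-- `h` is differentiable over `ℂ` as soon as it is over `ℝ` with `∂̄h = 0`. -/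
lemma differentiableAt_of_dzb {h : Cm n → ℂ} {z : Cm n} (hd : DifferentiableAt ℝ h z)
    (h0 : ∀ k, dzb k h z = 0) : DifferentiableAt ℂ h z := by
  set L : Cm n →L[ℂ] ℂ := ∑ i, dz i h z • ContinuousLinearMap.proj (R := ℂ) (φ := fun _ => ℂ) i
    with hL
  have h1 : HasFDerivAt h L z := by
    refine hasFDerivAt_of_restrictScalars ℝ hd.hasFDerivAt ?_
    ext v
    rw [fderiv_eq]
    simp [hL, h0]
  exact h1.differentiableAt

lemma two_le : (2 : WithTop ℕ∞) ≤ ∞ := by decide

/-- entire functions -/
def Hol (h : Cm n → ℂ) : Prop := ContDiff ℝ ∞ h ∧ ∀ z k, dzb k h z = 0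

lemma Hol.diff {h : Cm n → ℂ} (hh : Hol h) : Differentiable ℂ h := fun z =>
  differentiableAt_of_dzb ((hh.1.differentiable (by simp)) z) (hh.2 z)

lemma Hol.dz {h : Cm n → ℂ} (hh : Hol h) (j : Fin n) : Hol (dz j h) := by
  refine ⟨contDiff_iff_contDiffAt.2 fun z => contDiffAt_dz (m := ∞) (r := ∞) hh.1.contDiffAt le_rfl, ?_⟩
  intro z k
  rw [← dz_dzb_comm (hh.1.contDiffAt.of_le two_le)]
  have : dzb k h = fun _ => 0 := funext fun z => hh.2 z k
  rw [this, dz_const]

lemma dz_smul_real {f : Cm n → ℂ} {z : Cm n} {i : Fin n} (c : ℝ) (hf : DifferentiableAt ℝ f z) :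
    dz i (c • f) z = c • dz i f z := by
  have := dz_const_mul (i := i) (c : ℂ) hf
  rw [show (c • f) = fun y => (c : ℂ) * f y from by funext y; simp, this]
  simp

lemma dzb_smul_real {f : Cm n → ℂ} {z : Cm n} {i : Fin n} (c : ℝ) (hf : DifferentiableAt ℝ f z) :
    dzb i (c • f) z = c • dzb i f z := by
  have := dzb_const_mul (i := i) (c : ℂ) hf
  rw [show (c • f) = fun y => (c : ℂ) * f y from by funext y; simp, this]
  simp

/-- The space of entire functions with `|h| ≤ C (1 + |z|)^m`. -/
def PG (n m : ℕ) : Submodule ℝ (Cm n → ℂ) where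
  carrier := {h | Hol h ∧ ∃ C : ℝ, ∀ z, ‖h z‖ ≤ C * (1 + ‖z‖) ^ m}
  zero_mem' := by
    refine ⟨⟨contDiff_const, fun z k => ?_⟩, 0, fun z => by simp⟩
    exact dzb_const (n := n) (0 : ℂ)
  add_mem' := by
    rintro f g ⟨⟨hf1, hf2⟩, Cf, hCf⟩ ⟨⟨hg1, hg2⟩, Cg, hCg⟩
    refine ⟨⟨hf1.add hg1, fun z k => ?_⟩, Cf + Cg, fun z => ?_⟩
    · have := dzb_add (i := k) ((hf1.differentiable (by simp)) z) ((hg1.differentiable (by simp)) z)
      rw [show f + g = fun y => f y + g y from rfl, this, hf2, hg2, add_zero]
    · rw [Pi.add_apply, add_mul]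
      exact (norm_add_le _ _).trans (add_le_add (hCf z) (hCg z))
  smul_mem' := by
    rintro c f ⟨⟨hf1, hf2⟩, Cf, hCf⟩
    refine ⟨⟨hf1.const_smul c, fun z k => ?_⟩, |c| * Cf, fun z => ?_⟩
    · rw [dzb_smul_real c ((hf1.differentiable (by simp)) z), hf2, smul_zero]
    · rw [Pi.smul_apply, norm_smul, mul_assoc]
      exact mul_le_mul_of_nonneg_left (hCf z) (norm_nonneg c)

/-- Cauchy estimate: `∂_j` lowers the degree. -/
lemma PG.dz_mem {m : ℕ} {h : Cm n → ℂ} (hh : h ∈ PG n (m + 1)) (j : Fin n) : dz j h ∈ PG n m := by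
  obtain ⟨hol, C, hC⟩ := hh
  refine ⟨hol.dz j, C * 2 ^ (m + 1), fun z => ?_⟩
  have hC0 : 0 ≤ C := by
    have := hC 0
    simp only [norm_zero, add_zero, one_pow, mul_one] at this
    exact (norm_nonneg _).trans this
  set R : ℝ := 1 + ‖z‖ with hR
  have hRpos : 0 < R := by positivity
  set q : ℂ → Cm n := fun t => z + t • (Pi.single j 1 : Cm n) with hq
  have hqd : ∀ t, HasDerivAt q (Pi.single j 1 : Cm n) t := by
    intro t
    have h1 : HasDerivAt (fun t : ℂ => t • (Pi.single j 1 : Cm n)) ((1 : ℂ) • (Pi.single j 1 : Cm n)) t :=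
      (hasDerivAt_id t).smul_const _
    rw [one_smul] at h1
    exact h1.const_add z
  have hd : Differentiable ℂ fun t => h (q t) := fun t =>
    (hol.diff (q t)).comp t (hqd t).differentiableAt
  have h1 : deriv (fun t => h (q t)) 0 = Vale.Agent.P272.K.dz j h z := by
    have h2 : HasFDerivAt h (fderiv ℂ h (q 0)) (q 0) := (hol.diff (q 0)).hasFDerivAt
    have h3 := h2.comp_hasDerivAt (0 : ℂ) (hqd 0)
    have h4 : q 0 = z := by simp [hq]
    rw [h4] at h3
    rw [dz_of_holo (hol.diff z)]
    exact h3.deriv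
  rw [← h1]
  have h5 := Complex.norm_deriv_le_of_forall_mem_sphere_norm_le (f := fun t => h (q t)) (c := 0)
    (R := R) (C := C * (2 * R) ^ (m + 1)) hRpos hd.diffContOnCl (by
      intro t ht
      have ht' : ‖t‖ = R := by simpa using ht
      refine (hC _).trans ?_
      refine mul_le_mul_of_nonneg_left ?_ hC0
      refine pow_le_pow_left₀ (by positivity) ?_ _
      have : ‖q t‖ ≤ ‖z‖ + R := by
        refine (norm_add_le _ _).trans ?_
        rw [norm_smul, ht']
        have : ‖(Pi.single j 1 : Cm n)‖ ≤ 1 := by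
          rw [pi_norm_le_iff_of_nonneg zero_le_one]
          intro i
          by_cases hij : i = j
          · subst hij; simp
          · simp [hij]
        nlinarith [norm_nonneg (Pi.single j 1 : Cm n)]
      linarith)
  refine h5.trans (le_of_eq ?_)
  rw [mul_pow, pow_succ R m]
  field_simp

lemma const_of_dz {h : Cm n → ℂ} (hol : Hol h) (h0 : ∀ j z, dz j h z = 0) (z w : Cm n) :
    h z = h w := by
  refine is_const_of_fderiv_eq_zero (𝕜 := ℝ) (hol.1.differentiable (by simp)) (fun y => ?_) z w
  ext v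
  rw [fderiv_eq]
  simp [h0, hol.2]

theorem PG.finite (n m : ℕ) : FiniteDimensional ℝ (PG n m) := by
  induction m with
  | zero =>
    let L : PG n 0 →ₗ[ℝ] ℂ :=
      { toFun := fun h => (h : Cm n → ℂ) 0
        map_add' := fun a b => rfl
        map_smul' := fun a b => rfl }
    have hL : Function.Injective L := by
      intro a b hab
      have hc : ∀ h : PG n 0, ∀ z, (h : Cm n → ℂ) z = (h : Cm n → ℂ) 0 := by
        rintro ⟨h, hol, C, hC⟩ z
        refine hol.diff.apply_eq_apply_of_bounded ?_ z 0
        rw [isBounded_iff_forall_norm_le]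
        refine ⟨C, ?_⟩
        rintro _ ⟨y, rfl⟩
        simpa using hC y
      ext z
      rw [hc a, hc b]
      exact hab
    exact FiniteDimensional.of_injective L hL
  | succ m ih =>
    let L : PG n (m + 1) →ₗ[ℝ] ℂ × (Fin n → PG n m) :=
      { toFun := fun h => ((h : Cm n → ℂ) 0, fun j => ⟨dz j (h : Cm n → ℂ), PG.dz_mem h.2 j⟩)
        map_add' := by
          intro a b
          refine Prod.ext rfl ?_
          funext j
          refine Subtype.ext ?_
          funext z
          exact dz_add ((a.2.1.1.differentiable (by simp)) z) ((b.2.1.1.differentiable (by simp)) z)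
        map_smul' := by
          intro c a
          refine Prod.ext rfl ?_
          funext j
          refine Subtype.ext ?_
          funext z
          exact dz_smul_real c ((a.2.1.1.differentiable (by simp)) z) }
    have hL : Function.Injective L := by
      rw [injective_iff_map_eq_zero]
      intro a ha
      have h1 : (a : Cm n → ℂ) 0 = 0 := congrArg Prod.fst ha
      have h2 : ∀ j z, dz j (a : Cm n → ℂ) z = 0 := by
        intro j z
        have := congrFun (congrArg Prod.snd ha) j
        exact congrFun (congrArg Subtype.val this) z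
      ext z
      rw [const_of_dz a.2.1 h2 z 0, h1]
      rfl
    exact FiniteDimensional.of_injective L hL

end Vale.Agent.P284.H5.V
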