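import Vale.Agent.P284.H5.V16A

/-!
# P284 V16, part B: an entire function with `∫_{|z|<r} |h|² ≤ C r^ρ` has polynomial growth
-/

open scoped Manifold ContDiff Topology Pointwise ComplexConjugate ComplexOrder
open Filter Set Metric MeasureTheory

noncomputable section

namespace Vale.Agent.P284.H5.V

open Vale.Agent.P272.K

variable {n : ℕ}

lemma Hol.da {h : Cm n → ℂ} (hh : Hol h) (z : Cm n) : DifferentiableAt ℝ h z :=
  (hh.1.differentiable (by simp)) z

lemma cHess_normSq {h : Cm n → ℂ} (hol : Hol h) (z : Cm n) (j k : Fin n) :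
    cHess (fun y => ‖h y‖ ^ 2) z j k = dz j h z * cj (dz k h z) := by
  rw [cHess_apply]
  have h0 : (fun y => ((‖h y‖ ^ 2 : ℝ) : ℂ)) = fun y => h y * cj (h y) := by
    funext y
    rw [show cj (h y) = (starRingEnd ℂ) (h y) from rfl, Complex.mul_conj,
      Complex.normSq_eq_norm_sq]
  have hc : ∀ {F : Cm n → ℂ}, Hol F → ∀ y, DifferentiableAt ℝ (fun y => cj (F y)) y := fun hF y =>
    Complex.conjCLE.differentiableAt.comp y (hF.da y)
  have h1 : dzb k (fun y => h y * cj (h y)) = fun y => h y * cj (dz k h y) := by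
    funext y
    rw [dzb_mul (hol.da y) (hc hol y), dzb_cj (hol.da y), hol.2]
    ring
  rw [h0, h1, dz_mul (hol.da z) (hc (hol.dz k) z), dz_cj ((hol.dz k).da z), (hol.dz k).2]
  simp [cj]

lemma normSq_submean {h : Cm n → ℂ} (hol : Hol h) (z : Cm n) :
    ‖h z‖ ^ 2 ≤ (volume.real (ball (0 : Cm n) 1))⁻¹ * ∫ y in ball z 1, ‖h y‖ ^ 2 := by
  have hf : ContDiff ℝ 2 fun y => ‖h y‖ ^ 2 := (hol.1.of_le two_le).norm_sq ℝ
  have key := Vale.Agent.P272.K.QN.H86.polydisc_submean_average (f := fun y => ‖h y‖ ^ 2) (c := z)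
    (R := 1) (A := 0) one_pos le_rfl (fun y _ => hf.contDiffAt) (fun y _ => by
      have h1 : cHess (fun y => ‖h y‖ ^ 2) y + ((0 : ℝ) : ℂ) • (1 : Matrix (Fin n) (Fin n) ℂ) =
          Matrix.vecMulVec (fun j => dz j h y) (star fun j => dz j h y) := by
        ext j k
        rw [Complex.ofReal_zero, zero_smul, add_zero, cHess_normSq hol]
        rfl
      rw [h1]
      exact Matrix.posSemidef_vecMulVec_self_star _)
  have h2 : volume.real (ball z 1) = volume.real (ball (0 : Cm n) 1) := by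
    rw [measureReal_def, measureReal_def, Measure.addHaar_ball_center]
  rw [h2] at key
  simpa using key

theorem mem_PG_of_L2 {h : Cm n → ℂ} (hol : Hol h) {C ρ : ℝ}
    (hC : ∀ r : ℝ, 1 ≤ r → ∫ z in ball (0 : Cm n) r, ‖h z‖ ^ 2 ≤ C * r ^ ρ) {m : ℕ}
    (hm : ρ ≤ 2 * m) : h ∈ PG n m := by
  set c : ℝ := (volume.real (ball (0 : Cm n) 1))⁻¹ with hc
  have hc0 : 0 ≤ c := inv_nonneg.2 measureReal_nonneg
  have hC0 : 0 ≤ C := by
    have := hC 1 le_rfl
    rw [Real.one_rpow, mul_one] at this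
    exact (integral_nonneg fun z => by positivity).trans this
  refine ⟨hol, Real.sqrt (c * C), fun z => ?_⟩
  have hint : ∀ r : ℝ, IntegrableOn (fun y => ‖h y‖ ^ 2) (ball (0 : Cm n) r) := fun r =>
    (((hol.1.continuous.norm.pow 2).continuousOn).integrableOn_compact
      (isCompact_closedBall 0 r)).mono_set ball_subset_closedBall
  have h1 : ∫ y in ball z 1, ‖h y‖ ^ 2 ≤ C * (1 + ‖z‖) ^ ρ := by
    refine le_trans ?_ (hC (1 + ‖z‖) (by linarith [norm_nonneg z]))
    refine setIntegral_mono_set (hint _) (Eventually.of_forall fun y => by positivity) ?_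
    refine (ball_subset_ball' ?_).eventuallyLE
    rw [dist_zero_right]
  have h2 : (1 + ‖z‖) ^ ρ ≤ ((1 + ‖z‖) ^ m) ^ 2 := by
    calc (1 + ‖z‖) ^ ρ ≤ (1 + ‖z‖) ^ (2 * m : ℝ) :=
          Real.rpow_le_rpow_of_exponent_le (by linarith [norm_nonneg z]) hm
      _ = _ := by
        rw [← pow_mul, mul_comm m 2, ← Real.rpow_natCast]
        push_cast; rfl
  have h3 : ‖h z‖ ^ 2 ≤ (Real.sqrt (c * C) * (1 + ‖z‖) ^ m) ^ 2 := by
    rw [mul_pow, Real.sq_sqrt (mul_nonneg hc0 hC0)]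
    calc ‖h z‖ ^ 2 ≤ c * ∫ y in ball z 1, ‖h y‖ ^ 2 := normSq_submean hol z
      _ ≤ c * (C * (1 + ‖z‖) ^ ρ) := mul_le_mul_of_nonneg_left h1 hc0
      _ ≤ c * (C * ((1 + ‖z‖) ^ m) ^ 2) := by gcongr
      _ = _ := by ring
  exact le_of_sq_le_sq h3 (by positivity)

end Vale.Agent.P284.H5.V
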