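import Vale.Agent.P284.H5.V16C

/-!
# P284 V16, part D: the energy density and the lift
-/

open scoped Manifold ContDiff Topology Pointwise ComplexConjugate ComplexOrder
open Filter Set Metric MeasureTheory

noncomputable section

namespace Vale.Agent.P284.H5.V

open Vale.Agent.P272.K Vale.Agent.P284.H894.V

variable {n : ℕ}

/-- `Σ A_{jk} v_j v̄_k` -/
def qf (A : Matrix (Fin n) (Fin n) ℂ) (v : Cm n) : ℂ := ∑ j, ∑ k, A j k * v j * conj (v k)

lemma qf_eq (A : Matrix (Fin n) (Fin n) ℂ) (v : Cm n) :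
    qf A v = dotProduct v (A.mulVec (star v)) := by
  unfold qf dotProduct Matrix.mulVec dotProduct
  refine Finset.sum_congr rfl fun j _ => ?_
  rw [Finset.mul_sum]
  refine Finset.sum_congr rfl fun k _ => ?_
  simp only [Pi.star_apply, RCLike.star_def]
  ring

lemma qf_change (A' J : Matrix (Fin n) (Fin n) ℂ) (v : Cm n) :
    qf (J.transpose * A' * J.map (starRingEnd ℂ)) v = qf A' (J.mulVec v) := by
  have h1 : (J.map (starRingEnd ℂ)).mulVec (star v) = star (J.mulVec v) := by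
    ext i
    simp [Matrix.mulVec, dotProduct]
  rw [qf_eq, qf_eq, ← Matrix.mulVec_mulVec, h1, ← Matrix.mulVec_mulVec, Matrix.dotProduct_mulVec,
    Matrix.vecMul_transpose]

lemma qf_I (A : Matrix (Fin n) (Fin n) ℂ) (v : Cm n) : qf A (Complex.I • v) = qf A v := by
  unfold qf
  refine Finset.sum_congr rfl fun j _ => Finset.sum_congr rfl fun k _ => ?_
  simp only [Pi.smul_apply, smul_eq_mul, map_mul, Complex.conj_I]
  linear_combination (-(A j k * v j * conj (v k))) * Complex.I_mul_I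

lemma qf_nonneg {A : Matrix (Fin n) (Fin n) ℂ} (hA : A.PosDef) (v : Cm n) : 0 ≤ (qf A v).re := by
  have h := hA.posSemidef.dotProduct_mulVec_nonneg (star v)
  rw [star_star, ← qf_eq] at h
  exact (Complex.nonneg_iff.1 h).1

section
variable {X : Type} [TopologicalSpace X] [ChartedSpace (Cm n) X] [IsManifold 𝓘(ℂ, Cm n) ω X]
  {E : Type} [TopologicalSpace E]
  {p : E → X} {w : Chart n X → Cm n → Matrix (Fin n) (Fin n) ℂ} {u : E → ℝ} {B : ℝ}
  {Φ : Cm n → X}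

lemma tau_smooth (hΦ : ContMDiff 𝓘(ℂ, Cm n) 𝓘(ℂ, Cm n) ω Φ) {ζ : Cm n} {e : Chart n X}
    (he : At e (Φ ζ)) : ContDiffAt ℂ ω (fun ξ => e (Φ ξ)) ζ := by
  rw [← contMDiffAt_iff_contDiffAt]
  exact ContMDiffAt.comp ζ (chart_contMDiffAt he) hΦ.contMDiffAt

omit [IsManifold 𝓘(ℂ, Cm n) ω X] in
lemma at_near (hΦ : ContMDiff 𝓘(ℂ, Cm n) 𝓘(ℂ, Cm n) ω Φ) {ζ : Cm n} {e : Chart n X}
    (he : At e (Φ ζ)) : ∀ᶠ ξ in 𝓝 ζ, At e (Φ ξ) := by
  filter_upwards [hΦ.continuous.continuousAt.eventually (e.open_source.mem_nhds he.2)] with ξ hξ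
  exact ⟨he.1, hξ⟩

/-- the energy density in a chart -/
lemma enDens_eq (hw : IsHermitian w) (hΦ : ContMDiff 𝓘(ℂ, Cm n) 𝓘(ℂ, Cm n) ω Φ) {ζ : Cm n}
    {e : Chart n X} (he : At e (Φ ζ)) :
    enDens w Φ ζ = (∑ j, qf (w e (e (Φ ζ))) fun k => dz j (fun ξ => e (Φ ξ) k) ζ).re := by
  have h0 : enDens w Φ ζ = (∑ j, qf (w (chartAt (Cm n) (Φ ζ)) (chartAt (Cm n) (Φ ζ) (Φ ζ)))
      fun k => dz j (fun ξ => chartAt (Cm n) (Φ ζ) (Φ ξ) k) ζ).re := rfl
  rw [h0]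
  set e₁ := chartAt (Cm n) (Φ ζ) with he₁
  have hAt : At e₁ (Φ ζ) := at_chartAt _
  congr 1
  refine Finset.sum_congr rfl fun j _ => ?_
  rw [hw.change e₁ e (Φ ζ) hAt he, qf_change]
  congr 1
  have h1 : (fun ξ => e (Φ ξ)) =ᶠ[𝓝 ζ] fun ξ => e (e₁.symm (e₁ (Φ ξ))) := by
    filter_upwards [at_near hΦ hAt] with ξ hξ
    rw [hξ.left_inv]
  have h2 : jmat (fun ξ => e (Φ ξ)) ζ = jacM e₁ e (Φ ζ) * jmat (fun ξ => e₁ (Φ ξ)) ζ := by
    rw [jmat_congr h1, jacM_eq]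
    exact jmat_comp (τ := fun ξ => e₁ (Φ ξ)) (σ := fun z => e (e₁.symm z)) (z := ζ)
      (transition_differentiableAt hAt he) ((tau_smooth hΦ hAt).differentiableAt (by simp))
  funext k
  have h3 := congrFun (congrFun h2 k) j
  rw [Matrix.mul_apply] at h3
  exact h3.symm

lemma enDens_nonneg (hw : IsHermitian w) (hΦ : ContMDiff 𝓘(ℂ, Cm n) 𝓘(ℂ, Cm n) ω Φ) (ζ : Cm n) :
    0 ≤ enDens w Φ ζ := by
  have hAt := at_chartAt (n := n) (Φ ζ)
  rw [enDens_eq hw hΦ hAt, Complex.re_sum]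
  exact Finset.sum_nonneg fun j _ => qf_nonneg (hw.posDef _ _ hAt) _

lemma enDens_continuous (hw : IsHermitian w) (hΦ : ContMDiff 𝓘(ℂ, Cm n) 𝓘(ℂ, Cm n) ω Φ) :
    Continuous (enDens w Φ) := by
  rw [continuous_iff_continuousAt]
  intro ζ
  set e := chartAt (Cm n) (Φ ζ) with he
  have hAt : At e (Φ ζ) := at_chartAt _
  have hτ := tau_smooth hΦ hAt
  have h1 : enDens w Φ =ᶠ[𝓝 ζ] fun ξ =>
      (∑ j, qf (w e (e (Φ ξ))) fun k => dz j (fun ξ => e (Φ ξ) k) ξ).re := by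
    filter_upwards [at_near hΦ hAt] with ξ hξ
    exact enDens_eq hw hΦ hξ
  refine ContinuousAt.congr ?_ h1.symm
  have hw' : ∀ k l, ContinuousAt (fun ξ => w e (e (Φ ξ)) k l) ζ := fun k l =>
    ContinuousAt.comp (f := fun ξ => e (Φ ξ)) (g := fun z => w e z k l)
      (hw.smooth e _ hAt k l).continuousAt hτ.continuousAt
  have hd : ∀ j k, ContinuousAt (fun ξ => dz j (fun ξ => e (Φ ξ) k) ξ) ζ := by
    intro j k
    have h2 : ContDiffAt ℝ ω (fun ξ => e (Φ ξ) k) ζ :=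
      (contDiffAt_pi.1 (hτ.restrict_scalars ℝ)) k
    exact (contDiffAt_dz (m := 0) h2 (by simp)).continuousAt
  refine Complex.continuous_re.continuousAt.comp ?_
  refine tendsto_finsetSum _ fun j _ => tendsto_finsetSum _ fun k _ =>
    tendsto_finsetSum _ fun l _ => ?_
  exact ((hw' k l).mul (hd j k)).mul (Complex.continuous_conj.continuousAt.comp (hd j l))

/-- Local properties of `u ∘ Φ~`. -/
lemma lift_local (hw : IsHermitian w) (hΦ : ContMDiff 𝓘(ℂ, Cm n) 𝓘(ℂ, Cm n) ω Φ)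
    (hu : IsPHB p w u B) {F : Cm n → E} (hF : Continuous F) (hpF : ∀ ζ, p (F ζ) = Φ ζ)
    (ζ : Cm n) : ContDiffAt ℝ ∞ (fun ξ => u (F ξ)) ζ ∧ cHess (fun ξ => u (F ξ)) ζ = 0 ∧
      ∑ j, ‖dz j (fun ξ => (u (F ξ) : ℂ)) ζ‖ ^ 2 ≤ B / 2 * enDens w Φ ζ := by
  set e := chartAt (Cm n) (Φ ζ) with he
  have hAt : At e (Φ ζ) := at_chartAt _
  obtain ⟨g, hug, hg, hB⟩ := hu (F ζ) e (by rw [hpF]; exact hAt)
  rw [hpF] at hg hB
  set τ : Cm n → Cm n := fun ξ => e (Φ ξ) with hτdef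
  have hτ : ContDiffAt ℂ ω τ ζ := tau_smooth hΦ hAt
  have hτd : DifferentiableAt ℂ τ ζ := hτ.differentiableAt (by simp)
  have hev : (fun ξ => u (F ξ)) =ᶠ[𝓝 ζ] fun ξ => g (τ ξ) := by
    filter_upwards [hF.continuousAt.eventually hug] with ξ hξ
    rw [hξ, hpF]
  have hgζ : ContDiffAt ℝ ∞ g (τ ζ) := hg.self_of_nhds.1
  have hgd : DifferentiableAt ℝ g (τ ζ) := hgζ.differentiableAt (by simp)
  refine ⟨?_, ?_, ?_⟩
  · refine ContDiffAt.congr_of_eventuallyEq ?_ hev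
    exact hgζ.comp ζ ((hτ.restrict_scalars ℝ).of_le (by simp))
  · rw [cHess_congr hev, cHess_comp (hgζ.of_le two_le) hτ, hg.self_of_nhds.2]
    simp
  · rw [enDens_eq hw hΦ hAt, Complex.re_sum, Finset.mul_sum]
    refine Finset.sum_le_sum fun j _ => ?_
    have hevc : (fun ξ => (u (F ξ) : ℂ)) =ᶠ[𝓝 ζ] fun ξ => ((g (τ ξ) : ℝ) : ℂ) := by
      filter_upwards [hev] with ξ hξ
      exact congrArg _ hξ
    rw [dz_congr hevc]
    set v : Cm n := fderiv ℂ τ ζ (Pi.single j 1) with hv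
    have hv' : (fun k => dz j (fun ξ => e (Φ ξ) k) ζ) = v := by
      funext k
      rw [hv, ← jmat_apply hτd]
      rfl
    rw [hv']
    have hvI : fderiv ℂ τ ζ (Pi.single j Complex.I) = Complex.I • v := by
      have : (Pi.single j Complex.I : Cm n) = Complex.I • Pi.single j 1 := by
        rw [← Pi.single_smul]; simp
      rw [this, map_smul]
    have hG : DifferentiableAt ℝ (fun y => (g y : ℂ)) (τ ζ) :=
      (ofReal_contDiffAt hgζ).differentiableAt (by simp)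
    have hGg : ∀ x : Cm n, fderiv ℝ (fun y => (g y : ℂ)) (τ ζ) x = ((fderiv ℝ g (τ ζ) x : ℝ) : ℂ) := by
      intro x
      have h1 : HasFDerivAt (fun y => (g y : ℂ)) (Complex.ofRealCLM.comp (fderiv ℝ g (τ ζ))) (τ ζ) :=
        Complex.ofRealCLM.hasFDerivAt.comp (τ ζ) hgd.hasFDerivAt
      rw [h1.fderiv]
      rfl
    have hdz : dz j (fun ξ => ((g (τ ξ) : ℝ) : ℂ)) ζ = (((fderiv ℝ g (τ ζ) v : ℝ) : ℂ) -
        Complex.I * ((fderiv ℝ g (τ ζ) (Complex.I • v) : ℝ) : ℂ)) / 2 := by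
      unfold dz
      rw [fderiv_comp_holo (f := fun y => (g y : ℂ)) hG hτd,
        fderiv_comp_holo (f := fun y => (g y : ℂ)) hG hτd, hvI, hGg, hGg]
    rw [hdz]
    set a := fderiv ℝ g (τ ζ) v
    set b := fderiv ℝ g (τ ζ) (Complex.I • v)
    have hn : ‖((a : ℂ) - Complex.I * (b : ℂ)) / 2‖ ^ 2 = (a ^ 2 + b ^ 2) / 4 := by
      rw [← Complex.normSq_eq_norm_sq, Complex.normSq_apply]
      simp
      ring
    rw [hn]
    have ha : a ^ 2 ≤ B * (qf (w e (e (Φ ζ))) v).re := hB v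
    have hb : b ^ 2 ≤ B * (qf (w e (e (Φ ζ))) v).re := by
      rw [← qf_I]
      exact hB (Complex.I • v)
    linarith

end

end Vale.Agent.P284.H5.V
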